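import Vale.Agent.P321.Rec

/-! The start of the recursion and the close pairs. -/

namespace Vale.Agent.P321

open MonoidAlgebra Finset

noncomputable section

section
variable {A v : ℝ} (hA : 100 ≤ A) (hv : A ^ 99 ≤ v)
include hA hv

lemma b1 : A * (4 * (A ^ 2 / (A ^ 9 * v ^ 16)) ^ 2 * (A ^ 3 / (A ^ 3 * v ^ 8)))
    + 8 * A ^ 2 * (4 * (A ^ 2 / (A ^ 9 * v ^ 16)) * (A ^ 3 / (A ^ 3 * v ^ 8))) ^ 2
      ≤ 1 / (A * v) ^ 32 := by
  have hA0 : 0 < A := by linarith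
  have hv0 : 0 < v := lt_of_lt_of_le (by positivity) hv
  have e : A * (4 * (A ^ 2 / (A ^ 9 * v ^ 16)) ^ 2 * (A ^ 3 / (A ^ 3 * v ^ 8)))
      + 8 * A ^ 2 * (4 * (A ^ 2 / (A ^ 9 * v ^ 16)) * (A ^ 3 / (A ^ 3 * v ^ 8))) ^ 2
      = (4 * (A ^ 19 * v ^ 8) + 128 * (A ^ 20 * v ^ 0)) / (A ^ 32 * v ^ 48) := by
    field_simp; ring
  rw [e, show 1 / (A * v) ^ 32 = (A ^ 0 * v ^ 16) / (A ^ 32 * v ^ 48) by field_simp]
  gcongr
  have h1 := mon hA hv (c := 8) (by norm_num) 19 8 0 16 (by norm_num) (by norm_num)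
  have h2 := mon hA hv (c := 256) (by norm_num) 20 0 0 16 (by norm_num) (by norm_num)
  linarith

lemma b2 : 4 * A ^ 2 * (4 * (A ^ 2 / (A ^ 9 * v ^ 16)) * (A ^ 3 / (A ^ 3 * v ^ 8))
      * (4 * (A ^ 2 / (A ^ 9 * v ^ 16)) ^ 2 * (A ^ 3 / (A ^ 3 * v ^ 8))))
    + 32 * A ^ 3 * (4 * (A ^ 2 / (A ^ 9 * v ^ 16)) * (A ^ 3 / (A ^ 3 * v ^ 8))) ^ 3
      ≤ 1 / (A * v) ^ 62 := by
  have hA0 : 0 < A := by linarith
  have hv0 : 0 < v := lt_of_lt_of_le (by positivity) hv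
  have e : 4 * A ^ 2 * (4 * (A ^ 2 / (A ^ 9 * v ^ 16)) * (A ^ 3 / (A ^ 3 * v ^ 8))
      * (4 * (A ^ 2 / (A ^ 9 * v ^ 16)) ^ 2 * (A ^ 3 / (A ^ 3 * v ^ 8))))
      + 32 * A ^ 3 * (4 * (A ^ 2 / (A ^ 9 * v ^ 16)) * (A ^ 3 / (A ^ 3 * v ^ 8))) ^ 3
      = (64 * (A ^ 43 * v ^ 8) + 2048 * (A ^ 44 * v ^ 0)) / (A ^ 62 * v ^ 72) := by
    field_simp; ring
  rw [e, show 1 / (A * v) ^ 62 = (A ^ 0 * v ^ 10) / (A ^ 62 * v ^ 72) by field_simp]
  gcongr
  have h1 := mon hA hv (c := 128) (by norm_num) 43 8 0 10 (by norm_num) (by norm_num)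
  have h2 := mon hA hv (c := 4096) (by norm_num) 44 0 0 10 (by norm_num) (by norm_num)
  linarith

lemma b3 {θ : ℝ} (hθ : 0 ≤ θ) : 20 * A ^ 2 * (26 * A ^ 2 * θ) ≤ (A * v) ^ 20 * θ := by
  calc 20 * A ^ 2 * (26 * A ^ 2 * θ) = 520 * (A ^ 4 * v ^ 0) * θ := by ring
    _ ≤ A ^ 20 * v ^ 20 * θ := mul_le_mul_of_nonneg_right
      (mon hA hv (by norm_num) _ _ _ _ (by norm_num) (by norm_num)) hθ
    _ = _ := by ring

lemma b4 {θ : ℝ} (h0 : 0 ≤ θ) (hθ : θ * (A * v) ^ 100 ≤ 1) : 1000 * A ^ 3 * θ ≤ 1 := by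
  refine le_trans ?_ hθ
  rw [mul_comm θ, mul_pow]
  refine mul_le_mul_of_nonneg_right ?_ h0
  simpa using mon hA hv (c := 1000) (by norm_num) 3 0 100 100 (by norm_num) (by norm_num)

lemma b5 {θ : ℝ} (h0 : 0 ≤ θ) (hθ : θ * (A * v) ^ 100 ≤ 1) :
    A * (4 * (A ^ 2 / (A ^ 9 * v ^ 16)) * (A ^ 3 / (A ^ 3 * v ^ 8)) + 26 * A ^ 2 * θ) ≤ 1 / 4 := by
  have hA0 : 0 < A := by linarith
  have hv0 : 0 < v := lt_of_lt_of_le (by positivity) hv
  have h1 := b4 hA hv h0 hθ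
  have h2 : A * (4 * (A ^ 2 / (A ^ 9 * v ^ 16)) * (A ^ 3 / (A ^ 3 * v ^ 8))) ≤ 1 / 8 := by
    rw [show A * (4 * (A ^ 2 / (A ^ 9 * v ^ 16)) * (A ^ 3 / (A ^ 3 * v ^ 8)))
      = 4 / (A ^ 6 * v ^ 24) by field_simp, div_le_div_iff₀ (by positivity) (by norm_num)]
    have := mon hA hv (c := 32) (by norm_num) 0 0 6 24 (by norm_num) (by norm_num)
    simp only [pow_zero, mul_one] at this
    linarith
  nlinarith

lemma b6 {θ : ℝ} (hθ : θ * (A * v) ^ 100 ≤ 1) : (A * v) ^ 20 * θ ≤ 1 / (A * v) ^ 64 := by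
  have hw := one_le_w hA hv
  generalize A * v = w at *
  rw [← le_div_iff₀ (by positivity)] at hθ
  have h1 : 1 / w ^ 100 ≤ 1 / w ^ 84 :=
    one_div_le_one_div_of_le (by positivity) (pow_le_pow_right₀ hw (by omega))
  calc w ^ 20 * θ ≤ w ^ 20 * (1 / w ^ 84) := by gcongr; exact hθ.trans h1
    _ = _ := by field_simp

end

lemma length_blk (i j : ℕ) : (bC ^ i * bd * bC ^ j).length = 2 * (i + j) + 1 := by
  rw [FreeMonoid.length_mul, FreeMonoid.length_mul, length_pow, length_pow]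
  simp only [bC, bd, FreeMonoid.length_mul, FreeMonoid.length_of]
  ring

lemma blk_ne (a : ℕ) : bC ^ a * bd * bC ^ (a + 2) ≠ bC ^ (a + 2) * bd * bC ^ a := by
  intro h
  rw [pow_add bC a 2] at h
  simp only [mul_assoc] at h
  have h2 := mul_left_cancel h
  rw [pow_two, bC, bd] at h2
  simp only [mul_assoc] at h2
  exact absurd (of_mul_inj.1 h2).1 (by decide)

set_option maxHeartbeats 1000000 in
lemma lev_base {q : ℝ} (h0 : 0 < q) (h1 : q < 1) {r A v m : ℕ} {θ : ℝ} (hr : D0 q ≤ r)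
    (hr1 : 1 ≤ r) (hrA : r ≤ A) (hc : 384 * Real.exp (2 * r / q ^ 4) ^ 2 ≤ A) (hq : 1 / q ^ 2 ≤ A)
    (hA : 100 ≤ A) (hv : A ^ 99 ≤ v) (hK : 2 ^ (m + 1) + 1 ≤ A)
    (hexp : Real.exp (-((A : ℝ) ^ 2 / 2)) ≤ θ) (hneg : (1 / (A : ℝ)) ^ (m + 1) ≤ θ)
    (hθ : θ * (A * v) ^ 100 ≤ 1) : Lev q A v m 62 ((A * v) ^ 20 * θ) := by
  have hA' : (100 : ℝ) ≤ A := by exact_mod_cast hA
  have hv' : (A : ℝ) ^ 99 ≤ v := by exact_mod_cast hv
  have hA0 : (0 : ℝ) < A := by linarith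
  have hv0 : (0 : ℝ) < v := lt_of_lt_of_le (by positivity) hv'
  have hA1 : 0 < A := by omega
  have hv1 : 0 < v := by exact_mod_cast hv0
  have hm : m + 1 ≤ A := by have := Nat.lt_two_pow_self (n := m + 1); omega
  have hK' : (2 : ℝ) ^ (m + 1) ≤ A := by exact_mod_cast (by omega : 2 ^ (m + 1) ≤ A)
  have hθ0 : 0 < θ := lt_of_lt_of_le (Real.exp_pos _) hexp
  have sC := st_tr h0 h1 bC
  have sd := st_tr h0 h1 bd
  have al1 := al_base h0 h1 sC (pos_C_one h0 h1)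
  have al2 : AL (tr q bd - tr q bC) ((1 / q ^ 2) • tr q bC) := by
    have e1 : 1 / q ≤ 1 / q ^ 2 := one_div_le_one_div_of_le (by positivity) (by nlinarith)
    have e2 : 1 ≤ 1 / q ^ 2 := by rw [le_div_iff₀ (by positivity)]; nlinarith
    constructor
    · refine ((((pos_C_d h0 h1).smul (c := 1 / q) (by positivity)).add sC.1).add
        (sC.1.smul (sub_nonneg.2 e1))).of_eq ?_
      rw [smul_sub, smul_smul, one_div_mul_cancel h0.ne', one_smul]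
      module
    · exact ((sC.1.smul (sub_nonneg.2 e2)).add sd.1).of_eq (by module)
  obtain ⟨N, hN⟩ : ∃ N, N = A ^ 18 * v ^ 32 := ⟨_, rfl⟩
  obtain ⟨J, hJ⟩ : ∃ J, J = A ^ 6 * v ^ 16 := ⟨_, rfl⟩
  have hN0 : 0 < N := by rw [hN]; positivity
  have hJN : J ≤ N := by
    rw [hJ, hN]
    simpa using monN hA hv (c := 1) (by norm_num) 6 16 18 32 (by norm_num) (by norm_num)
  obtain ⟨W, hW⟩ : ∃ W, W + 2 = A ^ 20 * v ^ 32 := ⟨A ^ 20 * v ^ 32 - 2, by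
    have := monN hA hv (c := 2) (by norm_num) 0 0 20 32 (by norm_num) (by norm_num)
    simp only [pow_zero, mul_one] at this
    omega⟩
  have hWN : W + 2 = A * (A * N) := by rw [hW, hN]; ring
  obtain ⟨a, ha⟩ : ∃ a, a + 1 = r * (W + 2) := ⟨r * (W + 2) - 1, by
    have : 0 < r * (W + 2) := by positivity
    omega⟩
  have i1 : (m + 1) * N ≤ A * N := by gcongr
  have i2 : (m + 1) * ((J - 1) * 1) ≤ A * N := by gcongr; omega
  have i3 : 100 * (A * N) ≤ a + 1 := by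
    rw [ha, hWN]
    calc 100 * (A * N) ≤ A * (A * N) := by gcongr
      _ ≤ r * (A * (A * N)) := Nat.le_mul_of_pos_left _ hr1
  have i4 : 100 * N ≤ A * N := by gcongr
  have mC : MixAt (tr q bC) N (1 / (A ^ 8 * v ^ 16)) :=
    (mix_base (by positivity) sC al1).mixAt hN0 (by positivity) (by
      rw [hN]; push_cast
      rw [show (A : ℝ) ^ 18 * v ^ 32 * (1 / (A ^ 8 * v ^ 16)) ^ 2 = A ^ 2 by field_simp]
      gcongr)
  have hs₀ : ∀ x : ℕ, N ≤ x → ((A : ℝ) ^ 9 * v ^ 16) ^ 2 ≤ x + 1 := fun x hx => by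
    have : (N : ℝ) ≤ x := by exact_mod_cast hx
    rw [hN] at this
    push_cast at this
    nlinarith
  have t4 := b4 hA' hv' hθ0.le hθ
  obtain ⟨O, S, dO, dS, eU, eV⟩ := level1 sC sd (A := A) (θ := θ) (s := A ^ 3 * v ^ 8)
    (s₀ := A ^ 9 * v ^ 16) (by positivity) hq al1 al2 (m := m) (N := N) (J := J) (a := a)
    (x₁ := a - (m + 1) * N - N) (x₂ := N) (y₁ := a - (m + 1) * ((J - 1) * 1) - (m + 1) * N - N)
    (y₂ := N) hA' hK' hexp hneg (by nlinarith [mul_pos (pow_pos hA0 2) hθ0]) mC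
    (by
      rw [hJ]; push_cast
      rw [show 2 * ((A : ℝ) ^ 6 * v ^ 16) * (1 / (A ^ 8 * v ^ 16)) = 2 / A ^ 2 by field_simp,
        div_le_div_iff₀ (by positivity) hA0]
      nlinarith)
    (by simpa using mon hA' hv' (c := 2) (by norm_num) 3 0 3 8 (by norm_num) (by norm_num))
    (by rw [hJ]; push_cast; exact le_of_eq (by ring))
    (by simpa using mon hA' hv' (c := 1) (by norm_num) 2 0 9 16 (by norm_num) (by norm_num))
    (hs₀ _ (by omega)) (hs₀ _ le_rfl) (hs₀ _ (by omega)) (hs₀ _ le_rfl) (by omega) (by omega)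
  have mG : Mix (tr q bC ^ (a + 1) * tr q bd * tr q bC ^ (a + 1)) ((A : ℝ) ^ 22 * v ^ 32) := by
    rw [ha]
    refine (mix_G1 h0 h1 hr W).mono ?_
    have e : (W : ℝ) + 2 = A ^ 20 * v ^ 32 := by exact_mod_cast hW
    have : (0 : ℝ) ≤ W := by positivity
    calc 192 * Real.exp (2 * r / q ^ 4) ^ 2 * (W + 3)
        ≤ 192 * Real.exp (2 * r / q ^ 4) ^ 2 * (2 * (W + 2)) := by gcongr; linarith
      _ = 384 * Real.exp (2 * r / q ^ 4) ^ 2 * (W + 2) := by ring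
      _ ≤ (A : ℝ) ^ 2 * (W + 2) := by gcongr; nlinarith
      _ = _ := by rw [e]; ring
  have sG : ∀ i j : ℕ, St (tr q bC ^ i * tr q bd * tr q bC ^ j) := fun i j =>
    ((sC.pow _).mul sd).mul (sC.pow _)
  have hτ : (A : ℝ) ^ 2 / (A ^ 9 * v ^ 16) ≤ 1 := by
    rw [div_le_one (by positivity)]
    simpa using mon hA' hv' (c := 1) (by norm_num) 2 0 9 16 (by norm_num) (by norm_num)
  have k := level2 (sG _ _) (sG _ _) (sG _ _) dO dS eU eV (by positivity) (by positivity) (by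
      rw [sq, ← mul_assoc]; gcongr; exact mul_le_of_le_one_right (by positivity) hτ)
    (m := m + 1) (N := A ^ 28 * v ^ 32) (P := A ^ 29 * v ^ 32) hA' hK' (b5 hA' hv' hθ0.le hθ)
    (mG.mixAt (ζ := 1 / A ^ 3) (by positivity) (by positivity)
      (le_of_eq (by push_cast; field_simp))) (by
      rw [mul_one_div, div_le_div_iff₀ (by positivity) hA0]
      nlinarith) (by
      calc (m + 1) * (A ^ 28 * v ^ 32) ≤ A * (A ^ 28 * v ^ 32) := by gcongr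
        _ = _ := by ring) (hneg.trans (le_mul_of_one_le_left hθ0.le (by nlinarith)))
  have k2 := k.mono (b1 hA' hv') (b2 hA' hv')
    (φ' := 1 / ((A : ℝ) * v) ^ 62 / ((A : ℝ) * v) ^ 4) (by positivity) (b3 hA' hv' hθ0.le)
  have hP : A ^ 29 * v ^ 32 + 1 + (2 ^ (m + 1) + 1) + A ^ 29 * v ^ 32
      ≤ 3 * (A ^ 29 * v ^ 32) := by
    have := monN hA hv (c := 2) (by norm_num) 1 0 29 32 (by norm_num) (by norm_num)
    simp only [pow_one, pow_zero, mul_one] at this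
    omega
  have m2 := inherit' k2.sH k2.sG hA hv mG (by positivity) hP k2.dG (b6 hA' hv' hθ)
  simp only [← map_pow, ← map_mul, ← map_tmw] at k2 mG m2
  have l1 : (bC ^ (a + 2) * bd * bC ^ a).length = (bC ^ (a + 1) * bd * bC ^ (a + 1)).length := by
    rw [length_blk, length_blk]; ring
  have l2 : (bC ^ a * bd * bC ^ (a + 2)).length = (bC ^ (a + 1) * bd * bC ^ (a + 1)).length := by
    rw [length_blk, length_blk]; ring
  refine ⟨_, _, _, _, tmw_ne (l1.trans l2.symm) (blk_ne a) _ _,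
    by rw [length_tmw l2 l1, length_tmw l1 l2], ?_, Nat.le_add_left _ _, k2, mG, m2⟩
  rw [length_tmw l1 l2, length_blk]
  have i5 : 2 * (a + 1 + (a + 1)) + 1 ≤ 5 * (A * (A ^ 20 * v ^ 32)) := by
    have : a + 1 ≤ A * (A ^ 20 * v ^ 32) := by rw [ha, hW]; gcongr
    omega
  calc _ ≤ 3 * (A ^ 29 * v ^ 32) * (5 * (A * (A ^ 20 * v ^ 32))) := by gcongr
    _ = 15 * (A ^ 50 * v ^ 64) := by ring
    _ ≤ A ^ 64 * v ^ 64 := monN hA hv (by norm_num) _ _ _ _ (by norm_num) (by norm_num)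
    _ = _ := by ring

end

end Vale.Agent.P321
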