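import Mathlib

/-! Signed finitely supported measures on a monoid, with convolution. -/

namespace Vale.Agent.P321

open MonoidAlgebra Finset

noncomputable section

abbrev Alg (M : Type*) := MonoidAlgebra ℝ M

variable {M N : Type*}

/-- linear extension -/
def lin {V : Type*} [AddCommMonoid V] [Module ℝ V] (F : M → V) : Alg M →ₗ[ℝ] V :=
  (Finsupp.linearCombination ℝ F).comp (MonoidAlgebra.coeffLinearEquiv ℝ).toLinearMap

/-- point mass -/
def dl (m : M) : Alg M := single m 1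

lemma lin_apply {V : Type*} [AddCommMonoid V] [Module ℝ V] (F : M → V) (X : Alg M) :
    lin F X = ∑ m ∈ X.coeff.support, X.coeff m • F m := by
  simp [lin, Finsupp.linearCombination_apply, Finsupp.sum]

lemma lin_apply_of_subset {V : Type*} [AddCommMonoid V] [Module ℝ V] (F : M → V) (X : Alg M)
    {s : Finset M} (hs : X.coeff.support ⊆ s) :
    lin F X = ∑ m ∈ s, X.coeff m • F m := by
  rw [lin_apply]
  refine Finset.sum_subset hs fun m _ hm => ?_
  rw [Finsupp.notMem_support_iff.1 hm, zero_smul]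

@[simp] lemma lin_single {V : Type*} [AddCommMonoid V] [Module ℝ V] (F : M → V) (m : M) (r : ℝ) :
    lin F (single m r) = r • F m := by
  simp [lin]

@[simp] lemma lin_dl {V : Type*} [AddCommMonoid V] [Module ℝ V] (F : M → V) (m : M) :
    lin F (dl m) = F m := by
  simp [dl]

lemma lin_ext {V : Type*} [AddCommMonoid V] [Module ℝ V] {f g : Alg M →ₗ[ℝ] V}
    (h : ∀ m, f (dl m) = g (dl m)) : f = g := by
  ext m
  simpa [dl] using h m

lemma eq_lin {V : Type*} [AddCommMonoid V] [Module ℝ V] (f : Alg M →ₗ[ℝ] V) (X : Alg M) :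
    f X = lin (fun m => f (dl m)) X := by
  have : f = lin (fun m => f (dl m)) := lin_ext fun m => by simp
  exact congr($this X)

lemma self_eq_sum (X : Alg M) {s : Finset M} (hs : X.coeff.support ⊆ s) :
    X = ∑ m ∈ s, X.coeff m • dl m := by
  have := eq_lin (LinearMap.id : Alg M →ₗ[ℝ] Alg M) X
  rw [lin_apply_of_subset _ _ hs] at this
  simpa using this

lemma map_lin {V W : Type*} [AddCommMonoid V] [Module ℝ V] [AddCommMonoid W] [Module ℝ W]
    (g : V →ₗ[ℝ] W) (F : M → V) (X : Alg M) : g (lin F X) = lin (fun m => g (F m)) X := by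
  simp [lin_apply, map_sum]

/-- integration of a function -/
abbrev ev (f : M → ℝ) : Alg M →ₗ[ℝ] ℝ := lin f

lemma ev_apply (f : M → ℝ) (X : Alg M) : ev f X = ∑ m ∈ X.coeff.support, X.coeff m * f m := by
  simp [lin_apply]

lemma ev_add_fun (f g : M → ℝ) (X : Alg M) : ev (fun m => f m + g m) X = ev f X + ev g X := by
  simp [ev_apply, mul_add, Finset.sum_add_distrib]

lemma ev_sub_fun (f g : M → ℝ) (X : Alg M) : ev (fun m => f m - g m) X = ev f X - ev g X := by
  simp [ev_apply, mul_sub, Finset.sum_sub_distrib]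

lemma ev_mul_fun (c : ℝ) (f : M → ℝ) (X : Alg M) : ev (fun m => c * f m) X = c * ev f X := by
  simp only [ev_apply, Finset.mul_sum]
  exact Finset.sum_congr rfl fun m _ => by ring

lemma ev_sum_fun {ι : Type*} (s : Finset ι) (f : ι → M → ℝ) (X : Alg M) :
    ev (fun m => ∑ i ∈ s, f i m) X = ∑ i ∈ s, ev (f i) X := by
  simp only [ev_apply, Finset.mul_sum]
  exact Finset.sum_comm

lemma ev_zero_fun (X : Alg M) : ev (fun _ => 0) X = 0 := by simp [ev_apply]

lemma ev_swap (f : M → N → ℝ) (X : Alg M) (Y : Alg N) :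
    ev (fun a => ev (fun b => f a b) Y) X = ev (fun b => ev (fun a => f a b) X) Y := by
  simp only [ev_apply, Finset.mul_sum]
  rw [Finset.sum_comm]
  exact Finset.sum_congr rfl fun b _ => Finset.sum_congr rfl fun a _ => by ring

open Classical in
lemma coeff_eq_ev (X : Alg M) (m : M) : X.coeff m = ev (fun a => if a = m then 1 else 0) X := by
  rw [ev_apply]
  simp only [mul_ite, mul_one, mul_zero, Finset.sum_ite_eq']
  split_ifs with h
  · rfl
  · exact Finsupp.notMem_support_iff.1 h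

/-- nonnegative measures -/
def Pos (X : Alg M) : Prop := ∀ m, 0 ≤ X.coeff m

lemma Pos.zero : Pos (0 : Alg M) := fun _ => le_rfl
lemma Pos.add {X Y : Alg M} (hX : Pos X) (hY : Pos Y) : Pos (X + Y) := fun m => by
  simpa using add_nonneg (hX m) (hY m)
lemma Pos.smul {X : Alg M} {c : ℝ} (hc : 0 ≤ c) (hX : Pos X) : Pos (c • X) := fun m => by
  simpa using mul_nonneg hc (hX m)
lemma Pos.sum {ι : Type*} {s : Finset ι} {f : ι → Alg M} (h : ∀ i ∈ s, Pos (f i)) :
    Pos (∑ i ∈ s, f i) := by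
  classical
  induction s using Finset.induction_on with
  | empty => simpa using Pos.zero
  | insert a s ha ih =>
    rw [Finset.sum_insert ha]
    exact (h a (by simp)).add (ih fun i hi => h i (by simp [hi]))
lemma pos_dl (m : M) : Pos (dl m) := fun a => by
  classical
  simp only [dl, coeff_single, Finsupp.single_apply]
  split_ifs <;> norm_num
lemma Pos.of_eq {X Y : Alg M} (hX : Pos X) (h : X = Y) : Pos Y := h ▸ hX

lemma Pos.lin {X : Alg M} (hX : Pos X) {F : M → Alg N} (hF : ∀ m, Pos (F m)) : Pos (lin F X) := by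
  rw [lin_apply]
  exact Pos.sum fun m _ => (hF m).smul (hX m)

lemma Pos.map {X : Alg M} (hX : Pos X) {f : Alg M →ₗ[ℝ] Alg N} (hf : ∀ m, Pos (f (dl m))) :
    Pos (f X) := by
  rw [eq_lin]; exact hX.lin hf

lemma Pos.ev_nonneg {X : Alg M} (hX : Pos X) {f : M → ℝ} (hf : ∀ m, 0 ≤ f m) : 0 ≤ ev f X := by
  rw [ev_apply]
  exact Finset.sum_nonneg fun m _ => mul_nonneg (hX m) (hf m)

lemma Pos.ev_mono {X : Alg M} (hX : Pos X) {f g : M → ℝ} (hf : ∀ m, f m ≤ g m) :
    ev f X ≤ ev g X := by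
  have := hX.ev_nonneg (f := fun m => g m - f m) fun m => sub_nonneg.2 (hf m)
  rw [ev_sub_fun] at this
  linarith

/-- total mass -/
def mass : Alg M →ₗ[ℝ] ℝ := ev fun _ => 1

@[simp] lemma mass_dl (m : M) : mass (dl m) = 1 := by simp [mass]

lemma Pos.mass_nonneg {X : Alg M} (hX : Pos X) : 0 ≤ mass X := hX.ev_nonneg fun _ => zero_le_one

lemma ev_const (c : ℝ) (X : Alg M) : ev (fun _ => c) X = c * mass X := by
  rw [mass, ← ev_mul_fun]; simp

lemma Pos.ev_le {X : Alg M} (hX : Pos X) {f : M → ℝ} {c : ℝ} (hf : ∀ m, f m ≤ c) :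
    ev f X ≤ c * mass X := by
  rw [← ev_const]; exact hX.ev_mono hf

lemma mass_le {X Y : Alg M} (h : Pos (Y - X)) : mass X ≤ mass Y := by
  have := h.mass_nonneg
  rw [map_sub] at this
  linarith

/-- `|Y| ≤ μ` pointwise -/
def AL (Y μ : Alg M) : Prop := Pos (μ - Y) ∧ Pos (μ + Y)

lemma AL.pos {Y μ : Alg M} (h : AL Y μ) : Pos μ :=
  ((h.1.add h.2).smul (c := 1 / 2) (by norm_num)).of_eq (by module)
lemma AL.neg {Y μ : Alg M} (h : AL Y μ) : AL (-Y) μ :=
  ⟨h.2.of_eq (by abel), h.1.of_eq (by abel)⟩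
lemma AL.add {Y μ Y' μ' : Alg M} (h : AL Y μ) (h' : AL Y' μ') : AL (Y + Y') (μ + μ') :=
  ⟨(h.1.add h'.1).of_eq (by abel), (h.2.add h'.2).of_eq (by abel)⟩
lemma AL.sub {Y μ Y' μ' : Alg M} (h : AL Y μ) (h' : AL Y' μ') : AL (Y - Y') (μ + μ') := by
  simpa [sub_eq_add_neg] using h.add h'.neg
lemma AL.mono {Y μ ν : Alg M} (h : AL Y μ) (h' : Pos (ν - μ)) : AL Y ν :=
  ⟨(h.1.add h').of_eq (by abel), (h.2.add h').of_eq (by abel)⟩
lemma AL.smul {Y μ : Alg M} (h : AL Y μ) (c : ℝ) : AL (c • Y) (|c| • μ) := by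
  rcases le_total 0 c with hc | hc
  · rw [abs_of_nonneg hc]
    exact ⟨(h.1.smul hc).of_eq (by module), (h.2.smul hc).of_eq (by module)⟩
  · rw [abs_of_nonpos hc]
    exact ⟨(h.2.smul (neg_nonneg.2 hc)).of_eq (by module),
      (h.1.smul (neg_nonneg.2 hc)).of_eq (by module)⟩
lemma AL.smul' {Y μ : Alg M} (h : AL Y μ) {c : ℝ} (hc : 0 ≤ c) : AL (c • Y) (c • μ) := by
  simpa [abs_of_nonneg hc] using h.smul c
lemma Pos.al {X : Alg M} (hX : Pos X) : AL X X :=
  ⟨Pos.zero.of_eq (by abel), hX.add hX⟩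
lemma Pos.al_zero {X : Alg M} (hX : Pos X) : AL 0 X :=
  ⟨hX.of_eq (by abel), hX.of_eq (by abel)⟩
lemma AL.of_eq {Y μ Y' μ' : Alg M} (h : AL Y μ) (h1 : Y = Y') (h2 : μ = μ') : AL Y' μ' :=
  h1 ▸ h2 ▸ h
lemma AL.sum {ι : Type*} {s : Finset ι} {Y μ : ι → Alg M} (h : ∀ i ∈ s, AL (Y i) (μ i)) :
    AL (∑ i ∈ s, Y i) (∑ i ∈ s, μ i) := by
  constructor
  · rw [← Finset.sum_sub_distrib]; exact Pos.sum fun i hi => (h i hi).1
  · rw [← Finset.sum_add_distrib]; exact Pos.sum fun i hi => (h i hi).2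
lemma al_iff {Y μ : Alg M} : AL Y μ ↔ ∀ m, |Y.coeff m| ≤ μ.coeff m := by
  constructor
  · rintro ⟨h1, h2⟩ m
    have a := h1 m
    have b := h2 m
    simp only [coeff_sub, coeff_add, Finsupp.coe_sub, Finsupp.coe_add, Pi.sub_apply,
      Pi.add_apply] at a b
    exact abs_le.2 ⟨by linarith, by linarith⟩
  · intro h
    refine ⟨fun m => ?_, fun m => ?_⟩
    · have := abs_le.1 (h m)
      simp only [coeff_sub, Finsupp.coe_sub, Pi.sub_apply]
      linarith
    · have := abs_le.1 (h m)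
      simp only [coeff_add, Finsupp.coe_add, Pi.add_apply]
      linarith

lemma AL.abs_ev_le {Y μ : Alg M} (h : AL Y μ) {f : M → ℝ} (hf : ∀ m, |f m| ≤ 1) :
    |ev f Y| ≤ mass μ := by
  have h1 := h.1.ev_nonneg (f := fun m => 1 + f m) fun m => by have := abs_le.1 (hf m); linarith
  have h2 := h.2.ev_nonneg (f := fun m => 1 - f m) fun m => by have := abs_le.1 (hf m); linarith
  have h3 := h.1.ev_nonneg (f := fun m => 1 - f m) fun m => by have := abs_le.1 (hf m); linarith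
  have h4 := h.2.ev_nonneg (f := fun m => 1 + f m) fun m => by have := abs_le.1 (hf m); linarith
  rw [ev_add_fun, map_sub, map_sub] at h1
  rw [ev_sub_fun, map_add, map_add] at h2
  rw [ev_sub_fun, map_sub, map_sub] at h3
  rw [ev_add_fun, map_add, map_add] at h4
  have : mass μ = ev (fun _ => 1) μ := rfl
  exact abs_le.2 ⟨by linarith, by linarith⟩

/-- pointwise absolute value -/
def absA (X : Alg M) : Alg M := ofCoeff (X.coeff.mapRange (fun r => |r|) abs_zero)

lemma al_absA (X : Alg M) : AL X (absA X) := al_iff.2 fun m => by simp [absA]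

/-- total variation norm -/
def nrm (X : Alg M) : ℝ := mass (absA X)

lemma nrm_nonneg (X : Alg M) : 0 ≤ nrm X := (al_absA X).pos.mass_nonneg

lemma AL.nrm_le {Y μ : Alg M} (h : AL Y μ) : nrm Y ≤ mass μ :=
  mass_le fun m => by
    have := al_iff.1 h m
    simp only [coeff_sub, Finsupp.coe_sub, Pi.sub_apply, absA, Finsupp.mapRange_apply]
    linarith

lemma abs_ev_le_nrm (Y : Alg M) {f : M → ℝ} (hf : ∀ m, |f m| ≤ 1) : |ev f Y| ≤ nrm Y :=
  (al_absA Y).abs_ev_le hf

lemma abs_mass_le_nrm (Y : Alg M) : |mass Y| ≤ nrm Y :=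
  abs_ev_le_nrm Y fun _ => by simp

lemma nrm_eq_sum (X : Alg M) {s : Finset M} (hs : X.coeff.support ⊆ s) :
    nrm X = ∑ m ∈ s, |X.coeff m| := by
  have : (absA X).coeff.support ⊆ s :=
    (Finsupp.support_mapRange (f := fun r : ℝ => |r|) (hf := abs_zero) (g := X.coeff)).trans hs
  rw [nrm, mass, lin_apply_of_subset _ _ this]
  simp [absA]

lemma exists_ev_eq_nrm (X : Alg M) : ∃ f : M → ℝ, (∀ m, |f m| ≤ 1) ∧ ev f X = nrm X := by
  refine ⟨fun m => SignType.sign (X.coeff m), fun m => ?_, ?_⟩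
  · rcases lt_trichotomy (X.coeff m) 0 with h | h | h <;> simp [h]
  · rw [nrm_eq_sum X subset_rfl, ev_apply]
    exact Finset.sum_congr rfl fun m _ => by rw [self_mul_sign]

lemma nrm_add_le (X Y : Alg M) : nrm (X + Y) ≤ nrm X + nrm Y := by
  simpa [nrm] using ((al_absA X).add (al_absA Y)).nrm_le
lemma nrm_neg (X : Alg M) : nrm (-X) = nrm X :=
  le_antisymm (al_absA X).neg.nrm_le (by simpa [nrm] using (al_absA (-X)).neg.nrm_le)
lemma nrm_sub_le (X Y : Alg M) : nrm (X - Y) ≤ nrm X + nrm Y := by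
  simpa [nrm] using ((al_absA X).sub (al_absA Y)).nrm_le
lemma nrm_sub_comm (X Y : Alg M) : nrm (X - Y) = nrm (Y - X) := by
  rw [← nrm_neg]; congr 1; abel
lemma nrm_triangle (X Y Z : Alg M) : nrm (X - Z) ≤ nrm (X - Y) + nrm (Y - Z) := by
  simpa using nrm_add_le (X - Y) (Y - Z)
lemma nrm_smul_le (c : ℝ) (X : Alg M) : nrm (c • X) ≤ |c| * nrm X := by
  simpa [nrm] using ((al_absA X).smul c).nrm_le
lemma nrm_zero : nrm (0 : Alg M) = 0 :=
  le_antisymm (by simpa using (Pos.zero (M := M)).al.nrm_le) (nrm_nonneg _)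
lemma nrm_sum_le {ι : Type*} (s : Finset ι) (f : ι → Alg M) :
    nrm (∑ i ∈ s, f i) ≤ ∑ i ∈ s, nrm (f i) := by
  simpa [nrm] using (AL.sum (s := s) fun i _ => al_absA (f i)).nrm_le
lemma Pos.nrm_le {X : Alg M} (h : Pos X) : nrm X ≤ mass X := h.al.nrm_le

/-- probability measures -/
def St (X : Alg M) : Prop := Pos X ∧ mass X = 1

lemma st_dl (m : M) : St (dl m) := ⟨pos_dl m, mass_dl m⟩
lemma St.nrm_le {X : Alg M} (h : St X) : nrm X ≤ 1 := h.2 ▸ h.1.nrm_le

/-- Markov maps -/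
structure Mk (f : Alg M →ₗ[ℝ] Alg N) : Prop where
  pos : ∀ X, Pos X → Pos (f X)
  mass : ∀ X, mass (f X) = mass X

lemma mk_of_dl {f : Alg M →ₗ[ℝ] Alg N} (h : ∀ m, St (f (dl m))) : Mk f := by
  refine ⟨fun X hX => hX.map fun m => (h m).1, fun X => ?_⟩
  have : mass.comp f = mass := lin_ext fun m => by simp [(h m).2]
  exact congr($this X)

lemma Mk.al {f : Alg M →ₗ[ℝ] Alg N} (hf : Mk f) {Y μ : Alg M} (h : AL Y μ) : AL (f Y) (f μ) :=
  ⟨(hf.pos _ h.1).of_eq (map_sub _ _ _), (hf.pos _ h.2).of_eq (map_add _ _ _)⟩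
lemma Mk.nrm_le {f : Alg M →ₗ[ℝ] Alg N} (hf : Mk f) (Y : Alg M) : nrm (f Y) ≤ nrm Y :=
  (hf.al (al_absA Y)).nrm_le.trans (hf.mass _).le
lemma Mk.st {f : Alg M →ₗ[ℝ] Alg N} (hf : Mk f) {Y : Alg M} (h : St Y) : St (f Y) :=
  ⟨hf.pos _ h.1, (hf.mass _).trans h.2⟩

section Monoid
variable [Monoid M]

lemma dl_mul (a b : M) : dl a * dl b = dl (a * b) := by simp [dl, single_mul_single]
lemma dl_one : dl (1 : M) = 1 := rfl

lemma ev_mul (f : M → ℝ) (X Y : Alg M) :
    ev f (X * Y) = ev (fun a => ev (fun b => f (a * b)) Y) X := by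
  have h1 := eq_lin ((ev f).comp (LinearMap.mulRight ℝ Y)) X
  simp only [LinearMap.comp_apply, LinearMap.mulRight_apply] at h1
  rw [h1]
  congr 2
  funext a
  have h2 := eq_lin ((ev f).comp (LinearMap.mulLeft ℝ (dl a))) Y
  simp only [LinearMap.comp_apply, LinearMap.mulLeft_apply, dl_mul, lin_dl] at h2
  exact h2

lemma ev_one (f : M → ℝ) : ev f (1 : Alg M) = f 1 := by rw [← dl_one, lin_dl]

lemma ev_mul_char (f : M → ℝ) (hf : ∀ a b, f (a * b) = f a * f b) (X Y : Alg M) :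
    ev f (X * Y) = ev f X * ev f Y := by
  rw [ev_mul]
  simp only [hf, ev_mul_fun]
  rw [mul_comm, ← ev_mul_fun]
  simp only [mul_comm]

lemma mass_mul (X Y : Alg M) : mass (X * Y) = mass X * mass Y :=
  ev_mul_char _ (by simp) X Y
@[simp] lemma mass_one : mass (1 : Alg M) = 1 := by rw [← dl_one, mass_dl]
lemma mass_pow (X : Alg M) (n : ℕ) : mass (X ^ n) = mass X ^ n := by
  induction n with
  | zero => simp
  | succ n ih => rw [pow_succ, mass_mul, ih, pow_succ]

lemma Pos.one : Pos (1 : Alg M) := pos_dl 1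
lemma Pos.mul {X Y : Alg M} (hX : Pos X) (hY : Pos Y) : Pos (X * Y) := by
  refine hX.map (f := LinearMap.mulRight ℝ Y) fun a => ?_
  refine hY.map (f := LinearMap.mulLeft ℝ (dl a)) fun b => ?_
  simpa [dl_mul] using pos_dl (a * b)
lemma Pos.pow {X : Alg M} (hX : Pos X) (n : ℕ) : Pos (X ^ n) := by
  induction n with
  | zero => simpa using Pos.one
  | succ n ih => rw [pow_succ]; exact ih.mul hX
lemma St.one : St (1 : Alg M) := ⟨Pos.one, mass_one⟩
lemma St.mul {X Y : Alg M} (hX : St X) (hY : St Y) : St (X * Y) :=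
  ⟨hX.1.mul hY.1, by rw [mass_mul, hX.2, hY.2, one_mul]⟩
lemma St.pow {X : Alg M} (hX : St X) (n : ℕ) : St (X ^ n) :=
  ⟨hX.1.pow n, by rw [mass_pow, hX.2, one_pow]⟩

lemma AL.mul {Y μ Y' μ' : Alg M} (h : AL Y μ) (h' : AL Y' μ') : AL (Y * Y') (μ * μ') := by
  constructor
  · refine (((h.1.mul h'.2).add (h.2.mul h'.1)).smul (c := 1 / 2) (by norm_num)).of_eq ?_
    simp only [mul_add, add_mul, mul_sub, sub_mul]
    module
  · refine (((h.1.mul h'.1).add (h.2.mul h'.2)).smul (c := 1 / 2) (by norm_num)).of_eq ?_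
    simp only [mul_add, add_mul, mul_sub, sub_mul]
    module

lemma nrm_mul_le (X Y : Alg M) : nrm (X * Y) ≤ nrm X * nrm Y := by
  simpa [nrm, mass_mul] using ((al_absA X).mul (al_absA Y)).nrm_le
lemma St.nrm_mul_left {X : Alg M} (hX : St X) (Y : Alg M) : nrm (X * Y) ≤ nrm Y := by
  have := nrm_mul_le X Y
  have := hX.nrm_le
  have := nrm_nonneg Y
  nlinarith
lemma St.nrm_mul_right {X : Alg M} (hX : St X) (Y : Alg M) : nrm (Y * X) ≤ nrm Y := by
  have := nrm_mul_le Y X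
  have := hX.nrm_le
  have := nrm_nonneg Y
  nlinarith
lemma nrm_sand {X Z : Alg M} (hX : St X) (hZ : St Z) (Y : Alg M) : nrm (X * Y * Z) ≤ nrm Y :=
  (hZ.nrm_mul_right _).trans (hX.nrm_mul_left _)

lemma mk_mulLeft {X : Alg M} (hX : St X) : Mk (LinearMap.mulLeft ℝ X) :=
  ⟨fun _ h => hX.1.mul h, fun Y => by simp [mass_mul, hX.2]⟩
lemma mk_mulRight {X : Alg M} (hX : St X) : Mk (LinearMap.mulRight ℝ X) :=
  ⟨fun _ h => h.mul hX.1, fun Y => by simp [mass_mul, hX.2]⟩

/-- telescoping for powers of states -/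
lemma nrm_pow_sub_pow {X Y : Alg M} (hX : St X) (hY : St Y) (n : ℕ) :
    nrm (X ^ n - Y ^ n) ≤ n * nrm (X - Y) := by
  induction n with
  | zero => simp [nrm_zero]
  | succ n ih =>
    have e : X ^ (n + 1) - Y ^ (n + 1) = (X ^ n - Y ^ n) * X + Y ^ n * (X - Y) := by
      rw [pow_succ, pow_succ]; noncomm_ring
    rw [e]
    have h1 := hX.nrm_mul_right (X ^ n - Y ^ n)
    have h2 := (hY.pow n).nrm_mul_left (X - Y)
    have h3 := nrm_add_le ((X ^ n - Y ^ n) * X) (Y ^ n * (X - Y))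
    push_cast
    linarith

end Monoid

end

end Vale.Agent.P321
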