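import Vale.Agent.P321.Chi

/-! From one overlap to diffusive mixing. -/

namespace Vale.Agent.P321

open MonoidAlgebra Finset

noncomputable section

variable {M : Type*} [Monoid M]

/-- real part of a rotated power of `U + e^{iθ} V` -/
def ZZ (U V : Alg M) (θ : ℝ) : ℕ → ℝ → Alg M
  | 0, φ => Real.cos φ • 1
  | J + 1, φ => U * ZZ U V θ J φ + V * ZZ U V θ J (φ + θ)

lemma ZZ_comb (U V : Alg M) (θ : ℝ) {a b c φ₁ φ₂ φ₃ : ℝ}
    (h : ∀ x, a * Real.cos (x + φ₁) + b * Real.cos (x + φ₂) = c * Real.cos (x + φ₃)) (J : ℕ)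
    (x : ℝ) :
    a • ZZ U V θ J (x + φ₁) + b • ZZ U V θ J (x + φ₂) = c • ZZ U V θ J (x + φ₃) := by
  induction J generalizing x with
  | zero => simp only [ZZ, smul_smul, ← add_smul, h]
  | succ J ih =>
    have h1 := congrArg (U * ·) (ih x)
    have h2 := congrArg (V * ·) (ih (x + θ))
    simp only [mul_add, mul_smul_comm] at h1 h2
    simp only [ZZ, add_right_comm x _ θ, smul_add]
    rw [← h1, ← h2]
    abel

lemma ZZ_al {R S S' : Alg M} (hR : Pos R) (hS : Pos S) (hS' : Pos S') {θ : ℝ}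
    (hθ : 0 ≤ Real.cos (θ / 2)) (J : ℕ) (φ : ℝ) :
    AL (ZZ (R + S) (R + S') θ J φ) (((2 * Real.cos (θ / 2)) • R + S + S') ^ J) := by
  induction J generalizing φ with
  | zero =>
    refine (Pos.one.al.smul (Real.cos φ)).mono ?_
    refine (Pos.one.smul (sub_nonneg.2 (Real.abs_cos_le_one φ))).of_eq ?_
    simp only [pow_zero]; module
  | succ J ih =>
    have e := ZZ_comb (R + S) (R + S') θ (a := 1) (b := 1) (c := 2 * Real.cos (θ / 2))
      (φ₁ := 0) (φ₂ := θ) (φ₃ := θ / 2) (fun x => by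
        rw [one_mul, one_mul, Real.cos_add_cos]
        rw [show (x + 0 - (x + θ)) / 2 = -(θ / 2) by ring, Real.cos_neg,
          show (x + 0 + (x + θ)) / 2 = x + θ / 2 by ring]
        ring) J φ
    simp only [one_smul, add_zero] at e
    have k := (((hR.al.mul (ih (φ + θ / 2))).smul' (c := 2 * Real.cos (θ / 2))
      (by positivity)).add (hS.al.mul (ih φ))).add (hS'.al.mul (ih (φ + θ)))
    refine k.of_eq ?_ ?_
    · rw [← mul_smul_comm, ← e, ZZ]
      simp only [mul_add, add_mul]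
      abel
    · rw [pow_succ']
      simp only [add_mul, smul_mul_assoc]

lemma ZZ_closed (G : Alg M) (W : ℕ) (θ : ℝ) (J : ℕ) (φ : ℝ) :
    ZZ (G ^ W) (G ^ (W + 1)) θ J φ
      = ∑ l ∈ range (J + 1), J.choose l • (Real.cos (l * θ + φ) • G ^ (J * W + l)) := by
  induction J generalizing φ with
  | zero => simp [ZZ]
  | succ J ih =>
    rw [ZZ, ih, ih, Finset.sum_choose_succ_nsmul
      (fun l _ => Real.cos (l * θ + φ) • G ^ ((J + 1) * W + l)), Finset.mul_sum, Finset.mul_sum]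
    congr 1
    · refine Finset.sum_congr rfl fun l _ => ?_
      rw [mul_smul_comm, mul_smul_comm, ← pow_add]
      congr 3; ring
    · refine Finset.sum_congr rfl fun l _ => ?_
      rw [mul_smul_comm, mul_smul_comm, ← pow_add]
      congr 3
      · push_cast; ring
      · ring

lemma integral_cos_int (k : ℤ) :
    ∫ θ in (0 : ℝ)..Real.pi, Real.cos (k * θ) = if k = 0 then Real.pi else 0 := by
  split_ifs with h
  · simp [h]
  · have hk : (k : ℝ) ≠ 0 := by exact_mod_cast h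
    have : ∀ x ∈ Set.uIcc (0 : ℝ) Real.pi,
        HasDerivAt (fun x => Real.sin (k * x) / k) (Real.cos (k * x)) x := fun x _ => by
      have := ((hasDerivAt_id x).const_mul (k : ℝ)).sin.div_const (k : ℝ)
      refine this.congr_deriv ?_
      simp only [id]
      field_simp
    rw [intervalIntegral.integral_eq_sub_of_hasDerivAt this
      ((by fun_prop : Continuous fun x : ℝ => Real.cos (k * x)).intervalIntegrable _ _)]
    simp [Real.sin_int_mul_pi]

lemma integral_bound {c : ℝ} (hc : 0 < c) (hc1 : c ≤ 1) (J : ℕ) :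
    ∫ θ in (0 : ℝ)..Real.pi, 2 * Real.sin (θ / 2) * (2 * (1 - c + c * Real.cos (θ / 2))) ^ J
      ≤ 2 ^ J * (4 / (c * (J + 1))) := by
  have : ∀ x ∈ Set.uIcc (0 : ℝ) Real.pi,
      HasDerivAt (fun x => -(2 ^ J * (4 / (c * (J + 1)))) * (1 - c + c * Real.cos (x / 2)) ^ (J + 1))
        (2 * Real.sin (x / 2) * (2 * (1 - c + c * Real.cos (x / 2))) ^ J) x := fun x _ => by
    have := ((((hasDerivAt_id x).div_const 2).cos.const_mul c).const_add (1 - c)).pow (J + 1)
    have := this.const_mul (-(2 ^ J * (4 / (c * (J + 1)))))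
    refine this.congr_deriv ?_
    simp only [id, mul_pow, Nat.add_sub_cancel]
    push_cast
    field_simp
    ring
  rw [intervalIntegral.integral_eq_sub_of_hasDerivAt this
    ((by fun_prop : Continuous fun x : ℝ =>
      2 * Real.sin (x / 2) * (2 * (1 - c + c * Real.cos (x / 2))) ^ J).intervalIntegrable _ _)]
  simp only [Real.cos_pi_div_two, mul_zero, add_zero, zero_div, Real.cos_zero, mul_one,
    sub_add_cancel, one_pow]
  have : 0 ≤ 2 ^ J * (4 / (c * (J + 1))) * (1 - c) ^ (J + 1) := by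
    have : 0 ≤ 1 - c := by linarith
    positivity
  linarith

lemma extract (γ : ℕ → ℝ) (J j : ℕ) (hj : j ≤ J) :
    ∫ θ in (0 : ℝ)..Real.pi, ∑ l ∈ range (J + 1),
      (J.choose l : ℝ) * (Real.cos (l * θ + -(j * θ)) * γ l) = Real.pi * (J.choose j * γ j) := by
  rw [intervalIntegral.integral_finsetSum fun l _ =>
    (by fun_prop : Continuous fun θ : ℝ =>
      (J.choose l : ℝ) * (Real.cos (l * θ + -(j * θ)) * γ l)).intervalIntegrable _ _]
  have : ∀ l ∈ range (J + 1), ∫ θ in (0 : ℝ)..Real.pi,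
      (J.choose l : ℝ) * (Real.cos (l * θ + -(j * θ)) * γ l)
        = if l = j then Real.pi * (J.choose l * γ l) else 0 := fun l _ => by
    rw [intervalIntegral.integral_const_mul, intervalIntegral.integral_mul_const]
    have := integral_cos_int ((l : ℤ) - j)
    simp only [Int.cast_sub, Int.cast_natCast, sub_mul, sub_eq_zero, Nat.cast_inj] at this
    simp only [← sub_eq_add_neg]
    rw [this]
    split_ifs <;> ring
  rw [Finset.sum_congr rfl this, Finset.sum_ite_eq' , if_pos (by simp; omega)]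

lemma centralBinom_lower (n : ℕ) : 16 ^ (n + 1) ≤ 4 * (n + 1) * (n + 1).centralBinom ^ 2 := by
  induction n with
  | zero => simp [Nat.centralBinom]
  | succ n ih =>
    have h := Nat.succ_mul_centralBinom_succ (n + 1)
    have hpos : 0 < n + 1 + 1 := by omega
    refine Nat.le_of_mul_le_mul_left ?_ hpos
    have e : (n + 1 + 1) * (4 * (n + 1 + 1) * (n + 1 + 1).centralBinom ^ 2)
        = 4 * ((n + 1 + 1) * (n + 1 + 1).centralBinom) ^ 2 := by ring
    rw [e, h, pow_succ]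
    generalize (n + 1).centralBinom = b at *
    generalize 16 ^ (n + 1) = a at *
    have h1 : (n + 1 + 1) * (a * 16) ≤ (n + 1 + 1) * (4 * (n + 1) * b ^ 2 * 16) := by gcongr
    refine h1.trans ?_
    have h2 : (n + 1 + 1) * (4 * (n + 1)) ≤ (2 * (n + 1) + 1) ^ 2 := by nlinarith
    calc (n + 1 + 1) * (4 * (n + 1) * b ^ 2 * 16)
        = (n + 1 + 1) * (4 * (n + 1)) * (16 * b ^ 2) := by ring
      _ ≤ (2 * (n + 1) + 1) ^ 2 * (16 * b ^ 2) := by gcongr
      _ = 4 * (2 * (2 * (n + 1) + 1) * b) ^ 2 := by ring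

lemma choose_lower (j : ℕ) :
    ((2 : ℝ) ^ (2 * j + 1)) ^ 2 ≤ 4 * (j + 1) * ((2 * j + 1).choose j : ℝ) ^ 2 := by
  have h := centralBinom_lower j
  have e : (j + 1).centralBinom = 2 * (2 * j + 1).choose j := by
    rw [Nat.centralBinom, show 2 * (j + 1) = (2 * j + 1) + 1 by ring, Nat.choose_succ_succ',
      Nat.choose_symm_half]
    ring
  rw [e] at h
  have h' : (16 : ℝ) ^ (j + 1) ≤ 4 * (j + 1) * (2 * ((2 * j + 1).choose j : ℝ)) ^ 2 := by
    exact_mod_cast h
  have e2 : (16 : ℝ) ^ (j + 1) = 4 * ((2 : ℝ) ^ (2 * j + 1)) ^ 2 := by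
    rw [show (16 : ℝ) = 2 ^ 4 by norm_num, ← pow_mul, ← pow_mul,
      show 4 * (j + 1) = 2 + (2 * j + 1) * 2 by ring, pow_add]
    norm_num
  nlinarith

lemma boost_one {G : Alg M} (hG : St G) {W : ℕ} {c : ℝ} (hc : 0 < c)
    (h : nrm (G ^ (W + 1) - G ^ W) ≤ 2 - 2 * c) (j : ℕ) :
    (j + 1) * nrm (G ^ ((2 * j + 1) * W + j + 1) - G ^ ((2 * j + 1) * W + j)) ^ 2 ≤ 4 / c ^ 2 := by
  set U := G ^ W with hU
  set V := G ^ (W + 1) with hV
  have sU : St U := hG.pow _
  have sV : St V := hG.pow _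
  have hA := al_absA (V - U)
  set A := absA (V - U) with hAd
  set R := (1 / 2 : ℝ) • (U + V - A) with hR
  set S := (1 / 2 : ℝ) • (A - (V - U)) with hS
  set S' := (1 / 2 : ℝ) • (A + (V - U)) with hS'
  have pR : Pos R := by
    refine Pos.smul (by norm_num) fun m => ?_
    have h1 := sU.1 m
    have h2 := sV.1 m
    simp only [hAd, absA, coeff_sub, coeff_add, Finsupp.coe_sub, Finsupp.coe_add, Pi.sub_apply,
      Pi.add_apply, Finsupp.mapRange_apply]
    have : |V.coeff m - U.coeff m| ≤ U.coeff m + V.coeff m := abs_le.2 ⟨by linarith, by linarith⟩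
    linarith
  have pS : Pos S := hA.1.smul (by norm_num)
  have pS' : Pos S' := hA.2.smul (by norm_num)
  have eU : U = R + S := by rw [hR, hS]; module
  have eV : V = R + S' := by rw [hR, hS']; module
  obtain ⟨c', hc'⟩ : ∃ c', c' = mass R := ⟨_, rfl⟩
  have hcc : c ≤ c' := by
    have : mass A = nrm (V - U) := rfl
    rw [hc', hR]
    simp only [map_smul, map_sub, map_add, sU.2, sV.2, this, smul_eq_mul]
    linarith
  have mS : mass S = 1 - c' := by have := sU.2; rw [eU, map_add] at this; linarith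
  have mS' : mass S' = 1 - c' := by have := sV.2; rw [eV, map_add] at this; linarith
  have hc1 : c' ≤ 1 := by have := pS.mass_nonneg; linarith
  have hc0 : 0 < c' := by linarith
  obtain ⟨J, hJ⟩ : ∃ J, J = 2 * j + 1 := ⟨_, rfl⟩
  rw [← hJ]
  obtain ⟨f, hf, hf'⟩ := exists_ev_eq_nrm (G ^ (J * W + j + 1) - G ^ (J * W + j))
  set γ : ℕ → ℝ := fun l => ev f (G ^ (J * W + l)) with hγ
  have key : ∀ θ ∈ Set.Icc (0 : ℝ) Real.pi,
      (∑ l ∈ range (J + 1), (J.choose l : ℝ) * (Real.cos (l * θ + -(((j + 1 : ℕ) : ℝ) * θ)) * γ l))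
        - ∑ l ∈ range (J + 1), (J.choose l : ℝ) * (Real.cos (l * θ + -(j * θ)) * γ l)
        ≤ 2 * Real.sin (θ / 2) * (2 * (1 - c' + c' * Real.cos (θ / 2))) ^ J := by
    intro θ hθ
    have hcos : 0 ≤ Real.cos (θ / 2) :=
      Real.cos_nonneg_of_mem_Icc ⟨by linarith [hθ.1, Real.pi_pos], by linarith [hθ.2]⟩
    have hsin : 0 ≤ Real.sin (θ / 2) :=
      Real.sin_nonneg_of_nonneg_of_le_pi (by linarith [hθ.1]) (by linarith [hθ.2, Real.pi_pos])
    have e1 : ∀ φ, ev f (ZZ U V θ J φ)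
        = ∑ l ∈ range (J + 1), (J.choose l : ℝ) * (Real.cos (l * θ + φ) * γ l) := fun φ => by
      rw [hU, hV, ZZ_closed, map_sum]
      refine Finset.sum_congr rfl fun l _ => ?_
      rw [map_nsmul, map_smul, nsmul_eq_mul, smul_eq_mul]
    have e2 := ZZ_comb U V θ (a := 1) (b := -1) (c := 2 * Real.sin (θ / 2))
      (φ₁ := -θ) (φ₂ := 0) (φ₃ := -(θ / 2) - Real.pi / 2) (fun x => by
        rw [one_mul, neg_one_mul, ← sub_eq_add_neg, Real.cos_sub_cos, ← add_sub_assoc,
          Real.cos_sub_pi_div_two,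
          show (x + -θ - (x + 0)) / 2 = -(θ / 2) by ring, Real.sin_neg,
          show (x + -θ + (x + 0)) / 2 = x + -(θ / 2) by ring]
        ring) J (-(j * θ))
    have e3 := congrArg (ev f) e2
    rw [map_add, map_smul, map_smul, map_smul, e1, e1, add_zero] at e3
    have e4 : -(((j + 1 : ℕ) : ℝ) * θ) = -(j * θ) + -θ := by push_cast; ring
    rw [e4]
    have k := (ZZ_al pR pS pS' hcos J (-(j * θ) + (-(θ / 2) - Real.pi / 2))).abs_ev_le hf
    rw [← eU, ← eV, mass_pow] at k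
    simp only [map_add, map_smul, mS, mS', ← hc', smul_eq_mul] at k e3
    have k2 := (le_abs_self _).trans k
    rw [show 2 * Real.cos (θ / 2) * c' + (1 - c') + (1 - c')
      = 2 * (1 - c' + c' * Real.cos (θ / 2)) by ring] at k2
    have k3 := mul_le_mul_of_nonneg_left k2 (show 0 ≤ 2 * Real.sin (θ / 2) by positivity)
    linarith
  have i1 := extract γ J (j + 1) (by omega)
  have i2 := extract γ J j (by omega)
  have i3 := integral_bound hc0 hc1 J
  have i4 := intervalIntegral.integral_mono_on Real.pi_pos.le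
    ((by fun_prop : Continuous fun θ : ℝ =>
      (∑ l ∈ range (J + 1), (J.choose l : ℝ) * (Real.cos (l * θ + -(((j + 1 : ℕ) : ℝ) * θ)) * γ l))
        - ∑ l ∈ range (J + 1), (J.choose l : ℝ) * (Real.cos (l * θ + -(j * θ)) * γ l)).intervalIntegrable
          (μ := MeasureTheory.volume) _ _)
    ((by fun_prop : Continuous fun x : ℝ =>
      2 * Real.sin (x / 2) * (2 * (1 - c' + c' * Real.cos (x / 2))) ^ J).intervalIntegrable _ _) key
  rw [intervalIntegral.integral_sub
    ((by fun_prop : Continuous fun θ : ℝ => ∑ l ∈ range (J + 1),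
      (J.choose l : ℝ) * (Real.cos (l * θ + -(((j + 1 : ℕ) : ℝ) * θ)) * γ l)).intervalIntegrable _ _)
    ((by fun_prop : Continuous fun θ : ℝ => ∑ l ∈ range (J + 1),
      (J.choose l : ℝ) * (Real.cos (l * θ + -(j * θ)) * γ l)).intervalIntegrable _ _), i1, i2] at i4
  have e5 : J.choose (j + 1) = J.choose j := by rw [hJ, Nat.choose_symm_half]
  have e6 : γ (j + 1) - γ j = nrm (G ^ (J * W + j + 1) - G ^ (J * W + j)) := by
    rw [← hf', map_sub]; rfl
  rw [e5, ← mul_sub, ← mul_sub, e6] at i4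
  have l1 := choose_lower j
  rw [← hJ] at l1
  have hx := nrm_nonneg (G ^ (J * W + j + 1) - G ^ (J * W + j))
  generalize nrm (G ^ (J * W + j + 1) - G ^ (J * W + j)) = x at i4 hx ⊢
  have hC : (0 : ℝ) < J.choose j := by exact_mod_cast Nat.choose_pos (by omega)
  have hJ' : (J : ℝ) + 1 = 2 * (j + 1) := by rw [hJ]; push_cast; ring
  generalize (J.choose j : ℝ) = C at i4 hC l1
  rw [hJ'] at i3
  have hp : (0 : ℝ) < 2 ^ J := by positivity
  generalize (2 : ℝ) ^ J = T at i3 l1 hp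
  have hj : (0 : ℝ) < j + 1 := by positivity
  have a1 : 2 * (C * x) ≤ T * (4 / (c' * (2 * (j + 1)))) := by
    have : 2 * (C * x) ≤ Real.pi * (C * x) :=
      mul_le_mul_of_nonneg_right Real.two_le_pi (by positivity)
    linarith
  have a2 : C * x * (c' * (j + 1)) ≤ T := by
    rw [show T * (4 / (c' * (2 * (j + 1)))) = 2 * (T / (c' * (j + 1))) by field_simp; ring] at a1
    rw [← le_div_iff₀ (by positivity)]
    linarith
  have a3 : (C * x * (c' * (j + 1))) ^ 2 ≤ 4 * (j + 1) * C ^ 2 :=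
    (pow_le_pow_left₀ (by positivity) a2 2).trans l1
  have a4 : (j + 1) * x ^ 2 * c' ^ 2 ≤ 4 := by
    have : ((j + 1) * C ^ 2) * ((j + 1) * x ^ 2 * c' ^ 2) ≤ ((j + 1) * C ^ 2) * 4 := by
      nlinarith
    exact le_of_mul_le_mul_left this (by positivity)
  rw [le_div_iff₀ (by positivity)]
  refine le_trans ?_ a4
  gcongr

lemma boost {G : Alg M} (hG : St G) {W : ℕ} {c : ℝ} (hc : 0 < c)
    (h : nrm (G ^ (W + 1) - G ^ W) ≤ 2 - 2 * c) : Mix G (12 * (W + 1) / c ^ 2) := fun n => by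
  have hc1 : c ≤ 1 := by have := nrm_nonneg (G ^ (W + 1) - G ^ W); linarith
  have hc2 : c ^ 2 ≤ 1 := by nlinarith
  have hx := nrm_nonneg (G ^ (n + 1) - G ^ n)
  rcases lt_or_ge n W with hn | hn
  · have h1 : nrm (G ^ (n + 1) - G ^ n) ≤ 2 := by
      have := nrm_sub_le (G ^ (n + 1)) (G ^ n)
      linarith [(hG.pow (n + 1)).nrm_le, (hG.pow n).nrm_le]
    have h2 : (n : ℝ) ≤ W := by exact_mod_cast hn.le
    have h3 : nrm (G ^ (n + 1) - G ^ n) ^ 2 ≤ 4 := by nlinarith
    rw [le_div_iff₀ (by positivity)]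
    have h4 : (n : ℝ) * nrm (G ^ (n + 1) - G ^ n) ^ 2 ≤ W * 4 := by gcongr
    have h5 : (n : ℝ) * nrm (G ^ (n + 1) - G ^ n) ^ 2 * c ^ 2 ≤ W * 4 * 1 := by gcongr
    have : (0 : ℝ) ≤ W := by positivity
    linarith
  · obtain ⟨j, hj⟩ : ∃ j, j = (n - W) / (2 * W + 1) := ⟨_, rfl⟩
    have h1 : (2 * W + 1) * j ≤ n - W := hj ▸ Nat.mul_div_le _ _
    have h2 : n - W < (2 * W + 1) * (j + 1) := hj ▸ Nat.lt_mul_div_succ _ (by omega)
    have h3 : (2 * j + 1) * W + j ≤ n := by
      have : (2 * j + 1) * W + j = (2 * W + 1) * j + W := by ring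
      omega
    have h4 : n ≤ 3 * (W + 1) * (j + 1) := by
      have : 3 * (W + 1) * (j + 1) = (2 * W + 1) * (j + 1) + W + (W * j + 2 * (j + 1)) := by ring
      omega
    have h5 := boost_one hG hc h j
    have h6 := pow_le_pow_left₀ hx (nrm_succ_anti hG h3) 2
    have h7 : (n : ℝ) ≤ 3 * (W + 1) * (j + 1) := by exact_mod_cast h4
    calc (n : ℝ) * nrm (G ^ (n + 1) - G ^ n) ^ 2
        ≤ 3 * (W + 1) * (j + 1)
          * nrm (G ^ ((2 * j + 1) * W + j + 1) - G ^ ((2 * j + 1) * W + j)) ^ 2 := by gcongr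
      _ ≤ 3 * (W + 1) * (4 / c ^ 2) := by rw [mul_assoc]; gcongr
      _ = 12 * (W + 1) / c ^ 2 := by ring

end

end Vale.Agent.P321
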