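import Vale.Agent.P321.Dom

/-! Chi-square bounds, mixing. -/

namespace Vale.Agent.P321

open MonoidAlgebra Finset

noncomputable section

variable {M N : Type*}

/-- `ν² ≤ μ η` pointwise -/
def Chi (ν μ η : Alg M) : Prop := Pos μ ∧ ∀ a : ℝ, Pos (a ^ 2 • μ - (2 * a) • ν + η)

lemma Chi.pos {ν μ η : Alg M} (h : Chi ν μ η) : Pos η := (h.2 0).of_eq (by simp)

lemma Chi.sq_le {ν μ η : Alg M} (h : Chi ν μ η) (m : M) :
    ν.coeff m ^ 2 ≤ μ.coeff m * η.coeff m := by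
  have := discrim_le_zero (a := μ.coeff m) (b := -(2 * ν.coeff m)) (c := η.coeff m) fun x => by
    have := h.2 x m
    simp only [coeff_add, coeff_sub, coeff_smul, Finsupp.coe_add, Finsupp.coe_sub,
      Finsupp.coe_smul, Pi.add_apply, Pi.sub_apply, Pi.smul_apply, smul_eq_mul] at this
    nlinarith
  rw [discrim] at this
  nlinarith

lemma Chi.refl {μ : Alg M} (h : Pos μ) : Chi μ μ μ :=
  ⟨h, fun a => (h.smul (sq_nonneg (a - 1))).of_eq (by module)⟩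

lemma Chi.nrm_sub {ν μ η : Alg M} (h : Chi ν μ η) (h1 : mass ν = 1) (h2 : mass μ = 1) {σ : ℝ}
    (hσ : 0 < σ) (h3 : mass η ≤ 1 + σ ^ 2) : nrm (ν - μ) ≤ σ := by
  have k : AL (ν - μ) ((1 / (2 * σ)) • (σ ^ 2 • μ + (η - (2 : ℝ) • ν + μ))) := by
    have e : (1 / (2 * σ)) * (2 * σ) = 1 := by field_simp
    constructor
    · refine ((h.2 (1 + σ)).smul (c := 1 / (2 * σ)) (by positivity)).of_eq ?_
      have : ν - μ = ((1 / (2 * σ)) * (2 * σ)) • (ν - μ) := by rw [e, one_smul]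
      rw [this]; module
    · refine ((h.2 (1 - σ)).smul (c := 1 / (2 * σ)) (by positivity)).of_eq ?_
      have : ν - μ = ((1 / (2 * σ)) * (2 * σ)) • (ν - μ) := by rw [e, one_smul]
      rw [this]; module
  refine k.nrm_le.trans ?_
  simp only [map_smul, map_add, map_sub, h1, h2, smul_eq_mul]
  rw [one_div, inv_mul_le_iff₀ (by positivity)]
  nlinarith

section Monoid
variable [Monoid M]

lemma Chi.mul {ν μ η ν' μ' η' : Alg M} (h : Chi ν μ η) (h' : Chi ν' μ' η') :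
    Chi (ν * ν') (μ * μ') (η * η') := by
  classical
  refine ⟨h.1.mul h'.1, fun a => ?_⟩
  set s := ν.coeff.support ∪ μ.coeff.support ∪ η.coeff.support
  have e1 := self_eq_sum ν (s := s) (subset_union_left.trans subset_union_left)
  have e2 := self_eq_sum μ (s := s) (subset_union_right.trans subset_union_left)
  have e3 := self_eq_sum η (s := s) subset_union_right
  have : a ^ 2 • (μ * μ') - (2 * a) • (ν * ν') + η * η' = ∑ m ∈ s, dl m *
      ((a ^ 2 * μ.coeff m) • μ' - (2 * a * ν.coeff m) • ν' + η.coeff m • η') := by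
    conv_lhs => rw [e1, e2, e3]
    simp only [Finset.sum_mul, Finset.smul_sum, ← Finset.sum_sub_distrib, ← Finset.sum_add_distrib]
    refine Finset.sum_congr rfl fun m _ => ?_
    simp only [mul_add, mul_sub, smul_mul_assoc, mul_smul_comm]
    module
  rw [this]
  refine Pos.sum fun m _ => (pos_dl m).mul ?_
  have k := h.sq_le m
  have k1 := h.1 m
  rcases (h.pos m).eq_or_lt with k2 | k2
  · have : ν.coeff m = 0 := by rw [← k2] at k; nlinarith [sq_nonneg (ν.coeff m)]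
    refine (h'.1.smul (c := a ^ 2 * μ.coeff m) (by positivity)).of_eq ?_
    rw [this, ← k2]; module
  · obtain ⟨x, hx⟩ : ∃ x, x = a * ν.coeff m / η.coeff m := ⟨_, rfl⟩
    have hx' : a * ν.coeff m = x * η.coeff m := by rw [hx]; field_simp
    have k3 : 0 ≤ a ^ 2 * μ.coeff m - x ^ 2 * η.coeff m := by
      have : (a ^ 2 * μ.coeff m - x ^ 2 * η.coeff m) * η.coeff m
          = a ^ 2 * (μ.coeff m * η.coeff m - ν.coeff m ^ 2) := by
        have : x ^ 2 * η.coeff m * η.coeff m = (a * ν.coeff m) ^ 2 := by rw [hx']; ring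
        linear_combination (-1) * this
      have h4 : 0 ≤ (a ^ 2 * μ.coeff m - x ^ 2 * η.coeff m) * η.coeff m := by
        rw [this]; exact mul_nonneg (sq_nonneg _) (by linarith)
      exact nonneg_of_mul_nonneg_left h4 k2
    refine (((h'.2 x).smul k2.le).add (h'.1.smul k3)).of_eq ?_
    rw [mul_assoc 2 a, hx']; module

lemma Chi.one : Chi (1 : Alg M) 1 1 := Chi.refl Pos.one

lemma Chi.pow {ν μ η : Alg M} (h : Chi ν μ η) (n : ℕ) : Chi (ν ^ n) (μ ^ n) (η ^ n) := by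
  induction n with
  | zero => simpa using Chi.one
  | succ n ih => simpa only [pow_succ] using ih.mul h

lemma chi_add {μ Y : Alg M} {ε : ℝ} (hε : 0 < ε) (hμ : St μ) (h : AL Y (ε • μ))
    (hY : mass Y = 0) : ∃ η, Chi (μ + Y) μ η ∧ mass η = 1 + ε ^ 2 := by
  obtain ⟨P, Q, hP, hQ, mP, mQ, rfl, rfl⟩ := split_pm hε hμ h hY
  refine ⟨(1 + ε) ^ 2 • P + (1 - ε) ^ 2 • Q, ⟨hμ.1, fun a => ?_⟩, ?_⟩
  · exact ((hP.smul (sq_nonneg (a - (1 + ε)))).add (hQ.smul (sq_nonneg (a - (1 - ε))))).of_eq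
      (by module)
  · simp only [map_add, map_smul, mP, mQ, smul_eq_mul]; ring

lemma mass_SJ {μ Y : Alg M} (hY : mass Y = 0) (J : ℕ) : mass (SJ μ J Y) = 0 := by
  rw [SJ_eq, map_sum]
  exact Finset.sum_eq_zero fun u _ => by simp [mass_mul, hY]

lemma chi_SJ {μ Y : Alg M} {ε : ℝ} (hε : 0 < ε) (hμ : St μ) (h : AL Y (ε • μ))
    (hY : mass Y = 0) (J : ℕ) : ∃ T, mass T = J * ε ^ 2 ∧
      ∀ a : ℝ, Pos (a ^ 2 • μ ^ J + (2 * a) • SJ μ J Y + T) := by
  obtain ⟨P, Q, hP, hQ, mP, mQ, e1, e2⟩ := split_pm hε hμ h hY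
  induction J with
  | zero => exact ⟨0, by simp, fun a => (Pos.one.smul (sq_nonneg a)).of_eq (by simp [SJ])⟩
  | succ J ih =>
    obtain ⟨T, h1, h2⟩ := ih
    refine ⟨ε ^ 2 • μ ^ (J + 1) + (2 : ℝ) • (Y * SJ μ J Y) + μ * T, ?_, fun a => ?_⟩
    · simp only [map_add, map_smul, mass_mul, mass_pow, hμ.2, hY, h1, smul_eq_mul]
      push_cast; ring
    · refine ((hP.mul (h2 (a + ε))).add (hQ.mul (h2 (a - ε)))).of_eq ?_
      rw [SJ_succ, pow_succ' μ J]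
      generalize SJ μ J Y = S
      generalize μ ^ J = U
      rw [e2, e1]
      simp only [mul_add, add_mul, sub_mul, smul_mul_assoc, mul_smul_comm]
      module

lemma SJ_one_sub (C : Alg M) (n : ℕ) :
    SJ C (n + 1) (1 - C) = ((n : ℝ) + 1) • (C ^ n - C ^ (n + 1)) := by
  rw [SJ_eq, Finset.sum_congr rfl (g := fun _ => C ^ n - C ^ (n + 1))]
  · rw [Finset.sum_const, card_range, ← Nat.cast_smul_eq_nsmul ℝ]; push_cast; rfl
  · intro u hu
    have hu := Finset.mem_range.1 hu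
    rw [mul_sub, sub_mul, mul_one, ← pow_add, ← pow_succ, ← pow_add]
    congr 2 <;> omega

lemma chi_pred {C : Alg M} {ε : ℝ} (hε : 0 < ε) (hC : St C) (h : AL (1 - C) (ε • C)) (n : ℕ) :
    ∃ η, Chi (C ^ n) (C ^ (n + 1)) η ∧ mass η = 1 + ε ^ 2 / (n + 1) := by
  have hY : mass (1 - C) = 0 := by simp [hC.2]
  obtain ⟨T, h1, h2⟩ := chi_SJ hε hC h hY (n + 1)
  rw [SJ_one_sub] at h2
  have hn : (0 : ℝ) < (n : ℝ) + 1 := by positivity
  refine ⟨(2 : ℝ) • C ^ n - C ^ (n + 1) + (1 / ((n : ℝ) + 1) ^ 2) • T, ⟨hC.1.pow _, fun a => ?_⟩, ?_⟩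
  · refine ((h2 (((n : ℝ) + 1) * (1 - a))).smul (c := 1 / ((n : ℝ) + 1) ^ 2)
      (by positivity)).of_eq ?_
    have e1 : 1 / ((n : ℝ) + 1) ^ 2 * (((n : ℝ) + 1) * (1 - a)) ^ 2 = (1 - a) ^ 2 := by
      field_simp
    have e2 : 1 / ((n : ℝ) + 1) ^ 2 * (2 * (((n : ℝ) + 1) * (1 - a)) * ((n : ℝ) + 1))
        = 2 * (1 - a) := by field_simp
    simp only [smul_add, smul_smul]
    rw [e1, e2]
    module
  · simp only [map_add, map_sub, map_smul, mass_pow, hC.2, h1, smul_eq_mul]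
    push_cast
    field_simp
    ring

/-- diffusive mixing of the powers -/
def Mix (G : Alg M) (y : ℝ) : Prop := ∀ n : ℕ, n * nrm (G ^ (n + 1) - G ^ n) ^ 2 ≤ y

lemma Mix.mono {G : Alg M} {y y' : ℝ} (h : Mix G y) (hy : y ≤ y') : Mix G y' :=
  fun n => (h n).trans hy

lemma nrm_pred {C : Alg M} {ε : ℝ} (hε : 0 < ε) (hC : St C) (h : AL (1 - C) (ε • C)) (n : ℕ) :
    nrm (C ^ (n + 1) - C ^ n) ≤ ε / √(n + 1) := by
  obtain ⟨η, h1, h2⟩ := chi_pred hε hC h n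
  have hn : (0 : ℝ) < (n : ℝ) + 1 := by positivity
  rw [nrm_sub_comm]
  refine h1.nrm_sub (hC.pow _).2 (hC.pow _).2 (by positivity) (h2.le.trans (le_of_eq ?_))
  rw [div_pow, Real.sq_sqrt hn.le]

lemma mix_base {C : Alg M} {ε : ℝ} (hε : 0 < ε) (hC : St C) (h : AL (1 - C) (ε • C)) :
    Mix C (ε ^ 2) := fun n => by
  have h1 := nrm_pred hε hC h n
  have hn : (0 : ℝ) < (n : ℝ) + 1 := by positivity
  have h2 : nrm (C ^ (n + 1) - C ^ n) ^ 2 ≤ ε ^ 2 / (n + 1) := by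
    refine (pow_le_pow_left₀ (nrm_nonneg _) h1 2).trans (le_of_eq ?_)
    rw [div_pow, Real.sq_sqrt hn.le]
  rw [le_div_iff₀ hn] at h2
  nlinarith [sq_nonneg (nrm (C ^ (n + 1) - C ^ n))]

lemma Mix.step {G : Alg M} {y ζ : ℝ} (h : Mix G y) {N : ℕ} (hN : 0 < N) (hζ : 0 ≤ ζ)
    (hy : y ≤ N * ζ ^ 2) {n : ℕ} (hn : N ≤ n) : nrm (G ^ (n + 1) - G ^ n) ≤ ζ := by
  have h1 := h n
  have hN' : (0 : ℝ) < N := by exact_mod_cast hN
  have hn' : (N : ℝ) ≤ n := by exact_mod_cast hn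
  have h2 : (N : ℝ) * nrm (G ^ (n + 1) - G ^ n) ^ 2 ≤ N * ζ ^ 2 := by
    nlinarith [sq_nonneg (nrm (G ^ (n + 1) - G ^ n))]
  exact (pow_le_pow_iff_left₀ (nrm_nonneg _) hζ two_ne_zero).1 (le_of_mul_le_mul_left h2 hN')

/-- one-step mixing bound from index `N` on -/
def MixAt (G : Alg M) (N : ℕ) (ζ : ℝ) : Prop := ∀ n, N ≤ n → nrm (G ^ (n + 1) - G ^ n) ≤ ζ

lemma Mix.mixAt {G : Alg M} {y ζ : ℝ} (h : Mix G y) {N : ℕ} (hN : 0 < N) (hζ : 0 ≤ ζ)
    (hy : y ≤ N * ζ ^ 2) : MixAt G N ζ := fun _ hn => h.step hN hζ hy hn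

lemma MixAt.nonneg {G : Alg M} {N : ℕ} {ζ : ℝ} (h : MixAt G N ζ) : 0 ≤ ζ :=
  (nrm_nonneg _).trans (h N le_rfl)

lemma MixAt.jump {G : Alg M} {N : ℕ} {ζ : ℝ} (h : MixAt G N ζ) {n : ℕ} (hn : N ≤ n) (v : ℕ) :
    nrm (G ^ (n + v) - G ^ n) ≤ v * ζ := by
  induction v with
  | zero => simp [nrm_zero]
  | succ v ih =>
    have h1 := nrm_triangle (G ^ (n + v + 1)) (G ^ (n + v)) (G ^ n)
    have h2 := h (n + v) (by omega)
    push_cast
    rw [← add_assoc]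
    linarith

lemma nrm_succ_anti {G : Alg M} (hG : St G) {a b : ℕ} (h : a ≤ b) :
    nrm (G ^ (b + 1) - G ^ b) ≤ nrm (G ^ (a + 1) - G ^ a) := by
  obtain ⟨c, rfl⟩ := Nat.exists_eq_add_of_le h
  have : G ^ (a + c + 1) - G ^ (a + c) = (G ^ (a + 1) - G ^ a) * G ^ c := by
    rw [sub_mul, ← pow_add, ← pow_add, add_right_comm]
  rw [this]
  exact (hG.pow c).nrm_mul_right _

end Monoid

end

end Vale.Agent.P321
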