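import Mathlib

/-! Worst-case trace reconstruction: the definitions used in the statement. -/

namespace Vale.Agent.P321

/-- The surviving bits of `x` in their original order; bit `i` survives iff `keep i = true`. -/
def trace {n : ℕ} (x keep : Fin n → Bool) : List Bool :=
  ((List.finRange n).filter keep).map x

/-- The probability of the survival pattern `keep`: each bit is deleted independently with
probability `q`. -/
noncomputable def weight (q : ℝ) {n : ℕ} (keep : Fin n → Bool) : ℝ :=
  ∏ i, if keep i then 1 - q else q

/-- The probability that the randomized estimator `est`, given `m` independent traces of `x`,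
outputs `x`. -/
noncomputable def success (q : ℝ) {n m : ℕ} (est : (Fin m → List Bool) → PMF (Fin n → Bool))
    (x : Fin n → Bool) : ℝ :=
  ∑ K : Fin m → Fin n → Bool, (∏ j, weight q (K j)) * (est (fun j => trace x (K j)) x).toReal

/-- Some estimator recovers every string of length `n` from `m` traces with probability at
least `2/3`. -/
def Works (q : ℝ) (n m : ℕ) : Prop :=
  ∃ est : (Fin m → List Bool) → PMF (Fin n → Bool), ∀ x, 2 / 3 ≤ success q est x

/-- The worst-case sample complexity of trace reconstruction. -/
noncomputable def T (q : ℝ) (n : ℕ) : ℕ := sInf {m | Works q n m}

end Vale.Agent.P321
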