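import Vale.Agent.P321.Basic

/-! Domination up to a small error, Hoeffding averaging, chi-square bounds. -/

namespace Vale.Agent.P321

open MonoidAlgebra Finset

noncomputable section

variable {M N : Type*}

/-- `|Y| ≤ ε μ + η` with `η` of mass at most `θ` -/
def Dom (Y μ : Alg M) (ε θ : ℝ) : Prop := ∃ η, Pos η ∧ mass η ≤ θ ∧ AL Y (ε • μ + η)

lemma Dom.theta_nonneg {Y μ : Alg M} {ε θ : ℝ} (h : Dom Y μ ε θ) : 0 ≤ θ := by
  obtain ⟨η, h1, h2, -⟩ := h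
  exact h1.mass_nonneg.trans h2

lemma Dom.mono {Y μ : Alg M} {ε θ ε' θ' : ℝ} (h : Dom Y μ ε θ) (hμ : Pos μ) (h1 : ε ≤ ε')
    (h2 : θ ≤ θ') : Dom Y μ ε' θ' := by
  obtain ⟨η, a, b, c⟩ := h
  exact ⟨η, a, b.trans h2, c.mono ((hμ.smul (sub_nonneg.2 h1)).of_eq (by module))⟩

lemma Dom.of_eq {Y μ Y' μ' : Alg M} {ε θ : ℝ} (h : Dom Y μ ε θ) (h1 : Y = Y') (h2 : μ = μ') :
    Dom Y' μ' ε θ := h1 ▸ h2 ▸ h

lemma Dom.add {Y Y' μ : Alg M} {ε θ ε' θ' : ℝ} (h : Dom Y μ ε θ) (h' : Dom Y' μ ε' θ') :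
    Dom (Y + Y') μ (ε + ε') (θ + θ') := by
  obtain ⟨η, a, b, c⟩ := h
  obtain ⟨η', a', b', c'⟩ := h'
  exact ⟨η + η', a.add a', by rw [map_add]; linarith, (c.add c').of_eq rfl (by module)⟩

lemma Dom.neg {Y μ : Alg M} {ε θ : ℝ} (h : Dom Y μ ε θ) : Dom (-Y) μ ε θ := by
  obtain ⟨η, a, b, c⟩ := h
  exact ⟨η, a, b, c.neg⟩

lemma Dom.sub {Y Y' μ : Alg M} {ε θ ε' θ' : ℝ} (h : Dom Y μ ε θ) (h' : Dom Y' μ ε' θ') :
    Dom (Y - Y') μ (ε + ε') (θ + θ') := by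
  simpa [sub_eq_add_neg] using h.add h'.neg

lemma Dom.smul {Y μ : Alg M} {ε θ : ℝ} (h : Dom Y μ ε θ) (c : ℝ) :
    Dom (c • Y) μ (|c| * ε) (|c| * θ) := by
  obtain ⟨η, a, b, d⟩ := h
  refine ⟨|c| • η, a.smul (abs_nonneg c), ?_, (d.smul c).of_eq rfl (by module)⟩
  rw [map_smul, smul_eq_mul]
  exact mul_le_mul_of_nonneg_left b (abs_nonneg c)

lemma Dom.of_al {Y μ : Alg M} {ε : ℝ} (h : AL Y (ε • μ)) : Dom Y μ ε 0 :=
  ⟨0, Pos.zero, by simp, by simpa using h⟩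

lemma Dom.self {μ : Alg M} (h : Pos μ) : Dom μ μ 1 0 := Dom.of_al (by simpa using h.al)

lemma Dom.of_nrm {Y : Alg M} (μ : Alg M) {θ : ℝ} (h : nrm Y ≤ θ) : Dom Y μ 0 θ :=
  ⟨absA Y, (al_absA Y).pos, h, by simpa using al_absA Y⟩

lemma Dom.zero (μ : Alg M) : Dom 0 μ 0 0 := Dom.of_nrm μ nrm_zero.le

lemma Dom.add_nrm {Y Z μ : Alg M} {ε θ θ' : ℝ} (h : Dom Y μ ε θ) (h' : nrm Z ≤ θ') :
    Dom (Y + Z) μ ε (θ + θ') := by
  simpa using h.add (Dom.of_nrm μ h')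

lemma Dom.nrm_le {Y μ : Alg M} {ε θ : ℝ} (h : Dom Y μ ε θ) (hμ : St μ) : nrm Y ≤ ε + θ := by
  obtain ⟨η, -, b, c⟩ := h
  have := c.nrm_le
  rw [map_add, map_smul, hμ.2, smul_eq_mul] at this
  linarith

lemma Dom.sum {ι : Type*} {s : Finset ι} {Y : ι → Alg M} {μ : Alg M} {ε θ : ℝ}
    (h : ∀ i ∈ s, Dom (Y i) μ ε θ) : Dom (∑ i ∈ s, Y i) μ (s.card * ε) (s.card * θ) := by
  classical
  induction s using Finset.induction_on with
  | empty => simpa using Dom.zero μ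
  | insert a s ha ih =>
    rw [Finset.sum_insert ha, Finset.card_insert_of_notMem ha]
    have := (h a (by simp)).add (ih fun i hi => h i (by simp [hi]))
    push_cast
    convert this using 1 <;> ring

lemma Dom.map {f : Alg M →ₗ[ℝ] Alg N} (hf : Mk f) {Y μ : Alg M} {ε θ : ℝ} (h : Dom Y μ ε θ) :
    Dom (f Y) (f μ) ε θ := by
  obtain ⟨η, a, b, c⟩ := h
  exact ⟨f η, hf.pos _ a, (hf.mass η).trans_le b, (hf.al c).of_eq rfl (by simp)⟩

lemma Dom.trans {Y μ G : Alg M} {ε θ l θ' : ℝ} (h : Dom Y μ ε θ) (h' : Dom μ G l θ')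
    (hε : 0 ≤ ε) : Dom Y G (ε * l) (θ + ε * θ') := by
  obtain ⟨η, a, b, c⟩ := h
  obtain ⟨η', a', b', c'⟩ := h'
  refine ⟨η + ε • η', a.add (a'.smul hε), ?_, c.mono ((c'.1.smul hε).of_eq (by module))⟩
  rw [map_add, map_smul, smul_eq_mul]
  nlinarith

/-- truncation and recentering -/
lemma Dom.exact {Y μ : Alg M} {ε θ : ℝ} (h : Dom Y μ ε θ) (hμ : St μ) (hε : 0 ≤ ε)
    (hY : mass Y = 0) : ∃ Y₂, AL Y₂ ((ε + θ) • μ) ∧ mass Y₂ = 0 ∧ nrm (Y - Y₂) ≤ 2 * θ := by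
  obtain ⟨η, a, b, c⟩ := h
  set Y₁ : Alg M := ofCoeff ((Y.coeff ⊓ (ε • μ).coeff) ⊔ (-(ε • μ).coeff)) with hY₁
  have k1 : AL Y₁ (ε • μ) := al_iff.2 fun m => by
    have := (hμ.1.smul hε) m
    simp only [hY₁, Finsupp.sup_apply, Finsupp.inf_apply, Finsupp.coe_neg, Pi.neg_apply]
    rw [abs_le]
    exact ⟨le_max_right _ _, max_le (min_le_right _ _) (by linarith)⟩
  have k2 : AL (Y - Y₁) η := al_iff.2 fun m => by
    have h0 := (hμ.1.smul hε) m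
    have h1 := abs_le.1 (al_iff.1 c m)
    have h2 := a m
    simp only [coeff_add, Finsupp.coe_add, Pi.add_apply] at h1
    simp only [hY₁, coeff_sub, Finsupp.coe_sub, Pi.sub_apply, Finsupp.sup_apply,
      Finsupp.inf_apply, Finsupp.coe_neg, Pi.neg_apply]
    rw [abs_le]
    rcases le_total (Y.coeff m) ((ε • μ).coeff m) with h3 | h3
    · rw [min_eq_left h3]
      rcases le_total (Y.coeff m) (-(ε • μ).coeff m) with h4 | h4
      · rw [max_eq_right h4]; constructor <;> linarith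
      · rw [max_eq_left h4]; constructor <;> linarith
    · rw [min_eq_right h3, max_eq_left (by linarith)]; constructor <;> linarith
  have k3 : |mass Y₁| ≤ θ := by
    have := abs_mass_le_nrm (Y - Y₁)
    rw [map_sub, hY, zero_sub, abs_neg] at this
    exact this.trans (k2.nrm_le.trans b)
  refine ⟨Y₁ - mass Y₁ • μ, ?_, by simp [hμ.2], ?_⟩
  · refine (k1.sub (hμ.1.al.smul (mass Y₁))).mono ?_
    exact (hμ.1.smul (sub_nonneg.2 k3)).of_eq (by module)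
  · have e : Y - (Y₁ - mass Y₁ • μ) = (Y - Y₁) + mass Y₁ • μ := by abel
    rw [e]
    have h1 := nrm_add_le (Y - Y₁) (mass Y₁ • μ)
    have h2 := nrm_smul_le (mass Y₁) μ
    have h3 := hμ.nrm_le
    have h4 := k2.nrm_le
    have h5 := abs_nonneg (mass Y₁)
    nlinarith

section Monoid
variable [Monoid M]

lemma Dom.mul {Y μ Y' μ' : Alg M} {ε θ ε' θ' : ℝ} (h : Dom Y μ ε θ) (h' : Dom Y' μ' ε' θ')
    (hμ : St μ) (hμ' : St μ') (hε : 0 ≤ ε) (hε' : 0 ≤ ε') :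
    Dom (Y * Y') (μ * μ') (ε * ε') (θ * (ε' + θ') + ε * θ') := by
  have hθ := h.theta_nonneg
  obtain ⟨η, a, b, c⟩ := h
  obtain ⟨η', a', b', c'⟩ := h'
  refine ⟨η * (ε' • μ' + η') + ε • (μ * η'), (a.mul c'.pos).add ((hμ.1.mul a').smul hε), ?_,
    (c.mul c').of_eq rfl ?_⟩
  · simp only [map_add, map_smul, mass_mul, hμ.2, hμ'.2, smul_eq_mul, mul_one, one_mul]
    have := a.mass_nonneg
    have := a'.mass_nonneg
    have h1 : mass η * (ε' + mass η') ≤ θ * (ε' + θ') :=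
      mul_le_mul b (by linarith) (by positivity) hθ
    nlinarith
  · simp only [mul_add, add_mul, smul_mul_assoc, mul_smul_comm]
    module

lemma Dom.mul_left {Y μ X : Alg M} {ε θ : ℝ} (h : Dom Y μ ε θ) (hX : St X) :
    Dom (X * Y) (X * μ) ε θ := h.map (mk_mulLeft hX)
lemma Dom.mul_right {Y μ X : Alg M} {ε θ : ℝ} (h : Dom Y μ ε θ) (hX : St X) :
    Dom (Y * X) (μ * X) ε θ := h.map (mk_mulRight hX)
lemma Dom.sand {Y μ X Z : Alg M} {ε θ : ℝ} (h : Dom Y μ ε θ) (hX : St X) (hZ : St Z) :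
    Dom (X * Y * Z) (X * μ * Z) ε θ := (h.mul_left hX).mul_right hZ

/-- sum of translates -/
def SJ (μ : Alg M) : ℕ → Alg M →ₗ[ℝ] Alg M
  | 0 => 0
  | J + 1 => LinearMap.mulRight ℝ (μ ^ J) + (LinearMap.mulLeft ℝ μ).comp (SJ μ J)

lemma SJ_succ (μ : Alg M) (J : ℕ) (Y : Alg M) : SJ μ (J + 1) Y = Y * μ ^ J + μ * SJ μ J Y := rfl

lemma SJ_eq (μ : Alg M) (J : ℕ) (Y : Alg M) :
    SJ μ J Y = ∑ u ∈ range J, μ ^ u * Y * μ ^ (J - 1 - u) := by
  induction J with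
  | zero => simp [SJ]
  | succ J ih =>
    rw [SJ_succ, ih, Finset.sum_range_succ', Finset.mul_sum, add_comm]
    congr 1
    · refine Finset.sum_congr rfl fun u _ => ?_
      rw [pow_succ', show J + 1 - 1 - (u + 1) = J - 1 - u by omega]
      simp only [mul_assoc]
    · simp

/-- average of translates -/
def AV (μ : Alg M) (J : ℕ) : Alg M →ₗ[ℝ] Alg M := (1 / (J : ℝ)) • SJ μ J

lemma AV_apply (μ : Alg M) (J : ℕ) (Y : Alg M) : AV μ J Y = (1 / (J : ℝ)) • SJ μ J Y := rfl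

lemma mk_AV {μ : Alg M} (hμ : St μ) {J : ℕ} (hJ : 0 < J) : Mk (AV μ J) := by
  have hJ' : (0 : ℝ) < J := by exact_mod_cast hJ
  constructor
  · intro X hX
    rw [AV_apply, SJ_eq]
    exact (Pos.sum fun u _ => ((hμ.1.pow u).mul hX).mul (hμ.1.pow _)).smul (by positivity)
  · intro X
    rw [AV_apply, SJ_eq, map_smul, map_sum]
    simp only [mass_mul, mass_pow, hμ.2, one_pow, one_mul, mul_one, Finset.sum_const,
      card_range, nsmul_eq_mul, smul_eq_mul]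
    field_simp

lemma split_pm {μ Y : Alg M} {ε : ℝ} (hε : 0 < ε) (hμ : St μ) (h : AL Y (ε • μ))
    (hY : mass Y = 0) : ∃ P Q : Alg M, Pos P ∧ Pos Q ∧ mass P = 1 / 2 ∧ mass Q = 1 / 2 ∧
      μ = P + Q ∧ Y = ε • (P - Q) := by
  refine ⟨(1 / (2 * ε)) • (ε • μ + Y), (1 / (2 * ε)) • (ε • μ - Y), h.2.smul (by positivity),
    h.1.smul (by positivity), ?_, ?_, ?_, ?_⟩
  · simp only [map_smul, map_add, hμ.2, hY, smul_eq_mul]; field_simp; simp
  · simp only [map_smul, map_sub, hμ.2, hY, smul_eq_mul]; field_simp; simp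
  · rw [← smul_add, show ε • μ + Y + (ε • μ - Y) = (2 * ε) • μ by module, smul_smul]
    rw [one_div_mul_cancel (by positivity), one_smul]
  · rw [← smul_sub, show ε • μ + Y - (ε • μ - Y) = (2 : ℝ) • Y by module, smul_smul, smul_smul]
    rw [show ε * (1 / (2 * ε)) * 2 = 1 by field_simp, one_smul]

lemma hoeff_family {P Q : Alg M} (hP : Pos P) (hQ : Pos Q) (ε l : ℝ) (J : ℕ) (a : ℝ) :
    Pos (Real.exp a • (Real.exp (l * ε) • P + Real.exp (-(l * ε)) • Q) ^ J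
      - (1 + a) • (P + Q) ^ J - l • SJ (P + Q) J (ε • (P - Q))) := by
  induction J generalizing a with
  | zero =>
    refine (Pos.one.smul (c := Real.exp a - (1 + a)) ?_).of_eq ?_
    · linarith [Real.add_one_le_exp a]
    · simp only [pow_zero, SJ, LinearMap.zero_apply]; module
  | succ J ih =>
    refine ((hP.mul (ih (a + l * ε))).add (hQ.mul (ih (a + -(l * ε))))).of_eq ?_
    rw [SJ_succ, pow_succ', pow_succ', Real.exp_add, Real.exp_add]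
    generalize (Real.exp (l * ε) • P + Real.exp (-(l * ε)) • Q) ^ J = F
    generalize SJ (P + Q) J (ε • (P - Q)) = S
    generalize (P + Q) ^ J = U
    simp only [add_mul, mul_sub, sub_mul, smul_mul_assoc, mul_smul_comm]
    module

lemma hoeff_one {μ Y : Alg M} {ε : ℝ} (hε : 0 < ε) (hμ : St μ) (h : AL Y (ε • μ))
    (hY : mass Y = 0) {J : ℕ} (hJ : 0 < J) {t : ℝ} (ht : 1 ≤ t) :
    ∃ η, Pos η ∧ mass η ≤ ε * Real.exp (-(t ^ 2 / 2)) ∧
      Pos ((ε * t / √J) • μ ^ J + η - AV μ J Y) := by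
  obtain ⟨P, Q, hP, hQ, mP, mQ, rfl, rfl⟩ := split_pm hε hμ h hY
  have hJ' : (0 : ℝ) < J := by exact_mod_cast hJ
  have hJ1 : (1 : ℝ) ≤ J := by exact_mod_cast hJ
  obtain ⟨s, hs⟩ : ∃ s, s = √(J : ℝ) := ⟨_, rfl⟩
  have hs0 : 0 < s := hs ▸ Real.sqrt_pos.2 hJ'
  have hs1 : 1 ≤ s := hs ▸ Real.one_le_sqrt.2 hJ1
  have hs2 : (J : ℝ) = s ^ 2 := by rw [hs, Real.sq_sqrt hJ'.le]
  rw [← hs]
  obtain ⟨l, hl⟩ : ∃ l, l = t / (ε * s) := ⟨_, rfl⟩
  have hl0 : 0 < l := by rw [hl]; positivity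
  have key := hoeff_family hP hQ ε l J (-(t ^ 2))
  set Φ := Real.exp (l * ε) • P + Real.exp (-(l * ε)) • Q with hΦ
  have hΦp : Pos Φ := (hP.smul (Real.exp_pos _).le).add (hQ.smul (Real.exp_pos _).le)
  have mΦ : mass Φ ≤ Real.exp ((l * ε) ^ 2 / 2) := by
    have := Real.cosh_le_exp_half_sq (l * ε)
    rw [Real.cosh_eq] at this
    simp only [hΦ, map_add, map_smul, mP, mQ, smul_eq_mul]
    linarith
  refine ⟨(1 / (l * J) * Real.exp (-(t ^ 2))) • Φ ^ J, (hΦp.pow J).smul (by positivity), ?_, ?_⟩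
  · rw [map_smul, mass_pow, smul_eq_mul]
    have h1 : mass Φ ^ J ≤ Real.exp (t ^ 2 / 2) := by
      refine (pow_le_pow_left₀ hΦp.mass_nonneg mΦ J).trans (le_of_eq ?_)
      rw [← Real.exp_nat_mul, hs2, hl]
      congr 1
      field_simp
    have h2 : 1 / (l * J) ≤ ε := by
      rw [hs2, hl, show 1 / (t / (ε * s) * s ^ 2) = ε / (t * s) by field_simp]
      exact div_le_self hε.le (one_le_mul_of_one_le_of_one_le ht hs1)
    calc 1 / (l * J) * Real.exp (-(t ^ 2)) * mass Φ ^ J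
        ≤ ε * Real.exp (-(t ^ 2)) * Real.exp (t ^ 2 / 2) := by
          have := hΦp.mass_nonneg
          gcongr
      _ = ε * Real.exp (-(t ^ 2 / 2)) := by
          rw [mul_assoc, ← Real.exp_add]; congr 2; ring
  · refine ((key.add (hμ.1.pow J)).smul (c := 1 / (l * J)) (by positivity)).of_eq ?_
    rw [AV_apply]
    generalize SJ (P + Q) J (ε • (P - Q)) = S
    generalize (P + Q) ^ J = U
    generalize Φ ^ J = F
    have e1 : ε * t / s = 1 / (l * J) * t ^ 2 := by rw [hs2, hl]; field_simp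
    have e2 : 1 / (J : ℝ) = 1 / (l * J) * l := by field_simp
    rw [e1, e2]
    module

/-- Hoeffding averaging -/
lemma Dom.avg {μ Y : Alg M} {ε θ : ℝ} (h : Dom Y μ ε θ) (hε : 0 < ε) (hμ : St μ)
    (hY : mass Y = 0) {J : ℕ} {s : ℝ} (hs : 0 < s) (hJ : s ^ 2 ≤ J) {t : ℝ} (ht : 1 ≤ t) :
    Dom (AV μ J Y) (μ ^ J) ((ε + θ) * t / s) (2 * θ + 2 * (ε + θ) * Real.exp (-(t ^ 2 / 2))) := by
  have hθ := h.theta_nonneg
  have hJ0 : 0 < J := by
    have : (0 : ℝ) < J := lt_of_lt_of_le (by positivity) hJ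
    exact_mod_cast this
  obtain ⟨Y₂, k1, k2, k3⟩ := h.exact hμ hε.le hY
  have hε' : 0 < ε + θ := by linarith
  obtain ⟨η, a, b, c⟩ := hoeff_one hε' hμ k1 k2 hJ0 ht
  obtain ⟨η', a', b', c'⟩ := hoeff_one hε' hμ k1.neg (by simp [k2]) hJ0 ht
  have d : Dom (AV μ J Y₂) (μ ^ J) ((ε + θ) * t / √J)
      (2 * (ε + θ) * Real.exp (-(t ^ 2 / 2))) := by
    refine ⟨η + η', a.add a', by rw [map_add]; linarith, (c.add a').of_eq (by abel),
      (c'.add a).of_eq ?_⟩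
    rw [map_neg]; abel
  have e := d.add_nrm (((mk_AV hμ hJ0).nrm_le (Y - Y₂)).trans k3)
  rw [← map_add, add_sub_cancel] at e
  refine e.mono (hμ.1.pow J) ?_ (by linarith)
  have : s ≤ √J := Real.le_sqrt_of_sq_le hJ
  have : 0 < t := by linarith
  gcongr

end Monoid

end

end Vale.Agent.P321
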