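import Vale.Agent.P321.Iter
import Vale.Agent.P321.Defs

/-! From close pairs to the sample complexity. -/

namespace Vale.Agent.P321

open MonoidAlgebra Finset

noncomputable section

lemma sum_cons {ι : Type*} [Fintype ι] {m : ℕ} (F : (Fin (m + 1) → ι) → ℝ) :
    ∑ K, F K = ∑ a : ι, ∑ K : Fin m → ι, F (Fin.cons a K) := by
  rw [← (Fin.consEquiv fun _ => ι).sum_comp, Fintype.sum_prod_type]
  rfl

lemma trace_cons {n : ℕ} (x : Fin (n + 1) → Bool) (b : Bool) (k : Fin n → Bool) :
    trace x (Fin.cons b k) = if b then x 0 :: trace (fun i => x i.succ) k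
      else trace (fun i => x i.succ) k := by
  cases b <;> simp [trace, List.finRange_succ, List.filter_map, Function.comp_def]

lemma weight_cons (q : ℝ) {n : ℕ} (b : Bool) (k : Fin n → Bool) :
    weight q (Fin.cons b k : Fin (n + 1) → Bool) = (if b then 1 - q else q) * weight q k := by
  simp [weight, Fin.prod_univ_succ]

lemma bridge (q : ℝ) {n : ℕ} (x : Fin n → Bool) (f : List Bool → ℝ) :
    ∑ k, weight q k * f (trace x k)
      = ev (fun u : Wd => f u.toList) (tr q (FreeMonoid.ofList (List.ofFn x))) := by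
  induction n generalizing f with
  | zero => simp [weight, trace, ev_one]
  | succ n ih =>
    rw [sum_cons, Fintype.sum_bool, List.ofFn_succ, FreeMonoid.ofList_cons, map_mul, tr,
      FreeMonoid.lift_eval_of, ← tr, add_mul, smul_mul_assoc, smul_mul_assoc, one_mul, map_add,
      map_smul, map_smul, ev_ee_mul, ← ih]
    simp only [trace_cons, weight_cons, if_true, Bool.false_eq_true, if_false, mul_assoc,
      ← Finset.mul_sum, smul_eq_mul]
    rw [ih _ fun l => f (x 0 :: l), add_comm]
    rfl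

lemma weight_nonneg {q : ℝ} (h0 : 0 < q) (h1 : q < 1) {n : ℕ} (k : Fin n → Bool) :
    0 ≤ weight q k := Finset.prod_nonneg fun i _ => by split_ifs <;> linarith

lemma sum_weight (q : ℝ) (n : ℕ) : ∑ k : Fin n → Bool, weight q k = 1 := by
  have := Fintype.sum_pow (fun b : Bool => if b then 1 - q else q) n
  simp only [Fintype.sum_bool, if_true, Bool.false_eq_true, if_false, sub_add_cancel,
    one_pow] at this
  exact this.symm

lemma avg_le {ι : Type*} [Fintype ι] {w : ι → ℝ} (hw : ∀ i, 0 ≤ w i) (hs : ∑ i, w i = 1)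
    {f : ι → ℝ} {c : ℝ} (h : ∀ i, f i ≤ c) : ∑ i, w i * f i ≤ c := by
  calc ∑ i, w i * f i ≤ ∑ i, w i * c := Finset.sum_le_sum fun i _ => by gcongr; exacts [hw i, h i]
    _ = c := by rw [← Finset.sum_mul, hs, one_mul]

lemma sum_prod_one {ι : Type*} [Fintype ι] {w : ι → ℝ} (hs : ∑ i, w i = 1) (m : ℕ) :
    ∑ K : Fin m → ι, ∏ j, w (K j) = 1 := by
  rw [← Fintype.sum_pow, hs, one_pow]

lemma hybrid {ι α : Type*} [Fintype ι] {w : ι → ℝ} (hw : ∀ i, 0 ≤ w i) (hs : ∑ i, w i = 1)
    (a b : ι → α) {δ : ℝ}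
    (h : ∀ g : α → ℝ, (∀ u, |g u| ≤ 1) → ∑ i, w i * g (a i) - ∑ i, w i * g (b i) ≤ δ) (m : ℕ)
    (f : (Fin m → α) → ℝ) (hf : ∀ t, |f t| ≤ 1) :
    ∑ K : Fin m → ι, (∏ j, w (K j)) * f (fun j => a (K j))
      - ∑ K : Fin m → ι, (∏ j, w (K j)) * f (fun j => b (K j)) ≤ m * δ := by
  induction m with
  | zero =>
    have : ∀ K : Fin 0 → ι, (fun j => a (K j)) = fun j => b (K j) := fun K => Subsingleton.elim _ _
    simp [this]
  | succ m ih =>
    have e : ∀ (c : ι → α), ∑ K : Fin (m + 1) → ι, (∏ j, w (K j)) * f (fun j => c (K j))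
        = ∑ i, w i * ∑ K : Fin m → ι, (∏ j, w (K j)) * f (Fin.cons (c i) fun j => c (K j)) := by
      intro c
      rw [sum_cons]
      refine Finset.sum_congr rfl fun i _ => ?_
      rw [Finset.mul_sum]
      refine Finset.sum_congr rfl fun K _ => ?_
      rw [Fin.prod_univ_succ, ← mul_assoc]
      congr 2
      funext j
      cases j using Fin.cases <;> rfl
    rw [e, e]
    have h1 := h (fun u => ∑ K : Fin m → ι, (∏ j, w (K j)) * f (Fin.cons u fun j => b (K j)))
      fun u => abs_le.2 ⟨by
        have := avg_le (fun K : Fin m → ι => Finset.prod_nonneg fun j _ => hw (K j))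
          (sum_prod_one hs m) (f := fun K => -f (Fin.cons u fun j => b (K j))) (c := 1)
          fun K => by linarith [(abs_le.1 (hf (Fin.cons u fun j => b (K j)))).1]
        simp only [mul_neg, Finset.sum_neg_distrib] at this
        linarith, avg_le (fun K : Fin m → ι => Finset.prod_nonneg fun j _ => hw (K j))
          (sum_prod_one hs m) fun K => (abs_le.1 (hf _)).2⟩
    have h2 := avg_le hw hs fun i => ih (fun t => f (Fin.cons (a i) t)) fun t => hf _
    simp only [mul_sub, Finset.sum_sub_distrib] at h2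
    push_cast
    linarith

lemma pmf_two {β : Type*} (p : PMF β) {x y : β} (h : x ≠ y) :
    (p x).toReal + (p y).toReal ≤ 1 := by
  classical
  rw [← ENNReal.toReal_add (p.apply_ne_top x) (p.apply_ne_top y)]
  refine ENNReal.toReal_le_of_le_ofReal zero_le_one ?_
  rw [ENNReal.ofReal_one, ← p.tsum_coe, ← Finset.sum_pair h]
  exact ENNReal.sum_le_tsum _

lemma third_le {q : ℝ} (h0 : 0 < q) (h1 : q < 1) {n m : ℕ} (hw : Works q n m)
    {x y : Fin n → Bool} (hxy : x ≠ y) : 1 / 3 ≤ m *
      nrm (tr q (FreeMonoid.ofList (List.ofFn x)) - tr q (FreeMonoid.ofList (List.ofFn y))) := by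
  obtain ⟨est, he⟩ := hw
  have k := hybrid (weight_nonneg h0 h1) (sum_weight q n) (trace x) (trace y)
    (δ := nrm (tr q (FreeMonoid.ofList (List.ofFn x)) - tr q (FreeMonoid.ofList (List.ofFn y))))
    (fun g hg => by
      rw [bridge, bridge, ← map_sub]
      exact (le_abs_self _).trans (abs_ev_le_nrm _ fun u => hg _)) m
    (fun t => (est t x).toReal) fun t => by
      rw [abs_of_nonneg ENNReal.toReal_nonneg]
      exact ENNReal.toReal_le_of_le_ofReal zero_le_one (by simpa using (est t).coe_le_one x)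
  have k1 := he x
  have k2 := he y
  have k3 := avg_le (fun K : Fin m → Fin n → Bool =>
      Finset.prod_nonneg fun j _ => weight_nonneg h0 h1 (K j)) (sum_prod_one (sum_weight q n) m)
    fun K => pmf_two (est fun j => trace y (K j)) hxy
  simp only [mul_add, Finset.sum_add_distrib] at k3
  unfold success at k1 k2
  linarith

lemma works_exists {q : ℝ} (h0 : 0 < q) (h1 : q < 1) (n : ℕ) : ∃ m, Works q n m := by
  classical
  have hp : 0 < weight q (fun _ : Fin n => true) :=
    Finset.prod_pos fun i _ => by simpa using h1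
  obtain ⟨m, hm⟩ := exists_pow_lt_of_lt_one (show (0 : ℝ) < 1 / 3 by norm_num)
    (show 1 - weight q (fun _ : Fin n => true) < 1 by linarith)
  refine ⟨m, fun t => PMF.pure
    (if h : ∃ z : Fin n → Bool, ∃ j, t j = List.ofFn z then h.choose else fun _ => true),
    fun x => ?_⟩
  have e : ∑ k : Fin n → Bool, weight q k * (if k = fun _ => true then 0 else 1)
      = 1 - weight q (fun _ : Fin n => true) := by
    have : ∀ k : Fin n → Bool, weight q k * (if k = fun _ => true then 0 else 1)
        = weight q k - if k = fun _ => true then weight q k else 0 := fun k => by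
      split_ifs <;> simp
    simp [this, sum_weight]
  rw [← e, Fintype.sum_pow] at hm
  simp only [Finset.prod_mul_distrib] at hm
  have h2 := sum_prod_one (sum_weight q n) m
  have h3 : ∑ K : Fin m → Fin n → Bool, (∏ j, weight q (K j))
      * (1 - ∏ j, if K j = fun _ => true then 0 else 1) ≤ success q (m := m) (fun t => PMF.pure
      (if h : ∃ z : Fin n → Bool, ∃ j, t j = List.ofFn z then h.choose else fun _ => true)) x := by
    refine Finset.sum_le_sum fun K _ => mul_le_mul_of_nonneg_left ?_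
      (Finset.prod_nonneg fun j _ => weight_nonneg h0 h1 (K j))
    by_cases hK : ∃ j, K j = fun _ => true
    · obtain ⟨j, hj⟩ := hK
      have hx : ∃ z : Fin n → Bool, ∃ j, trace x (K j) = List.ofFn z :=
        ⟨x, j, by simp [trace, hj, List.ofFn_eq_map]⟩
      obtain ⟨i, hi⟩ := hx.choose_spec
      have hs : (trace x (K i)).Sublist (List.ofFn x) := by
        rw [List.ofFn_eq_map]; exact List.filter_sublist.map _
      have hz : hx.choose = x := List.ofFn_injective
        (hi.symm.trans (hs.eq_of_length (by rw [hi]; simp)))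
      rw [Finset.prod_eq_zero (f := fun j => if K j = fun _ => true then (0 : ℝ) else 1)
        (Finset.mem_univ j) (if_pos hj)]
      simp only [dif_pos hx, hz]
      simp
    · push Not at hK
      simp [hK]
  simp only [mul_sub, mul_one, Finset.sum_sub_distrib] at h3
  linarith

lemma exists_ofFn {n : ℕ} (u : Wd) (h : u.length = n) :
    ∃ x : Fin n → Bool, FreeMonoid.ofList (List.ofFn x) = u := by
  subst h
  exact ⟨u.toList.get, congrArg FreeMonoid.ofList (List.ofFn_get u.toList)⟩

lemma exists_scale {B n k₀ : ℕ} (hB : 0 < B) (hn : 2 ^ (B * 8 ^ k₀) ≤ n) :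
    ∃ k, k₀ ≤ k ∧ 2 ^ (B * 8 ^ k) ≤ n ∧ n < 2 ^ (B * 8 ^ (k + 1)) := by
  by_contra hc
  push Not at hc
  have : ∀ j, 2 ^ (B * 8 ^ (k₀ + j)) ≤ n := fun j => by
    induction j with
    | zero => exact hn
    | succ j ih => exact hc (k₀ + j) (by omega) ih
  have h1 := this n
  have h2 := Nat.lt_two_pow_self (n := B * 8 ^ (k₀ + n))
  have h3 := Nat.lt_pow_self (n := k₀ + n) (show 1 < 8 by norm_num)
  nlinarith

lemma num_final {k : ℕ} {n m : ℝ} (hn : 3 ≤ n) (h : n ≤ 2 ^ (112000000 * 8 ^ (k + 1)))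
    (hm : 1 / 3 ≤ m * (4 / ((2 : ℝ) ^ (1750000 * 8 ^ k)) ^ (62 + k))) :
    n ^ (Real.log (Real.log n) / 1536) ≤ m := by
  have hl2 : Real.log 2 ≤ 1 := by linarith [Real.log_two_lt_d9]
  have hln : 0 < Real.log n := Real.log_pos (by linarith)
  have h1 : Real.log n ≤ 112000000 * 8 ^ (k + 1) := by
    refine (Real.log_le_log (by linarith) h).trans ?_
    rw [Real.log_pow]
    push_cast
    exact mul_le_of_le_one_right (by positivity) hl2
  have h2 : Real.log (Real.log n) ≤ 3 * (k + 10) := by
    refine (Real.log_le_log hln (h1.trans (show _ ≤ (2 : ℝ) ^ (3 * (k + 10)) from ?_))).trans ?_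
    · rw [pow_mul, show k + 10 = 9 + (k + 1) by ring, pow_add _ 9]
      gcongr <;> norm_num
    · rw [Real.log_pow]
      push_cast
      exact mul_le_of_le_one_right (by positivity) hl2
  have hw : (12 : ℝ) ≤ 2 ^ (1750000 * 8 ^ k) := by
    refine le_trans (by norm_num) (pow_le_pow_right₀ (by norm_num) (?_ : 4 ≤ _))
    have := Nat.one_le_pow k 8 (by norm_num)
    omega
  rw [show 112000000 * 8 ^ (k + 1) = 1750000 * 8 ^ k * 512 by ring, pow_mul] at h
  generalize (2 : ℝ) ^ (1750000 * 8 ^ k) = w at *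
  have h3 : w ^ (61 + k) ≤ m := by
    rw [← mul_div_assoc, le_div_iff₀ (by positivity), show 62 + k = 61 + k + 1 by ring,
      pow_succ] at hm
    nlinarith [pow_pos (show 0 < w by linarith) (61 + k)]
  calc n ^ (Real.log (Real.log n) / 1536) ≤ n ^ (((61 + k : ℕ) : ℝ) / 512) := by
        refine Real.rpow_le_rpow_of_exponent_le (by linarith) ?_
        have : (0 : ℝ) ≤ k := by positivity
        push_cast
        linarith
    _ ≤ (w ^ 512) ^ (((61 + k : ℕ) : ℝ) / 512) := by gcongr
    _ = w ^ (61 + k) := by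
      rw [← Real.rpow_natCast w 512, ← Real.rpow_mul (by linarith), ← Real.rpow_natCast]
      congr 1
      push_cast
      ring
    _ ≤ m := h3

lemma lower {q : ℝ} (h0 : 0 < q) (h1 : q < 1) : ∃ n₀ : ℕ, ∀ n, n₀ ≤ n → ∀ m, Works q n m →
    (n : ℝ) ^ (Real.log (Real.log n) / 1536) ≤ m := by
  obtain ⟨k₀, hk₀⟩ := close_scales h0 h1
  refine ⟨max 3 (2 ^ (112000000 * 8 ^ k₀)), fun n hn m hw => ?_⟩
  obtain ⟨k, hk, k1, k2⟩ := exists_scale (by norm_num) ((le_max_right _ _).trans hn)
  obtain ⟨x, y, hxy, l1, l2, hd⟩ := hk₀ k hk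
  obtain ⟨x', hx⟩ := exists_ofFn (n := n) (x * FreeMonoid.of true ^ (n - y.length)) (by
    rw [FreeMonoid.length_mul, length_pow, FreeMonoid.length_of]; omega)
  obtain ⟨y', hy⟩ := exists_ofFn (n := n) (y * FreeMonoid.of true ^ (n - y.length)) (by
    rw [FreeMonoid.length_mul, length_pow, FreeMonoid.length_of]; omega)
  have h3 := third_le h0 h1 hw (x := x') (y := y') fun e =>
    hxy (mul_right_cancel (hx.symm.trans (e ▸ hy)))
  rw [hx, hy, map_mul, map_mul, ← sub_mul] at h3
  refine num_final (k := k) (by exact_mod_cast (le_max_left _ _).trans hn)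
    (by exact_mod_cast k2.le) (h3.trans ?_)
  gcongr
  exact ((st_tr h0 h1 _).nrm_mul_right _).trans hd

end

end Vale.Agent.P321
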