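import Vale.Agent.P321.Word

/-! Localised smallness. -/

namespace Vale.Agent.P321

open MonoidAlgebra Finset

noncomputable section

variable {M : Type*} [Monoid M]

lemma Dom.mul' {Y μ Y' μ' : Alg M} {ε θ ε' θ' : ℝ} (h : Dom Y μ ε θ) (h' : Dom Y' μ' ε' θ')
    (hμ : St μ) (hμ' : St μ') (hε : 0 ≤ ε) (hε' : 0 ≤ ε') (h1 : ε ≤ 1) (h2 : ε' ≤ 1)
    (h3 : θ ≤ 1 ∨ θ' ≤ 1) : Dom (Y * Y') (μ * μ') (ε * ε') (2 * θ + 2 * θ') := by
  have := h.theta_nonneg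
  have := h'.theta_nonneg
  refine (h.mul h' hμ hμ' hε hε').mono (hμ.mul hμ').1 le_rfl ?_
  rcases h3 with h3 | h3 <;> nlinarith

/-- `Z` is, inside the pads, a localised part plus a smaller spread out part -/
def Good (G : Alg M) (P R : ℕ) (Z : Alg M) (ε φ θ : ℝ) : Prop :=
  ∃ Y, Dom Y (G ^ R) ε θ ∧ Dom (G ^ (P + 1) * (Z - Y) * G ^ P) (G ^ (P + 1 + R + P)) φ θ

section
variable {G : Alg M} {P R : ℕ}

lemma Good.add {Z Z' : Alg M} {ε φ θ ε' φ' θ' : ℝ} (h : Good G P R Z ε φ θ)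
    (h' : Good G P R Z' ε' φ' θ') : Good G P R (Z + Z') (ε + ε') (φ + φ') (θ + θ') := by
  obtain ⟨Y, a, b⟩ := h
  obtain ⟨Y', a', b'⟩ := h'
  exact ⟨Y + Y', a.add a', (b.add b').of_eq (by noncomm_ring) rfl⟩

lemma Good.neg {Z : Alg M} {ε φ θ : ℝ} (h : Good G P R Z ε φ θ) : Good G P R (-Z) ε φ θ := by
  obtain ⟨Y, a, b⟩ := h
  exact ⟨-Y, a.neg, b.neg.of_eq (by noncomm_ring) rfl⟩

lemma Good.mono {Z : Alg M} {ε φ θ ε' φ' θ' : ℝ} (h : Good G P R Z ε φ θ) (hG : St G)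
    (h1 : ε ≤ ε') (h2 : φ ≤ φ') (h3 : θ ≤ θ') : Good G P R Z ε' φ' θ' := by
  obtain ⟨Y, a, b⟩ := h
  exact ⟨Y, a.mono (hG.1.pow _) h1 h3, b.mono (hG.1.pow _) h2 h3⟩

lemma Good.of_eq {Z Z' : Alg M} {ε φ θ : ℝ} (h : Good G P R Z ε φ θ) (e : Z = Z') :
    Good G P R Z' ε φ θ := e ▸ h

lemma Good.of_dom {Z : Alg M} {ε θ : ℝ} (hG : St G) (h : Dom Z (G ^ R) ε θ) :
    Good G P R Z ε 0 θ :=
  ⟨Z, h, ((Dom.zero _).mono (hG.1.pow _) le_rfl h.theta_nonneg).of_eq (by simp) rfl⟩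

lemma Good.of_nrm {Z : Alg M} {θ : ℝ} (hG : St G) (h : nrm (G ^ (P + 1) * Z * G ^ P) ≤ θ) :
    Good G P R Z 0 0 θ :=
  ⟨0, (Dom.zero _).mono (hG.1.pow _) le_rfl ((nrm_nonneg _).trans h),
    Dom.of_nrm _ (by simpa using h)⟩

lemma Good.zero {ε φ θ : ℝ} (hG : St G) (h1 : 0 ≤ ε) (h2 : 0 ≤ φ) (h3 : 0 ≤ θ) :
    Good G P R 0 ε φ θ :=
  (Good.of_dom hG (Dom.zero _)).mono hG h1 h2 h3

lemma Good.sum {ι : Type*} {s : Finset ι} {Z : ι → Alg M} {ε φ θ : ℝ} (hG : St G)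
    (h : ∀ i ∈ s, Good G P R (Z i) ε φ θ) :
    Good G P R (∑ i ∈ s, Z i) (s.card * ε) (s.card * φ) (s.card * θ) := by
  classical
  induction s using Finset.induction_on with
  | empty => simpa using Good.zero hG le_rfl le_rfl le_rfl
  | insert a s ha ih =>
    rw [Finset.sum_insert ha, Finset.card_insert_of_notMem ha]
    have := (h a (by simp)).add (ih fun i hi => h i (by simp [hi]))
    push_cast
    convert this using 1 <;> ring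

lemma Good.dom {Z : Alg M} {ε φ θ : ℝ} (h : Good G P R Z ε φ θ) (hG : St G) :
    Dom (G ^ (P + 1) * Z * G ^ P) (G ^ (P + 1 + R + P)) (ε + φ) (2 * θ) := by
  obtain ⟨Y, a, b⟩ := h
  have := (a.sand (hG.pow (P + 1)) (hG.pow P))
  rw [← pow_add, ← pow_add] at this
  rw [two_mul]
  exact (this.add b).of_eq (by noncomm_ring) rfl

end

lemma block {H G Z : Alg M} (hH : St H) (hG : St G) {g R m J N l P n a b : ℕ}
    {κ θ ζ L εZ εs θs Θ : ℝ} (hκ : 0 ≤ κ) (dG : Dom (G - H ^ g) (H ^ g) κ θ)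
    (hL : L * (κ + θ) ≤ 1 / 4) (hL' : l + R + l ≤ L) (hL1 : 1 ≤ L) (hm : MixAt H N ζ)
    (hJ : 0 < J) (hζ : (2 * J * R * ζ) ^ (m + 1) ≤ θ) (hN : (m + 1) * N ≤ g * l) (hl : l ≤ P)
    (hZ : Dom Z (H ^ n) εZ Θ) (hεZ : 0 ≤ εZ) (hεs : 0 ≤ εs)
    (hA : Dom (AV (H ^ R) J Z) (H ^ (n + (J - 1) * R)) εs θs) (hΘ : 2 ^ (m + 1) * θs ≤ Θ)
    (hΘ' : Θ ≤ 1 / 2) (hε : εZ + 2 ^ (m + 1) * εs ≤ 1 / 2) (habn : a + n + b = g * R)
    (hb : (m + 1) * ((J - 1) * R) ≤ b) :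
    Good G P R (H ^ a * Z * H ^ b) (2 * (2 ^ (m + 1) * εs))
      (4 * L * κ * (εZ + 2 ^ (m + 1) * εs)) (13 * L * θ + 2 * Θ) := by
  have hθ := dG.theta_nonneg
  have hΘ0 := hZ.theta_nonneg
  obtain ⟨Y, y1, y2⟩ := loc hH hm hJ hεs hA m
  obtain ⟨b', rfl⟩ := Nat.exists_eq_add_of_le hb
  obtain ⟨x, hx⟩ := Nat.exists_eq_add_of_le hN
  obtain ⟨P', rfl⟩ := Nat.exists_eq_add_of_le hl
  generalize (J - 1) * R = v at *
  obtain ⟨k, hk⟩ : ∃ k : ℝ, k = 2 ^ (m + 1) * εs := ⟨_, rfl⟩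
  have hk0 : 0 ≤ k := by rw [hk]; positivity
  rw [← hk] at y1 hε ⊢
  have sμ := hH.pow g
  have hl0 : (0 : ℝ) ≤ l := by positivity
  have d1 : Dom (H ^ a * Y * H ^ b') ((H ^ g) ^ R) k Θ := by
    refine ((y1.sand (hH.pow a) (hH.pow b')).mono
      (((hH.pow _).mul (hH.pow _)).mul (hH.pow _)).1 le_rfl hΘ).of_eq rfl ?_
    rw [← pow_add, ← pow_add, ← pow_mul, ← habn]
    congr 1; ring
  have d2 : Dom (H ^ a * Z * H ^ ((m + 1) * v + b')) ((H ^ g) ^ R) εZ Θ := by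
    refine (hZ.sand (hH.pow a) (hH.pow _)).of_eq rfl ?_
    rw [← pow_add, ← pow_add, ← pow_mul, ← habn]
  have r := dom_pow_ref sμ hG hκ dG hL (n := R) (by linarith)
  have hLθ : 0 ≤ L * θ := by positivity
  refine ⟨H ^ a * Y * H ^ b', ?_, ?_⟩
  · refine (d1.trans r hk0).mono (hG.1.pow _) (by linarith) ?_
    have : k * (8 * L * θ) ≤ 1 * (8 * L * θ) := by gcongr; linarith
    nlinarith
  · have w := swap sμ hG hκ dG hL hL' (d2.sub d1) (by linarith) (by linarith) (by linarith)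
    have nZ : nrm Z ≤ 1 := by have := hZ.nrm_le (hH.pow n); linarith
    have e : (H ^ g) ^ l * (H ^ a * Z * H ^ ((m + 1) * v + b') - H ^ a * Y * H ^ b') * (H ^ g) ^ l
        = H ^ (x + a) * (H ^ ((m + 1) * N) * (Z * H ^ ((m + 1) * v) - Y) * H ^ ((m + 1) * N))
          * H ^ (b' + x) := by
      rw [← pow_mul, hx, mul_sub, sub_mul, mul_sub, sub_mul, mul_sub, sub_mul]
      simp only [← mul_assoc, ← pow_add]
      simp only [mul_assoc, ← pow_add]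
      congr 2 <;> [congr 1; congr 2; congr 1; congr 2] <;> ring
    have n1 : nrm ((H ^ g) ^ l * (H ^ a * Z * H ^ ((m + 1) * v + b') - H ^ a * Y * H ^ b')
        * (H ^ g) ^ l) ≤ θ := by
      rw [e]
      refine (nrm_sand (hH.pow _) (hH.pow _) _).trans (y2.trans ?_)
      have := nrm_nonneg Z
      nlinarith
    have w2 := (w.add_nrm n1).sand (hG.pow (P' + 1)) (hG.pow P')
    refine (w2.mono (((hG.pow _).mul (hG.pow _)).mul (hG.pow _)).1 le_rfl ?_).of_eq ?_ ?_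
    · nlinarith
    · rw [sub_add_cancel]
      simp only [← mul_assoc, ← pow_add]
      rw [mul_assoc _ (G ^ l) (G ^ P'), ← pow_add]
      congr 3; ring
    · rw [← pow_add, ← pow_add]
      congr 1; ring

end

end Vale.Agent.P321
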