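import Vale.Agent.P321.Base

/-! Iterating the recursion. -/

namespace Vale.Agent.P321

open MonoidAlgebra Finset

noncomputable section

/-- the parameter at level `j` -/
def vv (A : ℕ) (j : ℕ) : ℕ := A ^ (100 * 2 ^ j - 1)

lemma A_vv (A j : ℕ) : A * vv A j = A ^ (100 * 2 ^ j) := by
  rw [vv, ← pow_succ']
  congr 1
  have := Nat.one_le_two_pow (n := j)
  omega

lemma vv_succ (A j : ℕ) : A * vv A j ^ 2 = vv A (j + 1) := by
  rw [vv, vv, ← pow_mul, ← pow_succ']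
  congr 1
  have := Nat.one_le_two_pow (n := j)
  rw [pow_succ]
  omega

lemma le_vv {A : ℕ} (hA : 100 ≤ A) (j : ℕ) : A ^ 99 ≤ vv A j := by
  refine Nat.pow_le_pow_right (by omega) ?_
  have := Nat.one_le_two_pow (n := j)
  omega

lemma A_vv' (A j : ℕ) : (A : ℝ) * vv A j = (A : ℝ) ^ (100 * 2 ^ j) := by
  exact_mod_cast A_vv A j

lemma small_mul {A : ℝ} (hA : 1 ≤ A) {M e : ℕ} (h : e ≤ M) : (1 / A) ^ M * A ^ e ≤ 1 := by
  rw [one_div, inv_pow, inv_mul_le_iff₀ (by positivity), mul_one]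
  exact pow_le_pow_right₀ hA h

lemma lev_iter {q : ℝ} (h0 : 0 < q) (h1 : q < 1) {r A m k : ℕ} (hr : D0 q ≤ r)
    (hr1 : 1 ≤ r) (hrA : r ≤ A) (hc : 384 * Real.exp (2 * r / q ^ 4) ^ 2 ≤ A) (hq : 1 / q ^ 2 ≤ A)
    (hA : 100 ≤ A) (hK : 2 ^ (m + 1) + 1 ≤ A)
    (hexp : Real.exp (-((A : ℝ) ^ 2 / 2)) ≤ (1 / (A : ℝ)) ^ (m + 1))
    (hm : 100 * 2 ^ k * (2 * (62 + k) + 50) ≤ m + 1) (j : ℕ) (hj : j ≤ k) :
    Lev q A (vv A j) m (62 + j) (((A : ℝ) * vv A j) ^ 20 * (1 / (A : ℝ)) ^ (m + 1)) := by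
  have hA' : (100 : ℝ) ≤ A := by exact_mod_cast hA
  have hA1 : (1 : ℝ) ≤ A := by linarith
  induction j with
  | zero =>
    refine lev_base h0 h1 hr hr1 hrA hc hq hA (le_vv hA 0) hK hexp le_rfl ?_
    rw [A_vv', ← pow_mul]
    refine small_mul hA1 (le_trans ?_ hm)
    have := Nat.one_le_two_pow (n := k)
    gcongr <;> omega
  | succ j ih =>
    have hw : (1 : ℝ) ≤ ((A : ℝ) * vv A j) ^ 20 := by
      rw [A_vv', ← pow_mul]; exact one_le_pow₀ hA1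
    have hle : (1 / (A : ℝ)) ^ (m + 1) ≤ ((A : ℝ) * vv A j) ^ 20 * (1 / (A : ℝ)) ^ (m + 1) :=
      le_mul_of_one_le_left (by positivity) hw
    have := lev_step hA (le_vv hA j) hK (by omega) (hexp.trans hle) hle (by
      rw [mul_comm (_ ^ 20), mul_assoc, ← pow_add, A_vv', ← pow_mul]
      refine small_mul hA1 (le_trans ?_ hm)
      exact Nat.mul_le_mul (by gcongr <;> omega) (by omega)) (ih (by omega))
    rw [vv_succ] at this
    convert this using 1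
    · omega
    rw [← mul_assoc, A_vv', A_vv', ← pow_add, ← pow_mul, ← pow_mul]
    congr 2
    ring

lemma close_pair {q : ℝ} {A m k : ℕ} (hA : 100 ≤ A)
    (hm : 100 * 2 ^ k * (2 * (62 + k) + 50) ≤ m + 1)
    (h : Lev q A (vv A k) m (62 + k) (((A : ℝ) * vv A k) ^ 20 * (1 / (A : ℝ)) ^ (m + 1))) :
    ∃ x y : Wd, x ≠ y ∧ x.length = y.length ∧ y.length ≤ A ^ (6400 * 2 ^ k) ∧
      nrm (tr q x - tr q y) ≤ 4 / ((A : ℝ) ^ (100 * 2 ^ k)) ^ (62 + k) := by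
  obtain ⟨h', g, x, γ, hne, hlen, hlen', -, hI, -, -⟩ := h
  have hA' : (100 : ℝ) ≤ A := by exact_mod_cast hA
  have hA1 : (1 : ℝ) ≤ A := by linarith
  refine ⟨x, g, hne, hlen, ?_, hI.nrm_le.trans ?_⟩
  · rw [A_vv, ← pow_mul] at hlen'
    exact hlen'.trans (le_of_eq (by congr 1; ring))
  · rw [A_vv']
    have hw : (1 : ℝ) ≤ (A : ℝ) ^ (100 * 2 ^ k) := one_le_pow₀ hA1
    have h1 : (1 / (A : ℝ)) ^ (m + 1) * ((A : ℝ) ^ (100 * 2 ^ k)) ^ (62 + k + 20) ≤ 1 := by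
      rw [← pow_mul]
      refine small_mul hA1 (le_trans ?_ hm)
      exact Nat.mul_le_mul le_rfl (by omega)
    generalize (A : ℝ) ^ (100 * 2 ^ k) = w at *
    generalize (1 / (A : ℝ)) ^ (m + 1) = θ at *
    have h2 : w ^ 20 * θ ≤ 1 / w ^ (62 + k) := by
      rw [le_div_iff₀ (by positivity)]
      rw [pow_add] at h1
      linarith
    have h3 : 1 / w ^ (62 + k) / w ^ 4 ≤ 1 / w ^ (62 + k) :=
      div_le_self (by positivity) (one_le_pow₀ hw)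
    have h4 : 4 / w ^ (62 + k) = 4 * (1 / w ^ (62 + k)) := by ring
    linarith

lemma exp_cond {a : ℕ} (ha : 7 ≤ a) :
    Real.exp (-(((2 ^ a : ℕ) : ℝ) ^ 2 / 2)) ≤ (1 / ((2 ^ a : ℕ) : ℝ)) ^ a := by
  have h1 : 2 * (a * a) ≤ (2 ^ a) ^ 2 := by
    obtain ⟨b, rfl⟩ : ∃ b, a = b + 1 := ⟨a - 1, by omega⟩
    have := Nat.lt_two_pow_self (n := b)
    rw [pow_succ 2 b]
    nlinarith
  have h2 : (2 : ℝ) * (a * a) ≤ ((2 ^ a : ℕ) : ℝ) ^ 2 := by exact_mod_cast h1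
  have h3 : (2 : ℝ) ≤ Real.exp 1 := by linarith [Real.add_one_le_exp (1 : ℝ)]
  calc Real.exp (-(((2 ^ a : ℕ) : ℝ) ^ 2 / 2)) ≤ Real.exp (-((a * a : ℕ) * 1)) := by
        gcongr; push_cast at h2 ⊢; linarith
    _ = (Real.exp 1 ^ (a * a))⁻¹ := by rw [Real.exp_neg, Real.exp_nat_mul]
    _ ≤ ((2 : ℝ) ^ (a * a))⁻¹ := by gcongr
    _ = _ := by push_cast; rw [one_div, inv_pow, ← pow_mul]

/-- close pairs at the scales `2 ^ (112000000 * 8 ^ k)` -/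
lemma close_scales {q : ℝ} (h0 : 0 < q) (h1 : q < 1) : ∃ k₀ : ℕ, ∀ k, k₀ ≤ k →
    ∃ x y : Wd, x ≠ y ∧ x.length = y.length ∧ y.length ≤ 2 ^ (112000000 * 8 ^ k) ∧
      nrm (tr q x - tr q y) ≤ 4 / ((2 : ℝ) ^ (1750000 * 8 ^ k)) ^ (62 + k) := by
  obtain ⟨r, hr⟩ := exists_nat_ge (max (D0 q) 1)
  obtain ⟨k₀, hk₀⟩ := exists_nat_ge
    (max (r : ℝ) (max (384 * Real.exp (2 * r / q ^ 4) ^ 2) (1 / q ^ 2)))
  refine ⟨k₀, fun k hk => ?_⟩
  obtain ⟨m, hm⟩ : ∃ m, m + 2 = 17500 * 4 ^ k :=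
    ⟨17500 * 4 ^ k - 2, by have := Nat.one_le_pow k 4 (by norm_num); omega⟩
  have k2 := Nat.lt_two_pow_self (n := k)
  have e4 : 4 ^ k = 2 ^ k * 2 ^ k := by rw [← mul_pow]; norm_num
  have e8 : 8 ^ k = 4 ^ k * 2 ^ k := by rw [← mul_pow]; norm_num
  have hm1 : 100 * 2 ^ k * (2 * (62 + k) + 50) ≤ m + 1 := by
    have : 2 ^ k * (100 * (2 * (62 + k) + 50) + 1) ≤ 2 ^ k * (17500 * 2 ^ k) := by
      exact Nat.mul_le_mul le_rfl (by omega)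
    nlinarith
  have hkA : k ≤ 2 ^ (m + 2) := by
    have := Nat.lt_two_pow_self (n := m + 2)
    nlinarith
  have hkA' : (k₀ : ℝ) ≤ ((2 ^ (m + 2) : ℕ) : ℝ) := by exact_mod_cast hk.trans hkA
  have hA : 100 ≤ 2 ^ (m + 2) := by
    have := Nat.lt_two_pow_self (n := m + 2)
    nlinarith
  simp only [max_le_iff] at hr hk₀
  have hA1 : (1 : ℝ) ≤ ((2 ^ (m + 2) : ℕ) : ℝ) := by exact_mod_cast (by omega : 1 ≤ 2 ^ (m + 2))
  have := close_pair hA hm1 (lev_iter h0 h1 (r := r) hr.1 (by exact_mod_cast hr.2)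
    (by exact_mod_cast hk₀.1.trans hkA') (hk₀.2.1.trans hkA') (hk₀.2.2.trans hkA') hA
    (by rw [pow_succ 2 (m + 1)]; have := Nat.one_le_two_pow (n := m + 1); omega)
    ((exp_cond (by nlinarith)).trans (pow_le_pow_of_le_one (by positivity)
      ((div_le_one (by positivity)).2 hA1) (by omega))) hm1 k le_rfl)
  push_cast at this
  rw [← pow_mul, ← pow_mul 2 (m + 2), hm, show 17500 * 4 ^ k * (6400 * 2 ^ k) = 112000000 * 8 ^ k by
    rw [e8]; ring, show 17500 * 4 ^ k * (100 * 2 ^ k) = 1750000 * 8 ^ k by rw [e8]; ring] at this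
  exact this

end

end Vale.Agent.P321
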