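import Vale.Agent.P321.Poly3

/-! Mixing of the first level background. -/

namespace Vale.Agent.P321

open MonoidAlgebra Finset Multiplicative

noncomputable section

lemma al_base {M : Type*} [Monoid M] {C : Alg M} {q : ℝ} (h0 : 0 < q) (h1 : q < 1) (hC : St C)
    (h : Pos (C - q ^ 2 • 1)) : AL (1 - C) ((1 / q ^ 2) • C) := by
  have h2 : 1 ≤ 1 / q ^ 2 := by rw [le_div_iff₀ (by positivity)]; nlinarith
  constructor
  · refine (hC.1.add (h.smul (c := 1 / q ^ 2) (by positivity))).of_eq ?_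
    rw [smul_sub, smul_smul, one_div_mul_cancel (by positivity), one_smul]
    abel
  · exact ((hC.1.smul (sub_nonneg.2 h2)).add Pos.one).of_eq (by module)

lemma overlap {M : Type*} {P₁ P₂ P₃ η : Alg M} (h1 : St P₁) (h3 : St P₃) (hc : Chi P₂ P₁ η)
    {Q : ℝ} (hQ : 1 ≤ Q) (hη : mass η ≤ Q) (h : nrm (P₃ - P₂) ≤ 1 / 10) :
    nrm (P₁ - P₃) ≤ 2 - 2 * (1 / (4 * Q)) := by
  have hQ0 : 0 < Q := by linarith
  have a := al_absA (P₃ - P₂)
  have hm : mass (absA (P₃ - P₂)) ≤ 1 / 10 := h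
  generalize absA (P₃ - P₂) = E at a hm
  have k := hc.2 (5 * Q)
  have hl : 2 / (5 * Q) ≤ 1 := by rw [div_le_one (by positivity)]; linarith
  have e1 : 1 / (5 * Q) ^ 2 * (5 * Q) ^ 2 = 1 := by field_simp
  have e2 : 1 / (5 * Q) ^ 2 * (2 * (5 * Q)) = 2 / (5 * Q) := by field_simp
  have v1 : Pos (P₁ - ((2 / (5 * Q)) • (P₃ - E) - (1 / (5 * Q) ^ 2) • η)) := by
    refine ((k.smul (c := 1 / (5 * Q) ^ 2) (by positivity)).add
      (a.1.smul (c := 2 / (5 * Q)) (by positivity))).of_eq ?_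
    rw [smul_add, smul_sub, smul_smul, smul_smul, e1, e2]
    module
  have v2 : Pos (P₃ - ((2 / (5 * Q)) • (P₃ - E) - (1 / (5 * Q) ^ 2) • η)) :=
    (((h3.1.smul (sub_nonneg.2 hl)).add (a.pos.smul (c := 2 / (5 * Q)) (by positivity))).add
      (hc.pos.smul (c := 1 / (5 * Q) ^ 2) (by positivity))).of_eq (by module)
  have w : AL (P₁ - P₃) (P₁ + P₃ - (2 : ℝ) • ((2 / (5 * Q)) • (P₃ - E) - (1 / (5 * Q) ^ 2) • η)) :=
    ⟨(v2.smul (c := 2) (by norm_num)).of_eq (by module),
      (v1.smul (c := 2) (by norm_num)).of_eq (by module)⟩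
  refine w.nrm_le.trans ?_
  simp only [map_sub, map_add, map_smul, h1.2, h3.2, smul_eq_mul]
  have b1 : 1 / (5 * Q) ^ 2 * mass η ≤ 1 / 25 * (1 / Q) := by
    calc 1 / (5 * Q) ^ 2 * mass η ≤ 1 / (5 * Q) ^ 2 * Q := by gcongr
      _ = 1 / 25 * (1 / Q) := by field_simp; norm_num
  have b2 : 2 / 5 * (1 / Q) * (9 / 10) ≤ 2 / (5 * Q) * (1 - mass E) := by
    rw [show 2 / (5 * Q) = 2 / 5 * (1 / Q) by field_simp]
    gcongr; linarith
  have b3 : 1 / (4 * Q) = 1 / 4 * (1 / Q) := by field_simp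
  have : 0 < 1 / Q := by positivity
  linarith

/-- law of the trace of a string -/
def tr (q : ℝ) : Wd →* Alg Wd := FreeMonoid.lift fun b => q • 1 + (1 - q) • ee b

/-- from the lifted model to the true model -/
def Psi (q : ℝ) : Alg Wd →ₐ[ℝ] Alg Wd :=
  MonoidAlgebra.lift ℝ (Alg Wd) Wd (FreeMonoid.lift fun b => if b then ee true else ee false * dh q)

/-- background block -/
def bC : Wd := FreeMonoid.of false * FreeMonoid.of true
/-- defect -/
def bd : Wd := FreeMonoid.of true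

lemma tr_bd (q : ℝ) : tr q bd = dh q := by simp [tr, bd, dh]
lemma tr_bC (q : ℝ) : tr q bC = q • dh q + (1 - q) • (ee false * dh q) := by
  simp only [tr, bC, map_mul, FreeMonoid.lift_eval_of, add_mul, smul_mul_assoc, one_mul]
  rfl
lemma Psi_true (q : ℝ) : Psi q (ee true) = ee true := by simp [Psi, ee, dl]
lemma Psi_false (q : ℝ) : Psi q (ee false) = ee false * dh q := by simp [Psi, ee, dl]
lemma Psi_dh (q : ℝ) : Psi q (dh q) = tr q bd := by simp [tr_bd, dh, Psi_true]

section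
variable {q : ℝ} (h0 : 0 < q) (h1 : q < 1)
include h0 h1

lemma st_tr (x : Wd) : St (tr q x) := by
  induction x using FreeMonoid.inductionOn' with
  | one => simpa using St.one
  | of_mul b u ih =>
    rw [map_mul]
    refine St.mul ?_ ih
    rw [tr, FreeMonoid.lift_eval_of]
    exact ⟨(Pos.one.smul h0.le).add ((pos_dl _).smul (by linarith)), by simp [ee]⟩

lemma mk_Psi : Mk (Psi q).toLinearMap := mk_of_dl fun u => by
  induction u using FreeMonoid.inductionOn' with
  | one => simpa [dl_one] using St.one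
  | of_mul b u ih =>
    rw [← dl_mul, AlgHom.toLinearMap_apply, map_mul]
    refine St.mul ?_ ih
    cases b
    · exact (Psi_false q).symm ▸ (st_dl _).mul (st_dh h0 h1)
    · exact (Psi_true q).symm ▸ st_dl _

omit h1 in
lemma Psi_Ch : Psi q (Ch q) = tr q bC := by
  simp only [Ch, bern, map_add, map_smul, map_one, io_zz, zh, Psi_true, Psi_false, tr_bC, ga,
    if_true, Bool.false_eq_true, if_false, smul_add, smul_smul]
  have e1 : (1 - q ^ 2) * (q / (1 + q)) = q * (1 - q) := by field_simp; ring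
  have e2 : (1 - q ^ 2) * (1 / (1 + q)) = 1 - q := by field_simp; ring
  rw [e1, e2]
  conv_rhs => enter [1]; rw [dh]
  module

lemma pos_C_d : Pos (tr q bC - q • tr q bd) := by
  rw [tr_bC, tr_bd, add_sub_cancel_left]
  exact ((pos_dl _).mul (st_dh h0 h1).1).smul (by linarith)

lemma pos_C_one : Pos (tr q bC - q ^ 2 • 1) := by
  refine ((pos_C_d h0 h1).add ((pos_dl (FreeMonoid.of true)).smul (c := q * (1 - q))
    (mul_nonneg h0.le (by linarith)))).of_eq ?_
  rw [tr_bd, dh, ee]; module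

lemma D0_ge : (25 * C1 q) ^ 2 ≤ D0 q := by
  have hC := one_le_C1 h0 h1
  have : C1 q ≤ 32 * C1 q ^ 2 / q := by rw [le_div_iff₀ h0]; nlinarith
  rw [D0]; gcongr; linarith

lemma overlap_TT {r : ℕ} (hr : 2 * D0 q ≤ r) (W : ℕ) :
    nrm (TT (Ch q) (dh q) (r * (W + 2)) (W + 1) - TT (Ch q) (dh q) (r * (W + 2)) W)
      ≤ 2 - 2 * (1 / (4 * Real.exp (r / q ^ 4))) := by
  have hC := one_le_C1 h0 h1
  have hD := D0_ge h0 h1
  have hD0 : 0 ≤ D0 q := le_trans (by positivity) hD
  have hW : (0 : ℝ) ≤ W := by positivity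
  have sC := st_Ch h0 h1
  have sd := st_dh h0 h1
  have a : AL (1 - Ch q) ((1 / q ^ 2) • Ch q) := al_base h0 h1 sC (by
    refine ((st_zh h0).1.smul (c := 1 - q ^ 2) (by nlinarith)).of_eq ?_
    simp only [Ch, bern, map_add, map_smul, map_one, io_zz]; module)
  obtain ⟨η, c1, c2⟩ := chi_pred (by positivity) sC a (W + 1)
  have c3 := c1.pow r
  rw [← pow_mul, ← pow_mul, mul_comm _ r, mul_comm _ r] at c3
  have c4 : Chi (TT (Ch q) (dh q) (r * (W + 1)) (W + 1)) (TT (Ch q) (dh q) (r * (W + 2)) (W + 1))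
      (η ^ r * (dh q * η ^ r) ^ (W + 1)) := c3.mul (((Chi.refl sd.1).mul c3).pow (W + 1))
  refine overlap (st_TT sC sd _ _) (st_TT sC sd _ _) c4 (Real.one_le_exp (by positivity)) ?_ ?_
  · simp only [mass_mul, mass_pow, sd.2, one_mul]
    rw [← pow_succ', ← pow_mul, c2]
    refine (pow_le_pow_left₀ (by positivity) (le_of_eq_of_le (add_comm _ _)
      (Real.add_one_le_exp _)) _).trans (le_of_eq ?_)
    rw [← Real.exp_nat_mul]
    congr 1
    push_cast
    field_simp
  · have p2 := polymer h0 h1 (m := r * (W + 1)) (W := W + 1) (by push_cast; nlinarith)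
    have p3 := polymer h0 h1 (m := r * (W + 2)) (W := W) (by push_cast; nlinarith)
    have p4 : nrm (io q (kk q (r * (W + 2)) W) - io q (kk q (r * (W + 1)) (W + 1))) ≤ 4 / 100 := by
      rw [← map_sub]
      refine ((mk_io h0).nrm_le _).trans ?_
      have e : kk q (r * (W + 2)) W - kk q (r * (W + 1)) (W + 1) = (-(1 - q)) •
          (bern (1 - q ^ 2) ^ (r * (W + 2) * (W + 1)) * bern (1 - q) ^ W * (zz - 1)) := by
        have : bern (1 - q) = 1 + (1 - q) • (zz - 1) := by simp only [bern]; module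
        rw [kk_eq, kk_eq, show r * (W + 1) * (W + 1 + 1) = r * (W + 2) * (W + 1) by ring,
          pow_succ (bern (1 - q)) W, ← mul_assoc]
        generalize bern (1 - q ^ 2) ^ (r * (W + 2) * (W + 1)) * bern (1 - q) ^ W = Z
        rw [this, mul_add, mul_one, mul_smul_comm]; module
      rw [e]
      refine (nrm_smul_le _ _).trans ?_
      have t := tv_pow h0 h1 (r * (W + 2) * (W + 1)) ((st_d0 h0 h1).pow W)
      rw [← C1] at t
      have u : C1 q / √((r * (W + 2) * (W + 1) : ℕ) + 1) ≤ 4 / 100 := by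
        rw [div_le_iff₀ (by positivity)]
        have : 25 * C1 q ≤ √((r * (W + 2) * (W + 1) : ℕ) + 1) := by
          refine Real.le_sqrt_of_sq_le ?_
          push_cast
          have : (r : ℝ) * 1 * 1 ≤ r * (W + 2) * (W + 1) := by gcongr <;> linarith
          linarith
        linarith
      rw [abs_neg, abs_of_nonneg (by linarith)]
      have := nrm_nonneg (bern (1 - q ^ 2) ^ (r * (W + 2) * (W + 1)) * bern (1 - q) ^ W * (zz - 1))
      nlinarith
    have t1 := nrm_triangle (TT (Ch q) (dh q) (r * (W + 2)) W) (io q (kk q (r * (W + 2)) W))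
      (TT (Ch q) (dh q) (r * (W + 1)) (W + 1))
    have t2 := nrm_triangle (io q (kk q (r * (W + 2)) W)) (io q (kk q (r * (W + 1)) (W + 1)))
      (TT (Ch q) (dh q) (r * (W + 1)) (W + 1))
    rw [nrm_sub_comm] at p2
    linarith

omit h0 h1 in
lemma pow_sand {α : Type*} [Monoid α] (C d : α) (a W : ℕ) :
    (C ^ a * d * C ^ a) ^ (W + 2) = C ^ a * d * TT C d (2 * a) W * (d * C ^ a) := by
  induction W with
  | zero => simp [TT, pow_two, two_mul, pow_add, mul_assoc]
  | succ W ih =>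
    rw [pow_succ, ih, TT, TT, pow_succ _ W, two_mul, pow_add]
    simp only [mul_assoc]

lemma mix_G1 {r : ℕ} (hr : D0 q ≤ r) (W : ℕ) :
    Mix (tr q bC ^ (r * (W + 2)) * tr q bd * tr q bC ^ (r * (W + 2)))
      (192 * Real.exp (2 * r / q ^ 4) ^ 2 * (W + 3)) := by
  have sC := st_tr h0 h1 bC
  have sd := st_tr h0 h1 bd
  have o := overlap_TT h0 h1 (r := 2 * r) (by push_cast; linarith) W
  have o2 := ((mk_Psi h0 h1).nrm_le _).trans o
  simp only [AlgHom.toLinearMap_apply, map_sub, TT, map_mul, map_pow, Psi_Ch h0, Psi_dh] at o2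
  have := boost (((sC.pow (r * (W + 2))).mul sd).mul (sC.pow (r * (W + 2)))) (W := W + 2)
    (c := 1 / (4 * Real.exp ((2 * r : ℕ) / q ^ 4))) (by positivity) (by
      rw [show W + 2 + 1 = W + 1 + 2 by ring, pow_sand, pow_sand, ← sub_mul, ← mul_sub]
      refine (nrm_sand ((sC.pow _).mul sd) (sd.mul (sC.pow _)) _).trans ?_
      rw [← mul_assoc]
      exact o2)
  convert this using 1
  push_cast
  field_simp
  ring

end

end

end Vale.Agent.P321
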