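import Vale.Agent.P321.Level1

/-! The first two levels. -/

namespace Vale.Agent.P321

open MonoidAlgebra Finset

noncomputable section

variable {M : Type*} [Monoid M]

lemma dom_tau {C : Alg M} (hC : St C) {e s t : ℝ} (he : 0 < e) (h : AL (1 - C) (e • C)) (hs : 0 < s)
    {n : ℕ} (hn : s ^ 2 ≤ n + 1) (ht : 1 ≤ t) :
    Dom (C ^ (n + 1) - C ^ n) (C ^ (n + 1)) (e * t / s) (2 * e * Real.exp (-(t ^ 2 / 2))) := by
  have := ((Dom.of_al h).avg he hC (by simp [hC.2]) hs (J := n + 1) (by exact_mod_cast hn) ht).neg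
  rw [AV_apply, SJ_one_sub, smul_smul] at this
  push_cast at this
  rw [one_div_mul_cancel (by positivity), one_smul, neg_sub] at this
  simpa using this

set_option maxHeartbeats 1000000 in
lemma level1 {C d : Alg M} (hC : St C) (hd : St d) {e A θ s s₀ ζ : ℝ} (he : 0 < e) (heA : e ≤ A)
    (h1 : AL (1 - C) (e • C)) (h2 : AL (d - C) (e • C)) {m N J a x₁ x₂ y₁ y₂ : ℕ} (hA : 100 ≤ A)
    (hK : 2 ^ (m + 1) ≤ A) (hexp : Real.exp (-(A ^ 2 / 2)) ≤ θ) (hneg : (1 / A) ^ (m + 1) ≤ θ)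
    (hθ : 3 * A ^ 2 * θ ≤ 1) (hm : MixAt C N ζ) (hζ : 2 * J * ζ ≤ 1 / A) (hs : 2 * A ^ 3 ≤ s)
    (hJ : s ^ 2 ≤ J) (hs₀ : A ^ 2 ≤ s₀) (hx₁ : s₀ ^ 2 ≤ x₁ + 1) (hx₂ : s₀ ^ 2 ≤ x₂ + 1)
    (hy₁ : s₀ ^ 2 ≤ y₁ + 1) (hy₂ : s₀ ^ 2 ≤ y₂ + 1)
    (ha : a + 1 = x₁ + x₂ + 1 + (m + 1) * N)
    (ha' : a + 1 = (m + 1) * ((J - 1) * 1) + (m + 1) * N + (y₁ + y₂ + 1)) :
    ∃ O S, Dom O (C ^ (a + 1) * d * C ^ (a + 1)) (4 * (A ^ 2 / s₀) * (A ^ 3 / s)) (26 * A ^ 2 * θ) ∧
      Dom S (C ^ (a + 1) * d * C ^ (a + 1)) (4 * (A ^ 2 / s₀) ^ 2 * (A ^ 3 / s)) (26 * A ^ 2 * θ) ∧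
      C ^ (a + 2) * d * C ^ a - C ^ (a + 1) * d * C ^ (a + 1) = S + O ∧
      C ^ a * d * C ^ (a + 2) - C ^ (a + 1) * d * C ^ (a + 1) = S - O := by
  have hθ0 : 0 < θ := lt_of_lt_of_le (Real.exp_pos _) hexp
  have hA0 : 0 < A := by linarith
  have hs0 : 0 < s := lt_of_lt_of_le (by positivity) hs
  have hs00 : 0 < s₀ := lt_of_lt_of_le (by positivity) hs₀
  have hJ0 : 0 < J := by
    have : (0 : ℝ) < J := lt_of_lt_of_le (by positivity) hJ
    exact_mod_cast this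
  have av := (Dom.of_al h2).avg he hC (by simp [hC.2, hd.2]) hs0 hJ (t := A) (by linarith)
  rw [← pow_one C] at av
  conv at av => enter [1, 2]; rw [pow_one]
  rw [← pow_mul] at av
  obtain ⟨Y, k1, k2⟩ := loc hC hm hJ0 (by positivity) av m
  obtain ⟨εZ, hεZ⟩ : ∃ x, x = A ^ 3 / s := ⟨_, rfl⟩
  obtain ⟨εt, hεt⟩ : ∃ x, x = A ^ 2 / s₀ := ⟨_, rfl⟩
  have z0 : 0 ≤ εZ := by rw [hεZ]; positivity
  have z1 : εZ ≤ 1 / 2 := by rw [hεZ, div_le_iff₀ hs0]; linarith
  have t0 : 0 ≤ εt := by rw [hεt]; positivity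
  have t1 : εt ≤ 1 := by rw [hεt, div_le_one hs00]; linarith
  rw [← hεZ, ← hεt]
  have hJ1 : 1 * J + m * ((J - 1) * 1) = 1 + (m + 1) * ((J - 1) * 1) := by
    obtain ⟨j, rfl⟩ : ∃ j, J = j + 1 := ⟨J - 1, by omega⟩
    rw [Nat.add_sub_cancel]; ring
  rw [hJ1] at k1
  generalize (m + 1) * ((J - 1) * 1) = v at *
  generalize hb : (m + 1) * N = b at *
  obtain ⟨Z, hZ⟩ : ∃ Z, Z = C ^ b * (d - C) * C ^ (v + b) := ⟨_, rfl⟩
  have dZ : Dom Z (C ^ (b + (1 + v) + b)) εZ (3 * A ^ 2 * θ) := by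
    have n1 : nrm (d - C) ≤ 2 := by linarith [nrm_sub_le d C, hd.nrm_le, hC.nrm_le]
    have n2 : (2 * J * (1 : ℕ) * ζ) ^ (m + 1) ≤ θ := by
      refine (pow_le_pow_left₀ (by have := hm.nonneg; positivity) ?_ _).trans hneg
      simpa using hζ
    have n3 : (2 * J * (1 : ℕ) * ζ) ^ (m + 1) * nrm (d - C) ≤ θ * 2 :=
      mul_le_mul n2 n1 (nrm_nonneg _) hθ0.le
    have := (k1.sand (hC.pow b) (hC.pow b)).add_nrm (k2.trans n3)
    rw [← pow_add, ← pow_add] at this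
    refine (this.mono (hC.1.pow _) ?_ ?_).of_eq ?_ rfl
    · rw [hεZ, add_zero]
      calc 2 ^ (m + 1) * (e * A / s) ≤ A * (A * A / s) := by gcongr
        _ = A ^ 3 / s := by ring
    · have : 2 ^ (m + 1) * (2 * 0 + 2 * (e + 0) * Real.exp (-(A ^ 2 / 2))) ≤ A * (2 * A * θ) := by
        rw [mul_zero, zero_add, add_zero]; gcongr
      have : 2 * θ ≤ A ^ 2 * θ := by gcongr; nlinarith
      nlinarith
    · rw [hZ, pow_add C v b]; noncomm_ring
  have dt : ∀ n : ℕ, s₀ ^ 2 ≤ n + 1 → Dom (C ^ (n + 1) - C ^ n) (C ^ (n + 1)) εt (2 * A * θ) :=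
    fun n hn => (dom_tau hC he h1 hs00 hn (t := A) (by linarith)).mono (hC.1.pow _)
      (by rw [hεt, sq]; gcongr) (by gcongr)
  have hθt : 2 * A * θ ≤ 1 := by nlinarith
  have hθA : 100 * (A * θ) ≤ A ^ 2 * θ := by rw [← mul_assoc]; gcongr; nlinarith
  have hAθ : 0 ≤ A * θ := by positivity
  obtain ⟨x, hx⟩ : ∃ x, x = x₁ + x₂ := ⟨_, rfl⟩
  obtain ⟨y, hy⟩ : ∃ y, y = y₁ + y₂ := ⟨_, rfl⟩
  have hx0 : s₀ ^ 2 ≤ x + 1 := by rw [hx]; push_cast; linarith [Nat.cast_nonneg (α := ℝ) x₂]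
  have hy0 : s₀ ^ 2 ≤ y + 1 := by rw [hy]; push_cast; linarith [Nat.cast_nonneg (α := ℝ) y₂]
  have ea : a = x + b := by omega
  have ea' : a = v + b + y := by omega
  obtain ⟨T, hT⟩ : ∃ T, T = a + 1 + 1 + (a + 1) := ⟨_, rfl⟩
  have sZ := hC.pow (b + (1 + v) + b)
  have left : ∀ n k : ℕ, s₀ ^ 2 ≤ n + 1 → n + k = x + y + 1 →
      Dom ((C ^ (n + 1) - C ^ n) * Z * C ^ k) (C ^ T) (εt * εZ) (7 * A ^ 2 * θ) := fun n k hn hk => by
    have := ((dt n hn).mul' dZ (hC.pow _) sZ t0 z0 t1 (by linarith) (Or.inl hθt)).mul_right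
      (hC.pow k)
    rw [← pow_add, ← pow_add, show n + 1 + (b + (1 + v) + b) + k = T by omega] at this
    exact this.mono (hC.1.pow _) le_rfl (by linarith)
  have right : ∀ n k : ℕ, s₀ ^ 2 ≤ n + 1 → n + k = x + y + 1 →
      Dom (C ^ k * (Z * (C ^ (n + 1) - C ^ n))) (C ^ T) (εt * εZ) (7 * A ^ 2 * θ) :=
    fun n k hn hk => by
    have := (dZ.mul' (dt n hn) sZ (hC.pow _) z0 t0 (by linarith) t1 (Or.inr hθt)).mul_left
      (hC.pow k)
    rw [← pow_add, ← pow_add, show k + (b + (1 + v) + b + (n + 1)) = T by omega] at this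
    exact this.mono (hC.1.pow _) (le_of_eq (mul_comm _ _)) (by linarith)
  have tt : ∀ n k : ℕ, s₀ ^ 2 ≤ n + 1 → s₀ ^ 2 ≤ k + 1 →
      Dom (C ^ (n + k + 2) - (2 : ℝ) • C ^ (n + k + 1) + C ^ (n + k)) (C ^ (n + k + 2)) (εt * εt)
        (8 * A * θ) := fun n k hn hk => by
    have := (dt n hn).mul' (dt k hk) (hC.pow _) (hC.pow _) t0 t0 t1 t1 (Or.inl hθt)
    refine (this.mono ((hC.pow _).mul (hC.pow _)).1 le_rfl (by linarith)).of_eq ?_ ?_
    · simp only [mul_sub, sub_mul, ← pow_add, two_smul]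
      rw [show n + 1 + (k + 1) = n + k + 2 by ring, show n + (k + 1) = n + k + 1 by ring,
        show n + 1 + k = n + k + 1 by ring]
      abel
    · rw [← pow_add]; congr 1; ring
  have tt1 : εt * εt ≤ 1 := by nlinarith
  have tz1 : εt * εZ ≤ 1 / 2 := by nlinarith
  have ttz : εt * εt * εZ ≤ 1 / 2 := by nlinarith [mul_nonneg t0 t0]
  have s1 := (((tt x₁ x₂ hx₁ hx₂).mul' dZ (hC.pow _) sZ (by positivity) z0 tt1 (by linarith)
    (Or.inr hθ)).mul_right (hC.pow y))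
  rw [← hx, ← pow_add, ← pow_add, show x + 2 + (b + (1 + v) + b) + y = T by omega] at s1
  have s2 := (((dt x hx0).mul' dZ (hC.pow _) sZ t0 z0 t1 (by linarith) (Or.inl hθt)).mul' (dt y hy0)
    ((hC.pow _).mul sZ) (hC.pow _) (by positivity) t0 (by linarith) t1 (Or.inr hθt)).smul (-2)
  rw [← pow_add, ← pow_add, show x + 1 + (b + (1 + v) + b) + (y + 1) = T by omega] at s2
  have s3 := (dZ.mul' (tt y₁ y₂ hy₁ hy₂) sZ (hC.pow _) z0 (by positivity) (by linarith) tt1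
    (Or.inl hθ)).mul_left (hC.pow x)
  rw [← hy, ← pow_add, ← pow_add, show x + (b + (1 + v) + b + (y + 2)) = T by omega] at s3
  have eX : ∀ i j : ℕ, i + j = 2 → C ^ (a + i) * d * C ^ (a + j)
      = C ^ (x + i) * Z * C ^ (y + j) + C ^ T := fun i j hij => by
    rw [hZ, mul_sub, sub_mul, mul_sub, sub_mul]
    simp only [← mul_assoc, ← pow_add, ← pow_succ]
    simp only [mul_assoc, ← pow_add]
    rw [show x + i + (b + 1 + (v + b)) + (y + j) = T by omega, sub_add_cancel,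
      show x + i + b = a + i by omega, show v + b + (y + j) = a + j by omega]
  have eG := eX 1 1 rfl
  have eU := eX 2 0 rfl
  have eV := eX 0 2 rfl
  rw [add_zero, add_zero] at eU eV
  have sG : St (C ^ (a + 1) * d * C ^ (a + 1)) := ((hC.pow _).mul hd).mul (hC.pow _)
  have r : Dom (C ^ T) (C ^ (a + 1) * d * C ^ (a + 1)) 2 (2 * (3 * A ^ 2 * θ)) := by
    refine Dom.ref ?_ (hC.1.pow T) sG.1 z1
    have := dZ.sand (hC.pow (x + 1)) (hC.pow (y + 1))
    rw [← pow_add, ← pow_add, show x + 1 + (b + (1 + v) + b) + (y + 1) = T by omega] at this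
    exact this.of_eq (by rw [eG, add_sub_cancel_right]) rfl
  have hA2θ : 0 ≤ A ^ 2 * θ := by positivity
  have o := (((left (x + 1) y (by push_cast; linarith) (by omega)).add
    (left x (y + 1) hx0 (by omega))).sub ((right y (x + 1) hy0 (by omega)).add
    (right (y + 1) x (by push_cast; linarith) (by omega)))).smul (1 / 2)
  have ss := ((s1.add s2).add s3).smul (1 / 2)
  rw [abs_of_pos (by norm_num : (0 : ℝ) < 1 / 2)] at o ss
  rw [abs_neg, abs_two] at ss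
  refine ⟨_, _, (o.trans r (by positivity)).mono sG.1 (le_of_eq (by ring)) ?_,
    (ss.trans r (by positivity)).mono sG.1 (le_of_eq (by ring)) ?_, ?_, ?_⟩
  · nlinarith [mul_le_mul_of_nonneg_right tz1 hA2θ]
  · nlinarith [mul_le_mul_of_nonneg_right ttz hA2θ]
  · rw [eU, eG]
    simp only [mul_sub, sub_mul, mul_add, add_mul, smul_mul_assoc, mul_smul_comm, mul_assoc]
    module
  · rw [eV, eG]
    simp only [mul_sub, sub_mul, mul_add, add_mul, smul_mul_assoc, mul_smul_comm, mul_assoc]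
    module

lemma level2 {G U V O S : Alg M} (hG : St G) (hU : St U) (hV : St V) {σ τ θ A ζ : ℝ}
    (hO : Dom O G σ θ) (hS : Dom S G τ θ) (eU : U - G = S + O) (eV : V - G = S - O) (hσ : 0 ≤ σ)
    (hτ : 0 ≤ τ) (hτσ : τ ≤ σ) {m N P : ℕ} (hA : 100 ≤ A) (hK : 2 ^ m ≤ A)
    (hs : A * (σ + θ) ≤ 1 / 4) (hm : MixAt G N ζ) (hζ : 2 * 2 ^ m * ζ ≤ 1 / A) (hN : m * N ≤ P)
    (hneg : (1 / A) ^ m ≤ θ) :
    Inv G (tmw G U V m P) (tmw G V U m P) (P + 1 + (2 ^ m + 1) + P) (2 ^ m + 1)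
      (A * τ + 8 * A ^ 2 * σ ^ 2) (4 * A ^ 2 * (σ * τ) + 32 * A ^ 3 * σ ^ 3) 0
      (20 * A ^ 2 * θ) := by
  have hθ := hO.theta_nonneg
  obtain ⟨K, hKd⟩ : ∃ K, K = 2 ^ m := ⟨_, rfl⟩
  have hKA : (K : ℝ) ≤ A := by rw [hKd]; push_cast; exact hK
  have hK0 : (0 : ℝ) ≤ K := by positivity
  have hσ1 : σ + θ ≤ 1 / 400 := by nlinarith
  set B : ℕ → Alg M := fun t => if tb m t then V else U with hB
  set B' : ℕ → Alg M := fun t => if tb m t then U else V with hB'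
  have eB : ∀ t, B t - G = S + sg m t • O := fun t => by
    simp only [hB, sg]; split_ifs
    · rw [eV]; module
    · rw [eU]; module
  have eB' : ∀ t, B' t - G = S - sg m t • O := fun t => by
    simp only [hB', sg]; split_ifs
    · rw [eU]; module
    · rw [eV]; module
  have dO : ∀ t, Dom (sg m t • O) G σ θ := fun t => by simpa [abs_sg] using hO.smul (sg m t)
  have dB : ∀ t, Dom (B t - G) G (2 * σ) (2 * θ) := fun t => by
    rw [eB]; exact (hS.add (dO t)).mono hG.1 (by linarith) (by linarith)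
  have dB' : ∀ t, Dom (B' t - G) G (2 * σ) (2 * θ) := fun t => by
    rw [eB']; exact (hS.sub (dO t)).mono hG.1 (by linarith) (by linarith)
  have hKε : K * (2 * σ + 2 * θ) ≤ 1 / 2 := by
    have : K * (σ + θ) ≤ A * (σ + θ) := by gcongr
    linarith
  have hA2 : 100 * A ≤ A ^ 2 := by nlinarith
  have hKθ : K * θ ≤ A * θ := by gcongr
  have hAθ : 100 * (A * θ) ≤ A ^ 2 * θ := by rw [← mul_assoc]; gcongr
  have hθA : 100 * θ ≤ A * θ := by gcongr
  rw [← hKd]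
  refine inv_of_good (Z := (wd B' K - wd B K) * G) hG (st_tmw hG hU hV _ _) (st_tmw hG hV hU _ _)
    ?_ ?_ ?_
  · have g0 := TS_good hG hm (K + 1) hζ hN hneg (E := O) (by have := hO.nrm_le hG; linarith)
    have g1 := Dom.sum (s := range K) (μ := G ^ (K + 1)) (ε := τ) (θ := θ)
      (Y := fun t => G ^ t * S * G ^ (K - 1 - t + 1)) fun t ht => by
        have ht := Finset.mem_range.1 ht
        have := hS.sand (hG.pow t) (hG.pow (K - 1 - t + 1))
        rwa [← pow_succ, ← pow_add, show t + 1 + (K - 1 - t + 1) = K + 1 by omega] at this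
    rw [card_range] at g1
    have g2 := (dom_r2 hG (by positivity) dB K hKε).mul_right hG
    rw [← pow_succ] at g2
    refine ((((g0.add (Good.of_dom hG g1)).add (Good.of_dom hG g2)).dom hG).mono (hG.1.pow _)
      ?_ ?_).of_eq ?_ rfl
    · have e1 : K * τ ≤ A * τ := by gcongr
      have e3 : (K : ℝ) ^ 2 * σ ^ 2 ≤ A ^ 2 * σ ^ 2 := by gcongr
      nlinarith
    · nlinarith
    · have e : s1 G B K * G = TS G m O * G + ∑ t ∈ range K, G ^ t * S * G ^ (K - 1 - t + 1) := by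
        rw [s1, TS, ← hKd, Finset.sum_mul, Finset.sum_mul, ← Finset.sum_add_distrib]
        refine Finset.sum_congr rfl fun t _ => ?_
        rw [eB, pow_succ]
        simp only [mul_add, add_mul, mul_smul_comm, smul_mul_assoc, mul_assoc]
        abel
      rw [tmw, ← hKd, ← hB, pad_pow, pad_sub, ← e]
      congr 2
      noncomm_ring
  · rw [tmw, tmw, ← hKd, ← hB, ← hB', pad_sub]
  · have g1 := TS_good hG hm (K + 1) hζ hN hneg (E := V - U) (by
      have := ((dB 0).sub (dB' 0)).nrm_le hG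
      simp only [hB, hB', tb_zero, Bool.false_eq_true, if_false, sub_sub_sub_cancel_right] at this
      rw [nrm_sub_comm]; linarith)
    rw [← s1_diff, ← hKd, ← hB, ← hB'] at g1
    have g2 := s2_good (P := P) (R := K + 1) (K := K) (B := B) (B' := B') (ε := 4 * (σ * τ))
      (φ := 0) (θ := 16 * θ) hG (by positivity) le_rfl (by positivity) fun t b c htc => by
        have a1 := ((dO t).mul_right (hG.pow b)).mul' hS (hG.mul (hG.pow b)) hG hσ hτ (by linarith)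
          (by linarith) (Or.inl (by linarith))
        have a2 := (hS.mul_right (hG.pow b)).mul' (dO (b + (t + 1))) (hG.mul (hG.pow b)) hG hτ hσ
          (by linarith) (by linarith) (Or.inl (by linarith))
        have a3 := ((a1.add a2).smul (-2)).sand (hG.pow t) (hG.pow (c + 1))
        rw [← pow_succ', ← pow_succ, ← pow_add, ← pow_add, abs_neg, abs_two,
          show t + (b + 1 + 1) + (c + 1) = K + 1 by omega] at a3
        refine Good.of_dom hG ((a3.mono (hG.1.pow _) (le_of_eq (by ring))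
          (le_of_eq (by ring))).of_eq ?_ rfl)
        congr 2
        rw [eB, eB, eB', eB']
        simp only [mul_sub, sub_mul, mul_add, add_mul, smul_mul_assoc, mul_smul_comm, mul_assoc]
        module
    have g3 := ((dom_r3 hG (by positivity) dB' K hKε).sub
      (dom_r3 hG (by positivity) dB K hKε)).mul_right hG
    rw [← pow_succ] at g3
    refine (((g1.add g2).add (Good.of_dom hG g3)).mono hG ?_ ?_ ?_).of_eq (by noncomm_ring)
    · have e1 : (K : ℝ) ^ 2 * (σ * τ) ≤ A ^ 2 * (σ * τ) := by gcongr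
      have e3 : (K : ℝ) ^ 3 * σ ^ 3 ≤ A ^ 3 * σ ^ 3 := by gcongr
      nlinarith
    · simp
    · have e1 : (K : ℝ) ^ 2 * θ ≤ A ^ 2 * θ := by gcongr
      nlinarith

end

end Vale.Agent.P321
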