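import Vale.Agent.P321.Boost

/-! Translation averaging, Thue-Morse cancellation, pair averaging. -/

namespace Vale.Agent.P321

open MonoidAlgebra Finset

noncomputable section

variable {M : Type*} [Monoid M]

lemma AV_sand {μ X X' : Alg M} (h : Commute X μ) (h' : Commute X' μ) (J : ℕ) (Z : Alg M) :
    AV μ J (X * Z * X') = X * AV μ J Z * X' := by
  rw [AV_apply, AV_apply, SJ_eq, SJ_eq, mul_smul_comm, smul_mul_assoc, Finset.mul_sum,
    Finset.sum_mul]
  congr 1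
  refine Finset.sum_congr rfl fun u _ => ?_
  have e1 := (h.pow_right u).eq
  have e2 := (h'.pow_right (J - 1 - u)).eq
  calc μ ^ u * (X * Z * X') * μ ^ (J - 1 - u) = (μ ^ u * X) * Z * (X' * μ ^ (J - 1 - u)) := by
        simp only [mul_assoc]
    _ = X * (μ ^ u * Z * μ ^ (J - 1 - u)) * X' := by rw [← e1, e2]; simp only [mul_assoc]

lemma AV_pow (H : Alg M) (R l : ℕ) {J : ℕ} (hJ : 0 < J) :
    AV (H ^ R) J (H ^ l) = H ^ (l + (J - 1) * R) := by
  have hJ' : (0 : ℝ) < J := by exact_mod_cast hJ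
  rw [AV_apply, SJ_eq, Finset.sum_congr rfl (g := fun _ => H ^ (l + (J - 1) * R))]
  · rw [Finset.sum_const, card_range, ← Nat.cast_smul_eq_nsmul ℝ, smul_smul,
      one_div_mul_cancel hJ'.ne', one_smul]
  · intro u hu
    have hu := Finset.mem_range.1 hu
    rw [← pow_mul, ← pow_mul, ← pow_add, ← pow_add]
    congr 1
    obtain ⟨v, hv⟩ : ∃ v, J - 1 = u + v := ⟨J - 1 - u, by omega⟩
    rw [hv, Nat.add_sub_cancel_left]; ring

/-- fixed translate minus the average of translates -/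
def DF (μ : Alg M) (J : ℕ) : Alg M →ₗ[ℝ] Alg M := LinearMap.mulRight ℝ (μ ^ (J - 1)) - AV μ J

lemma DF_apply (μ : Alg M) (J : ℕ) (Z : Alg M) : DF μ J Z = Z * μ ^ (J - 1) - AV μ J Z := rfl

lemma DF_sand {μ X X' : Alg M} (h : Commute X μ) (h' : Commute X' μ) (J : ℕ) (Z : Alg M) :
    DF μ J (X * Z * X') = X * DF μ J Z * X' := by
  rw [DF_apply, DF_apply, AV_sand h h', mul_sub, sub_mul]
  congr 1
  simp only [mul_assoc]
  rw [(h'.pow_right (J - 1)).eq]

lemma AV_DF (μ : Alg M) (J : ℕ) (Z : Alg M) : AV μ J (DF μ J Z) = DF μ J (AV μ J Z) := by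
  rw [DF_apply, DF_apply, map_sub]
  have := AV_sand (Commute.one_left μ) ((Commute.refl μ).pow_left (J - 1)) J Z
  rw [one_mul, one_mul] at this
  rw [this]

lemma AV_DF_iter (μ : Alg M) (J m : ℕ) (Z : Alg M) :
    AV μ J ((DF μ J)^[m] Z) = (DF μ J)^[m] (AV μ J Z) := by
  induction m with
  | zero => rfl
  | succ m ih => rw [Function.iterate_succ_apply', Function.iterate_succ_apply', AV_DF, ih]

lemma shift_bound {H : Alg M} (hH : St H) {N : ℕ} {ζ : ℝ} (hm : MixAt H N ζ) (u v : ℕ)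
    (Z : Alg M) :
    nrm (H ^ N * Z * H ^ (N + v + u) - H ^ (N + u) * Z * H ^ (N + v)) ≤ 2 * u * ζ * nrm Z := by
  have e : H ^ N * Z * H ^ (N + v + u) - H ^ (N + u) * Z * H ^ (N + v)
      = H ^ N * (Z * (H ^ (N + v + u) - H ^ (N + v)))
        - (H ^ (N + u) - H ^ N) * Z * H ^ (N + v) := by noncomm_ring
  rw [e]
  have h1 := nrm_sub_le (H ^ N * (Z * (H ^ (N + v + u) - H ^ (N + v))))
    ((H ^ (N + u) - H ^ N) * Z * H ^ (N + v))
  have h2 := (hH.pow N).nrm_mul_left (Z * (H ^ (N + v + u) - H ^ (N + v)))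
  have h3 := nrm_mul_le Z (H ^ (N + v + u) - H ^ (N + v))
  have h4 := hm.jump (n := N + v) (by omega) u
  have h5 := (hH.pow (N + v)).nrm_mul_right ((H ^ (N + u) - H ^ N) * Z)
  have h6 := nrm_mul_le (H ^ (N + u) - H ^ N) Z
  have h7 := hm.jump (n := N) le_rfl u
  have h8 := nrm_nonneg Z
  nlinarith

lemma pad_DF {H : Alg M} (hH : St H) {N : ℕ} {ζ : ℝ} (hm : MixAt H N ζ) (R : ℕ) {J : ℕ}
    (hJ : 0 < J) (Z : Alg M) :
    nrm (H ^ N * DF (H ^ R) J Z * H ^ N) ≤ 2 * J * R * ζ * nrm Z := by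
  have hJ' : (0 : ℝ) < J := by exact_mod_cast hJ
  have e : H ^ N * DF (H ^ R) J Z * H ^ N = (1 / (J : ℝ)) • ∑ u ∈ range J,
      (H ^ N * Z * H ^ (N + (J - 1 - u) * R + u * R)
        - H ^ (N + u * R) * Z * H ^ (N + (J - 1 - u) * R)) := by
    rw [Finset.sum_sub_distrib, Finset.sum_congr rfl
      (g := fun _ => H ^ N * (Z * (H ^ R) ^ (J - 1)) * H ^ N), Finset.sum_const, card_range,
      ← Nat.cast_smul_eq_nsmul ℝ, smul_sub, smul_smul, one_div_mul_cancel hJ'.ne', one_smul,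
      DF_apply, mul_sub, sub_mul, AV_apply, SJ_eq, mul_smul_comm, smul_mul_assoc, Finset.mul_sum,
      Finset.sum_mul]
    · congr 2
      refine Finset.sum_congr rfl fun u _ => ?_
      rw [← pow_mul, ← pow_mul, pow_add, add_comm N, pow_add, mul_comm R, mul_comm R]
      simp only [mul_assoc]
    · intro u hu
      have hu := Finset.mem_range.1 hu
      obtain ⟨v, hv⟩ : ∃ v, J - 1 = u + v := ⟨J - 1 - u, by omega⟩
      rw [hv, Nat.add_sub_cancel_left, ← pow_mul]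
      simp only [mul_assoc, ← pow_add]
      congr 3; ring
  rw [e]
  refine (nrm_smul_le _ _).trans ?_
  rw [abs_of_pos (by positivity), one_div, inv_mul_le_iff₀ hJ']
  refine (nrm_sum_le _ _).trans ?_
  have hz := hm.nonneg
  have h8 := nrm_nonneg Z
  refine (Finset.sum_le_card_nsmul _ _ (2 * J * R * ζ * nrm Z) fun u hu => ?_).trans ?_
  · refine (shift_bound hH hm _ _ Z).trans ?_
    have : (u : ℝ) ≤ J := by exact_mod_cast (Finset.mem_range.1 hu).le
    push_cast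
    rw [← mul_assoc 2]
    gcongr
  · simp

lemma pad_DF_iter {H : Alg M} (hH : St H) {N : ℕ} {ζ : ℝ} (hm : MixAt H N ζ) (R : ℕ) {J : ℕ}
    (hJ : 0 < J) (Z : Alg M) (m : ℕ) :
    nrm (H ^ (m * N) * (DF (H ^ R) J)^[m] Z * H ^ (m * N)) ≤ (2 * J * R * ζ) ^ m * nrm Z := by
  induction m with
  | zero => simp
  | succ m ih =>
    have c : ∀ k, Commute (H ^ k) (H ^ R) := fun k => (Commute.refl H).pow_pow k R
    have e : H ^ ((m + 1) * N) * (DF (H ^ R) J)^[m + 1] Z * H ^ ((m + 1) * N)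
        = H ^ N * DF (H ^ R) J (H ^ (m * N) * (DF (H ^ R) J)^[m] Z * H ^ (m * N)) * H ^ N := by
      rw [DF_sand (c _) (c _), Function.iterate_succ_apply', add_mul, one_mul]
      conv_lhs => rw [add_comm (m * N) N]; enter [2]; rw [add_comm]
      simp only [pow_add, mul_assoc]
    rw [e, pow_succ' (2 * J * R * ζ : ℝ), mul_assoc (2 * J * R * ζ : ℝ)]
    refine (pad_DF hH hm R hJ _).trans ?_
    have hz := hm.nonneg
    exact mul_le_mul_of_nonneg_left ih (by positivity)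

lemma Dom.DF_iter {H W : Alg M} (hH : St H) {l R J : ℕ} (hJ : 0 < J) {ε θ : ℝ}
    (h : Dom W (H ^ l) ε θ) (m : ℕ) :
    Dom ((DF (H ^ R) J)^[m] W) (H ^ (l + m * ((J - 1) * R))) (2 ^ m * ε) (2 ^ m * θ) := by
  induction m with
  | zero => simpa using h
  | succ m ih =>
    rw [Function.iterate_succ_apply', DF_apply]
    have h1 := ih.mul_right ((hH.pow R).pow (J - 1))
    have h2 := ih.map (mk_AV (hH.pow R) hJ)
    rw [AV_pow _ _ _ hJ] at h2
    rw [← pow_mul H R, ← pow_add, mul_comm R] at h1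
    rw [← pow_mul H R, mul_comm R]
    have := h1.sub h2
    convert this using 2 <;> ring

lemma loc_aux {H Z : Alg M} (hH : St H) {l R J : ℕ} (hJ : 0 < J) {ε θ : ℝ}
    (h : Dom (AV (H ^ R) J Z) (H ^ l) ε θ) (m : ℕ) :
    Dom (Z * H ^ ((m + 1) * ((J - 1) * R)) - (DF (H ^ R) J)^[m + 1] Z)
      (H ^ (l + m * ((J - 1) * R))) ((2 ^ (m + 1) - 1) * ε) ((2 ^ (m + 1) - 1) * θ) := by
  induction m with
  | zero =>
    refine Dom.of_eq (Y := AV (H ^ R) J Z) (μ := H ^ l) (by norm_num; exact h) ?_ (by simp)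
    simp [DF_apply, ← pow_mul, mul_comm R]
  | succ m ih =>
    have h1 := ih.mul_right (hH.pow ((J - 1) * R))
    have h2 := h.DF_iter (R := R) hH hJ (m + 1)
    rw [← AV_DF_iter] at h2
    rw [← pow_add, show l + m * ((J - 1) * R) + (J - 1) * R = l + (m + 1) * ((J - 1) * R) by ring]
      at h1
    have := h1.add h2
    convert this using 1
    · rw [Function.iterate_succ_apply' (n := m + 1), DF_apply, ← pow_mul H R, mul_comm R,
        show (m + 1 + 1) * ((J - 1) * R) = (m + 1) * ((J - 1) * R) + (J - 1) * R by ring, pow_add]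
      noncomm_ring
    · ring
    · ring

/-- localisation: a fixed position is replaced by averaged positions -/
lemma loc {H Z : Alg M} (hH : St H) {N : ℕ} {ζ : ℝ} (hm : MixAt H N ζ) {l R J : ℕ} (hJ : 0 < J)
    {ε θ : ℝ} (hε : 0 ≤ ε) (h : Dom (AV (H ^ R) J Z) (H ^ l) ε θ) (m : ℕ) :
    ∃ Y, Dom Y (H ^ (l + m * ((J - 1) * R))) (2 ^ (m + 1) * ε) (2 ^ (m + 1) * θ) ∧
      nrm (H ^ ((m + 1) * N) * (Z * H ^ ((m + 1) * ((J - 1) * R)) - Y) * H ^ ((m + 1) * N))
        ≤ (2 * J * R * ζ) ^ (m + 1) * nrm Z := by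
  refine ⟨_, (loc_aux hH hJ h m).mono (hH.1.pow _) (by linarith) (by linarith [h.theta_nonneg]), ?_⟩
  rw [sub_sub_cancel]
  exact pad_DF_iter hH hm R hJ Z (m + 1)

/-- Thue-Morse bits -/
def tb : ℕ → ℕ → Bool
  | 0, _ => false
  | m + 1, t => if t < 2 ^ m then tb m t else !tb m (t - 2 ^ m)

lemma tb_zero (m : ℕ) : tb m 0 = false := by
  induction m with
  | zero => rfl
  | succ m ih => simp [tb, ih]

/-- Thue-Morse signs -/
def sg (m t : ℕ) : ℝ := if tb m t then -1 else 1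

lemma abs_sg (m t : ℕ) : |sg m t| = 1 := by unfold sg; split_ifs <;> simp

/-- signed sum of translates -/
def TS (G : Alg M) (m : ℕ) (Y : Alg M) : Alg M :=
  ∑ t ∈ range (2 ^ m), sg m t • (G ^ t * Y * G ^ (2 ^ m - 1 - t))

lemma TS_succ (G : Alg M) (m : ℕ) (Y : Alg M) :
    TS G (m + 1) Y = TS G m Y * G ^ (2 ^ m) - G ^ (2 ^ m) * TS G m Y := by
  rw [TS, TS, pow_succ 2 m, mul_two, Finset.sum_range_add, Finset.sum_mul, Finset.mul_sum,
    sub_eq_add_neg, ← Finset.sum_neg_distrib]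
  congr 1
  · refine Finset.sum_congr rfl fun t ht => ?_
    have ht := Finset.mem_range.1 ht
    rw [smul_mul_assoc, mul_assoc _ _ (G ^ 2 ^ m), ← pow_add]
    congr 1
    · simp [sg, tb, ht]
    · congr 2; omega
  · refine Finset.sum_congr rfl fun t ht => ?_
    have ht := Finset.mem_range.1 ht
    rw [mul_smul_comm, ← neg_smul, ← mul_assoc, ← mul_assoc, ← pow_add]
    congr 1
    · simp only [sg, tb, add_lt_iff_neg_left, not_lt_zero, if_false, Nat.add_sub_cancel_left]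
      cases tb m t <;> simp
    · congr 2; omega

lemma TS_bound {G : Alg M} (hG : St G) {N : ℕ} {ζ : ℝ} (hm : MixAt G N ζ) (Y : Alg M) {K : ℝ}
    (m : ℕ) (hK : 2 ^ m ≤ K) :
    nrm (G ^ (m * N) * TS G m Y * G ^ (m * N)) ≤ (2 * K * ζ) ^ m * nrm Y := by
  induction m with
  | zero => simp [TS, sg, tb]
  | succ m ih =>
    have hK' : (2 : ℝ) ^ m ≤ K := le_trans (by rw [pow_succ]; linarith [pow_pos (two_pos (α := ℝ)) m]) hK
    have h1 := shift_bound hG hm (2 ^ m) 0 (G ^ (m * N) * TS G m Y * G ^ (m * N))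
    have e : G ^ ((m + 1) * N) * TS G (m + 1) Y * G ^ ((m + 1) * N)
        = G ^ N * (G ^ (m * N) * TS G m Y * G ^ (m * N)) * G ^ (N + 0 + 2 ^ m)
          - G ^ (N + 2 ^ m) * (G ^ (m * N) * TS G m Y * G ^ (m * N)) * G ^ (N + 0) := by
      rw [TS_succ, mul_sub, sub_mul]
      simp only [← mul_assoc, ← pow_add]
      simp only [mul_assoc, ← pow_add]
      congr 2 <;> [congr 1; congr 2; congr 1; congr 2] <;> ring
    rw [e]
    refine h1.trans ?_
    have hz := hm.nonneg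
    have h2 := ih hK'
    have h3 := nrm_nonneg Y
    have : (0 : ℝ) ≤ K := le_trans (by positivity) hK'
    rw [pow_succ', mul_assoc (2 * K * ζ)]
    push_cast
    gcongr
    exact nrm_nonneg _

/-- left copy -/
def inL : Alg M →ₐ[ℝ] Alg (M × M) := mapDomainAlgHom ℝ ℝ (MonoidHom.inl M M)
/-- right copy -/
def inR : Alg M →ₐ[ℝ] Alg (M × M) := mapDomainAlgHom ℝ ℝ (MonoidHom.inr M M)

lemma inL_dl (a : M) : inL (dl a) = dl (a, 1) := by simp [inL, dl]
lemma inR_dl (a : M) : inR (dl a) = dl (1, a) := by simp [inR, dl]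
lemma mk_inL : Mk (inL (M := M)).toLinearMap := mk_of_dl fun m => by
  simpa [inL_dl] using st_dl _
lemma mk_inR : Mk (inR (M := M)).toLinearMap := mk_of_dl fun m => by
  simpa [inR_dl] using st_dl _

omit [Monoid M] in
lemma bilin_ext {V : Type*} [AddCommMonoid V] [Module ℝ V]
    {f g : Alg M →ₗ[ℝ] Alg M →ₗ[ℝ] V} (h : ∀ a b, f (dl a) (dl b) = g (dl a) (dl b)) (X Y : Alg M) :
    f X Y = g X Y := by
  have : f = g := lin_ext fun a => lin_ext fun b => h a b
  rw [this]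

lemma inL_comm (X Y : Alg M) : Commute (inL X) (inR Y) := by
  refine bilin_ext (f := (LinearMap.mul ℝ _).compl₁₂ inL.toLinearMap inR.toLinearMap)
    (g := (LinearMap.mul ℝ _).flip.compl₁₂ inL.toLinearMap inR.toLinearMap) (fun a b => ?_) X Y
  simp [inL_dl, inR_dl, dl_mul]

/-- gluing with a middle factor -/
def glue (Q : Alg M) : Alg (M × M) →ₗ[ℝ] Alg M := lin fun p => dl p.1 * Q * dl p.2

lemma mk_glue {Q : Alg M} (hQ : St Q) : Mk (glue Q) := mk_of_dl fun p => by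
  simpa [glue] using ((st_dl p.1).mul hQ).mul (st_dl p.2)

lemma glue_apply (Q X Y : Alg M) : glue Q (inL X * inR Y) = X * Q * Y := by
  have := bilin_ext
    (f := ((LinearMap.mul ℝ (Alg (M × M))).compl₁₂ inL.toLinearMap inR.toLinearMap).compr₂ (glue Q))
    (g := (LinearMap.mul ℝ (Alg M)).compl₁₂ (LinearMap.mulRight ℝ Q) LinearMap.id)
    (fun a b => by simp [inL_dl, inR_dl, dl_mul, glue]) X Y
  simpa using this

lemma tens_mul (X Y X' Y' : Alg M) :
    inL X * inR Y * (inL X' * inR Y') = inL (X * X') * inR (Y * Y') := by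
  rw [map_mul, map_mul, mul_assoc, ← mul_assoc (inR Y), ← (inL_comm X' Y).eq]
  simp only [mul_assoc]

lemma tens_pow (X Y : Alg M) (n : ℕ) : (inL X * inR Y) ^ n = inL (X ^ n) * inR (Y ^ n) := by
  rw [(inL_comm X Y).mul_pow, map_pow, map_pow]

/-- Hoeffding averaging of a translated pair -/
lemma avg_pair {H Y₁ Y₂ : Alg M} (hH : St H) {R : ℕ} {ε θ : ℝ} (h₁ : Dom Y₁ (H ^ R) ε θ)
    (h₂ : Dom Y₂ (H ^ R) ε θ) (hε : 0 < ε) (hε1 : ε ≤ 1) (hθ : θ ≤ 1) (hY : mass Y₁ = 0)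
    {J : ℕ} {s : ℝ} (hs : 0 < s) (hJ : s ^ 2 ≤ J) {t : ℝ} (ht : 1 ≤ t) (b : ℕ) :
    Dom (AV (H ^ R) J (Y₁ * H ^ ((J - 1) * R + b) * Y₂)) (H ^ (2 * J * R + b))
      ((ε ^ 2 + 3 * θ) * t / s) (6 * θ + 2 * (ε ^ 2 + 3 * θ) * Real.exp (-(t ^ 2 / 2))) := by
  have hθ0 := h₁.theta_nonneg
  have sL : St (inL (H ^ R)) := mk_inL.st (hH.pow R)
  have sR : St (inR (H ^ R)) := mk_inR.st (hH.pow R)
  have d : Dom (inL Y₁ * inR Y₂) (inL (H ^ R) * inR (H ^ R)) (ε ^ 2) (3 * θ) :=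
    (Dom.mul (h₁.map mk_inL) (h₂.map mk_inR) sL sR hε.le hε.le).mono (sL.mul sR).1
      (by rw [sq]) (by nlinarith)
  have m0 : mass (inL Y₁ * inR Y₂) = 0 := by
    rw [mass_mul, show mass (inL Y₁) = mass Y₁ from mk_inL.mass Y₁, hY, zero_mul]
  have k := (d.avg (by positivity) (sL.mul sR) m0 hs hJ ht).map (mk_glue (hH.pow b))
  refine (k.mono ((mk_glue (hH.pow b)).pos _ ((sL.mul sR).pow J).1) le_rfl
    (by linarith)).of_eq ?_ ?_
  · rw [AV_apply, AV_apply, map_smul, SJ_eq, SJ_eq, map_sum]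
    congr 1
    refine Finset.sum_congr rfl fun u hu => ?_
    have hu := Finset.mem_range.1 hu
    obtain ⟨v, hv⟩ : ∃ v, J - 1 = u + v := ⟨J - 1 - u, by omega⟩
    rw [tens_pow, tens_pow, tens_mul, tens_mul, glue_apply, hv, Nat.add_sub_cancel_left]
    simp only [← pow_mul, mul_assoc]
    congr 2
    simp only [← mul_assoc, ← pow_add]
    congr 3; ring
  · rw [tens_pow, glue_apply]
    simp only [← pow_mul, ← pow_add]
    congr 1; ring

end

end Vale.Agent.P321
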