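import Vale.Agent.P321.Step2

/-! Estimates for laws on the natural numbers. -/

namespace Vale.Agent.P321

open MonoidAlgebra Finset Multiplicative

noncomputable section

abbrev Nn := Multiplicative ℕ

/-- the unit step -/
def zz : Alg Nn := dl (ofAdd 1)

/-- Bernoulli law -/
def bern (r : ℝ) : Alg Nn := (1 - r) • 1 + r • zz

lemma st_bern {r : ℝ} (h0 : 0 ≤ r) (h1 : r ≤ 1) : St (bern r) :=
  ⟨(Pos.one.smul (by linarith)).add ((pos_dl _).smul h0), by simp [bern, zz]⟩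

lemma ev_mul_zz (f : Nn → ℝ) (X : Alg Nn) : ev f (X * zz) = ev (fun a => f (a * ofAdd 1)) X := by
  rw [ev_mul]; simp [zz]

lemma ev_bern (f : Nn → ℝ) (r : ℝ) : ev f (bern r) = (1 - r) * f 1 + r * f (ofAdd 1) := by
  simp [bern, zz, ev_one]

/-- the pairing of coefficient sequences -/
def pair {M : Type*} (X Y : Alg M) : ℝ := ev (fun j => Y.coeff j) X

lemma pair_comm {M : Type*} (X Y : Alg M) : pair X Y = pair Y X := by
  classical
  unfold pair
  simp only [coeff_eq_ev]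
  rw [ev_swap]
  simp only [eq_comm]

lemma pair_nonneg {M : Type*} {X Y : Alg M} (hX : Pos X) (hY : Pos Y) : 0 ≤ pair X Y :=
  hX.ev_nonneg hY

lemma coeff_le_tv (X : Alg Nn) (j : Nn) : X.coeff j ≤ nrm (X * (zz - 1)) := by
  classical
  have h := abs_ev_le_nrm (X * (zz - 1)) (f := fun l => if j.toAdd < l.toAdd then 1 else 0)
    fun l => by split_ifs <;> simp
  refine le_trans (le_of_eq ?_) ((le_abs_self _).trans h)
  rw [mul_sub, mul_one, map_sub, ev_mul_zz, ← ev_sub_fun, coeff_eq_ev]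
  congr 2
  funext l
  simp only [toAdd_mul, toAdd_ofAdd]
  by_cases h1 : l = j
  · simp [h1]
  · have : l.toAdd ≠ j.toAdd := fun h2 => h1 (toAdd.injective h2)
    rw [if_neg h1]
    split_ifs <;> first | omega | norm_num

lemma pair_le_tv (X : Alg Nn) {Y : Alg Nn} (hY : St Y) : pair X Y ≤ nrm (X * (zz - 1)) := by
  rw [pair_comm, pair]
  simpa [hY.2] using hY.1.ev_le (coeff_le_tv X)

lemma tv_pow {q : ℝ} (h0 : 0 < q) (h1 : q < 1) (n : ℕ) {σ : Alg Nn} (hσ : St σ) :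
    nrm (bern (1 - q ^ 2) ^ n * σ * (zz - 1)) ≤ 1 / ((1 - q ^ 2) * q ^ 2) / √(n + 1) := by
  have hρ : 0 < 1 - q ^ 2 := by nlinarith
  have sc : St (bern (1 - q ^ 2)) := st_bern hρ.le (by nlinarith)
  have a : AL (1 - bern (1 - q ^ 2)) ((1 / q ^ 2) • bern (1 - q ^ 2)) := by
    have e : 1 / q ^ 2 * q ^ 2 = 1 := by field_simp
    have h2 : 1 ≤ 1 / q ^ 2 := by rw [le_div_iff₀ (by positivity)]; nlinarith
    constructor
    · refine (sc.1.add ((pos_dl (ofAdd 1)).smul (c := 1 / q ^ 2 * (1 - q ^ 2))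
        (by positivity))).of_eq ?_
      have : (1 : Alg Nn) = (1 / q ^ 2 * q ^ 2) • (1 : Alg Nn) := by rw [e, one_smul]
      simp only [bern, zz]
      conv_rhs => enter [2, 1]; rw [this]
      module
    · exact ((sc.1.smul (sub_nonneg.2 h2)).add Pos.one).of_eq (by module)
  have k := nrm_pred (by positivity) sc a n
  have e : bern (1 - q ^ 2) ^ n * σ * (zz - 1)
      = (1 / (1 - q ^ 2)) • ((bern (1 - q ^ 2) ^ (n + 1) - bern (1 - q ^ 2) ^ n) * σ) := by
    have : bern (1 - q ^ 2) - 1 = (1 - q ^ 2) • (zz - 1) := by simp only [bern]; module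
    rw [pow_succ _ n, ← mul_sub_one, this, mul_smul_comm, smul_mul_assoc, smul_smul,
      one_div_mul_cancel hρ.ne', one_smul, mul_right_comm]
  rw [e]
  refine (nrm_smul_le _ _).trans ?_
  rw [abs_of_pos (by positivity)]
  calc 1 / (1 - q ^ 2) * nrm ((bern (1 - q ^ 2) ^ (n + 1) - bern (1 - q ^ 2) ^ n) * σ)
      ≤ 1 / (1 - q ^ 2) * (1 / q ^ 2 / √(n + 1)) := by
        gcongr; exact (hσ.nrm_mul_right _).trans k
    _ = _ := by field_simp

/-- mean and variance -/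
def VB (X : Alg Nn) (μ v : ℝ) : Prop :=
  ∀ a : ℝ, ev (fun y => ((y.toAdd : ℝ) - a) ^ 2) X = v + (μ - a) ^ 2

lemma VB.mul {X Y : Alg Nn} {μ v μ' v' : ℝ} (h : VB X μ v) (h' : VB Y μ' v') (hX : St X) :
    VB (X * Y) (μ + μ') (v + v') := fun a => by
  rw [ev_mul]
  have : ∀ x : Nn, ev (fun y => (((x * y).toAdd : ℝ) - a) ^ 2) Y
      = v' + ((x.toAdd : ℝ) - (a - μ')) ^ 2 := fun x => by
    have := h' (a - x.toAdd)
    simp only [toAdd_mul, Nat.cast_add]
    have e : (fun y : Nn => ((x.toAdd : ℝ) + y.toAdd - a) ^ 2)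
        = fun y : Nn => ((y.toAdd : ℝ) - (a - x.toAdd)) ^ 2 := by funext y; ring
    rw [e, this]; ring
  simp only [this]
  rw [ev_add_fun, ev_const, hX.2, h (a - μ')]
  ring

lemma VB.pow {X : Alg Nn} {μ v : ℝ} (h : VB X μ v) (hX : St X) (n : ℕ) :
    VB (X ^ n) (n * μ) (n * v) := by
  induction n with
  | zero => intro a; simp [ev_one]
  | succ n ih =>
    have := ih.mul h (hX.pow n)
    rw [pow_succ]
    push_cast
    convert this using 1 <;> ring

lemma vb_bern (r : ℝ) : VB (bern r) r (r * (1 - r)) := fun a => by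
  rw [ev_bern]; simp; ring

/-- one-sided geometric weight -/
def psi (β : ℝ) (x y : ℕ) : ℝ := if x ≤ y then β ^ (y - x) else 0

lemma psi_nonneg {β : ℝ} (h : 0 ≤ β) (x y : ℕ) : 0 ≤ psi β x y := by
  unfold psi; split_ifs <;> positivity

lemma ev_char_pow (β : ℝ) (σ : Alg Nn) (i : ℕ) :
    ev (fun y => β ^ y.toAdd) (σ ^ i) = ev (fun y => β ^ y.toAdd) σ ^ i := by
  induction i with
  | zero => simp [ev_one]
  | succ i ih => rw [pow_succ, ev_mul_char _ (by simp [pow_add]), ih, pow_succ]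

lemma renew {σ : Alg Nn} (hσ : St σ) {β : ℝ} (h0 : 0 ≤ β) (h1 : β ≤ 1)
    (hl : ev (fun y => β ^ y.toAdd) σ ≤ 1 / 2) (x n s : ℕ) :
    ∑ i ∈ range n, ev (fun y => psi β x (s + y.toAdd)) (σ ^ i) ≤ 2 := by
  have hl0 : 0 ≤ ev (fun y => β ^ y.toAdd) σ := hσ.1.ev_nonneg fun y => by positivity
  induction n generalizing s with
  | zero => simp
  | succ n ih =>
    rcases le_or_gt x s with hx | hx
    · refine le_trans (Finset.sum_le_sum fun i _ => ?_) (sum_geometric_two_le (n + 1))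
      refine le_trans ((hσ.1.pow i).ev_mono (g := fun y => β ^ y.toAdd) fun y => ?_) ?_
      · rw [psi, if_pos (by omega)]
        exact pow_le_pow_of_le_one h0 h1 (by omega)
      · rw [ev_char_pow]; gcongr
    · rw [Finset.sum_range_succ', pow_zero, ev_one]
      simp only [pow_succ', ev_mul, toAdd_mul, ← add_assoc]
      rw [← ev_sum_fun]
      have := hσ.1.ev_le fun a => ih (s + a.toAdd)
      rw [hσ.2] at this
      have e : psi β x (s + (1 : Nn).toAdd) = 0 := by simp [psi, hx]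
      linarith

lemma coeff_eq_psi (β : ℝ) (X : Alg Nn) (y : Nn) :
    X.coeff y = ev (fun x => psi β x.toAdd y.toAdd) (X - β • (X * zz)) := by
  classical
  rw [map_sub, map_smul, ev_mul_zz, smul_eq_mul, ← ev_mul_fun, ← ev_sub_fun, coeff_eq_ev]
  congr 2
  funext l
  simp only [toAdd_mul, toAdd_ofAdd, psi]
  by_cases h1 : l = y
  · simp [h1]
  · have : l.toAdd ≠ y.toAdd := fun h2 => h1 (toAdd.injective h2)
    rw [if_neg h1]
    split_ifs with h2 h3 h3
    · rw [show y.toAdd - l.toAdd = y.toAdd - (l.toAdd + 1) + 1 by omega, pow_succ]; ring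
    · omega
    · omega
    · simp

lemma pair_renew {σ τ X : Alg Nn} (hσ : St σ) (hτ : St τ) (hX : St X) {β : ℝ} (h0 : 0 ≤ β)
    (h1 : β ≤ 1) (hl : ev (fun y => β ^ y.toAdd) σ ≤ 1 / 2) (n : ℕ) :
    ∑ i ∈ range n, pair (τ * σ ^ i) X ≤ 2 * (nrm (X * (zz - 1)) + (1 - β)) := by
  have e : ∑ i ∈ range n, pair (τ * σ ^ i) X = 2 * ev (fun x => 1 / 2 * ∑ i ∈ range n,
      ev (fun y => psi β x.toAdd y.toAdd) (τ * σ ^ i)) (X - β • (X * zz)) := by
    rw [ev_mul_fun, ← mul_assoc, show (2 : ℝ) * (1 / 2) = 1 by norm_num, one_mul, ev_sum_fun]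
    refine Finset.sum_congr rfl fun i _ => ?_
    rw [pair, ev_swap]
    simp only [← coeff_eq_psi]
  rw [e]
  have k := abs_ev_le_nrm (X - β • (X * zz)) (f := fun x => 1 / 2 * ∑ i ∈ range n,
      ev (fun y => psi β x.toAdd y.toAdd) (τ * σ ^ i)) fun x => by
    rw [abs_of_nonneg (mul_nonneg (by norm_num) (Finset.sum_nonneg fun i _ =>
      (hτ.mul (hσ.pow i)).1.ev_nonneg fun y => psi_nonneg h0 _ _))]
    simp only [ev_mul, toAdd_mul]
    rw [← ev_sum_fun]
    have := hτ.1.ev_le fun a => renew hσ h0 h1 hl x.toAdd n a.toAdd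
    rw [hτ.2] at this
    linarith
  have e2 : X - β • (X * zz) = -(X * (zz - 1)) + (1 - β) • (X * zz) := by
    rw [mul_sub, mul_one]; module
  have k2 : nrm (X - β • (X * zz)) ≤ nrm (X * (zz - 1)) + (1 - β) := by
    rw [e2]
    refine (nrm_add_le _ _).trans ?_
    rw [nrm_neg]
    have a1 := nrm_smul_le (1 - β) (X * zz)
    have a2 := (hX.mul (st_dl (ofAdd 1))).nrm_le
    rw [abs_of_nonneg (by linarith)] at a1
    have : (1 - β) * nrm (X * zz) ≤ (1 - β) * 1 := mul_le_mul_of_nonneg_left a2 (by linarith)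
    linarith
  linarith [le_abs_self (ev (fun x => 1 / 2 * ∑ i ∈ range n,
      ev (fun y => psi β x.toAdd y.toAdd) (τ * σ ^ i)) (X - β • (X * zz)))]

/-- the link kernels -/
def kk (q : ℝ) (m i : ℕ) : Alg Nn :=
  bern (1 - q ^ 2) ^ m * (bern (1 - q) * bern (1 - q ^ 2) ^ m) ^ i

/-- the basic constant -/
def C1 (q : ℝ) : ℝ := 1 / ((1 - q ^ 2) * q ^ 2)

section
variable {q : ℝ} (h0 : 0 < q) (h1 : q < 1)
include h0 h1

lemma st_c : St (bern (1 - q ^ 2)) := st_bern (by nlinarith) (by nlinarith)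
lemma st_d0 : St (bern (1 - q)) := st_bern (by linarith) (by linarith)
lemma st_kk (m i : ℕ) : St (kk q m i) :=
  ((st_c h0 h1).pow m).mul (((st_d0 h0 h1).mul ((st_c h0 h1).pow m)).pow i)

lemma one_le_C1 : 1 ≤ C1 q := by
  have : 0 < 1 - q ^ 2 := by nlinarith
  rw [C1, le_div_iff₀ (by positivity)]
  nlinarith [sq_nonneg q]

omit h0 h1 in
lemma kk_eq (m i : ℕ) : kk q m i = bern (1 - q ^ 2) ^ (m * (i + 1)) * bern (1 - q) ^ i := by
  rw [kk, mul_pow, ← pow_mul]; ring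

lemma tv_kk {m : ℕ} (hm : 0 < m) (i : ℕ) :
    nrm (kk q m i * (zz - 1)) ≤ C1 q / √(m * (i + 1)) := by
  rw [kk_eq]
  refine (tv_pow h0 h1 _ ((st_d0 h0 h1).pow i)).trans ?_
  have := one_le_C1 h0 h1
  rw [← C1]
  push_cast
  gcongr
  linarith

lemma sum_pair_kk {m : ℕ} (hm : C1 q ≤ m) {i : ℕ} (hi : i + 1 ≤ m) (n : ℕ) :
    ∑ j ∈ range n, pair (kk q m j) (kk q m i) ≤ 4 * C1 q / √(m * (i + 1)) := by
  have hC := one_le_C1 h0 h1
  have hρ : 0 < 1 - q ^ 2 := by nlinarith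
  have hm0 : 0 < m := by omega
  have hm' : (0 : ℝ) < m := by exact_mod_cast hm0
  have hρC : 1 / (1 - q ^ 2) ≤ C1 q := by
    rw [C1]; gcongr; nlinarith [sq_nonneg q]
  have hb : 1 / ((1 - q ^ 2) * m) ≤ 1 := by
    rw [← div_div, div_le_one hm']; linarith
  have hb0 : 0 < 1 / ((1 - q ^ 2) * m) := by positivity
  have k := pair_renew ((st_d0 h0 h1).mul ((st_c h0 h1).pow m)) ((st_c h0 h1).pow m)
    (st_kk h0 h1 m i) (β := 1 - 1 / ((1 - q ^ 2) * m)) (by linarith) (by linarith) (by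
      rw [ev_mul_char _ (by simp [pow_add]), ev_char_pow, ev_bern, ev_bern]
      simp only [toAdd_one, pow_zero, mul_one, toAdd_ofAdd, pow_one]
      have e : 1 - (1 - q ^ 2) + (1 - q ^ 2) * (1 - 1 / ((1 - q ^ 2) * m)) = 1 - 1 / m := by
        field_simp; ring
      rw [e]
      have a1 : (1 - 1 / (m : ℝ)) ^ m ≤ Real.exp (-1) := by
        simpa using Real.one_sub_div_pow_le_exp_neg (n := m) (t := 1) (by exact_mod_cast hm0)
      have a2 : Real.exp (-1) ≤ 1 / 2 := by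
        rw [Real.exp_neg, one_div]
        exact inv_anti₀ (by norm_num) (by linarith [Real.add_one_le_exp 1])
      have a3 : 0 ≤ (1 - 1 / (m : ℝ)) ^ m := pow_nonneg (by
        rw [sub_nonneg, div_le_one hm']; exact_mod_cast hm0) m
      have a4 : 1 - (1 - q) + (1 - q) * (1 - 1 / ((1 - q ^ 2) * m)) ≤ 1 := by nlinarith
      nlinarith) n
  refine k.trans ?_
  have t := tv_kk h0 h1 hm0 i
  have hs : √(m * (i + 1) : ℝ) ≤ m := by
    rw [Real.sqrt_le_left hm'.le, sq]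
    gcongr
    exact_mod_cast hi
  have hs0 : 0 < √(m * (i + 1) : ℝ) := by positivity
  have u : 1 / ((1 - q ^ 2) * m) ≤ C1 q / √(m * (i + 1)) := by
    rw [← div_div]; gcongr
  rw [mul_div_assoc]
  linarith

end

end

end Vale.Agent.P321
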