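import Vale.Agent.P321.Poly1

/-! The lifted model and its second moments. -/

namespace Vale.Agent.P321

open MonoidAlgebra Finset Multiplicative

noncomputable section

abbrev Wd := FreeMonoid Bool

/-- letters -/
def ee (b : Bool) : Alg Wd := dl (FreeMonoid.of b)
/-- letter weights -/
def ga (q : ℝ) (b : Bool) : ℝ := if b then q / (1 + q) else 1 / (1 + q)
/-- word weights -/
def gw (q : ℝ) : Wd →* ℝ := FreeMonoid.lift (ga q)
/-- reference slot -/
def zh (q : ℝ) : Alg Wd := ga q true • ee true + ga q false • ee false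
/-- centred defect slot -/
def yh (q : ℝ) : Alg Wd := ee true - zh q

/-- weighted inner product -/
def ip (q : ℝ) : Alg Wd →ₗ[ℝ] Alg Wd →ₗ[ℝ] ℝ :=
  LinearMap.mk₂ ℝ (fun X Y => ev (fun u => Y.coeff u / gw q u) X)
    (fun _ _ _ => map_add _ _ _) (fun _ _ _ => map_smul _ _ _)
    (fun X Y Z => by simp only [coeff_add, Finsupp.add_apply, add_div, ev_add_fun])
    (fun c X Y => by
      simp only [coeff_smul, Finsupp.smul_apply, smul_eq_mul, mul_div_assoc, ev_mul_fun])

lemma ip_apply (q : ℝ) (X Y : Alg Wd) : ip q X Y = ev (fun u => Y.coeff u / gw q u) X := rfl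

lemma ip_comm (q : ℝ) (X Y : Alg Wd) : ip q X Y = ip q Y X := by
  classical
  refine bilin_ext (f := ip q) (g := (ip q).flip) (fun a b => ?_) X Y
  simp only [LinearMap.flip_apply, ip_apply, lin_dl]
  simp only [dl, coeff_single, Finsupp.single_apply]
  by_cases h : a = b
  · simp [h]
  · simp [h, Ne.symm h]

lemma of_mul_inj {a b : Bool} {u v : Wd} :
    FreeMonoid.of a * u = FreeMonoid.of b * v ↔ a = b ∧ u = v := by
  constructor
  · intro h
    have := congrArg FreeMonoid.toList h
    simpa using this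
  · rintro ⟨rfl, rfl⟩; rfl

lemma ev_ee_mul (f : Wd → ℝ) (b : Bool) (Y : Alg Wd) :
    ev f (ee b * Y) = ev (fun v => f (FreeMonoid.of b * v)) Y := by
  rw [ev_mul, ee, lin_dl]

lemma coeff_ee_mul (a b : Bool) (Y : Alg Wd) (u : Wd) :
    (ee b * Y).coeff (FreeMonoid.of a * u) = if a = b then Y.coeff u else 0 := by
  classical
  rw [coeff_eq_ev, ev_ee_mul]
  simp only [of_mul_inj]
  split_ifs with h
  · rw [coeff_eq_ev]; simp [h]
  · simp [Ne.symm h, ev_zero_fun]

lemma coeff_ee_mul_one (b : Bool) (Y : Alg Wd) : (ee b * Y).coeff 1 = 0 := by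
  classical
  rw [coeff_eq_ev, ev_ee_mul]
  have : ∀ v : Wd, FreeMonoid.of b * v ≠ 1 := fun v h => by
    simpa using congrArg FreeMonoid.toList h
  simp [this, ev_zero_fun]

lemma ip_ee (q : ℝ) (a b : Bool) (X Y : Alg Wd) :
    ip q (ee a * X) (ee b * Y) = if a = b then (1 / ga q a) * ip q X Y else 0 := by
  rw [ip_apply, ev_ee_mul]
  simp only [coeff_ee_mul]
  split_ifs with h
  · rw [ip_apply, ← ev_mul_fun]
    congr 2
    funext v
    simp only [gw, map_mul, FreeMonoid.lift_eval_of]
    rw [← div_div, div_eq_mul_one_div _ (ga q a)]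
    ring
  · simp [ev_zero_fun]

lemma ip_one_ee (q : ℝ) (b : Bool) (Y : Alg Wd) : ip q 1 (ee b * Y) = 0 := by
  rw [ip_apply, ev_one, coeff_ee_mul_one, zero_div]

lemma ip_one_one (q : ℝ) : ip q 1 1 = 1 := by
  rw [ip_apply, ev_one]; simp

/-- orthogonality to words starting with a reference slot -/
def Orth (q : ℝ) (X : Alg Wd) : Prop := ∀ Y, ip q X (zh q * Y) = 0

lemma orth_one (q : ℝ) : Orth q 1 := fun Y => by
  simp [zh, add_mul, ip_one_ee]

lemma ip_one_yh (q : ℝ) (Y : Alg Wd) : ip q 1 (yh q * Y) = 0 := by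
  rw [yh, sub_mul, map_sub, ip_one_ee, orth_one q Y, sub_zero]

/-- embedding of polynomials in the reference slot -/
def io (q : ℝ) : Alg Nn →ₐ[ℝ] Alg Wd := MonoidAlgebra.lift ℝ (Alg Wd) Nn (powersHom _ (zh q))

lemma io_dl (q : ℝ) (j : Nn) : io q (dl j) = zh q ^ j.toAdd := by simp [io, dl]
lemma io_zz (q : ℝ) : io q zz = zh q := by simp [zz, io_dl]

/-- word length -/
def lenH : Wd →* Nn := FreeMonoid.lift fun _ => ofAdd 1
/-- law of the length -/
def len : Alg Wd →ₐ[ℝ] Alg Nn := mapDomainAlgHom ℝ ℝ lenH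

lemma len_dl (u : Wd) : len (dl u) = dl (lenH u) := by simp [len, dl]
lemma len_ee (b : Bool) : len (ee b) = zz := by simp [ee, len_dl, lenH, zz]
lemma ev_len (f : Nn → ℝ) (X : Alg Wd) : ev f (len X) = ev (fun u => f (lenH u)) X := by
  have := eq_lin ((ev f).comp len.toLinearMap) X
  simpa [len_dl] using this

section
variable {q : ℝ} (h0 : 0 < q)
include h0

lemma ga_pos (b : Bool) : 0 < ga q b := by unfold ga; split_ifs <;> positivity
lemma ga_sum : ga q true + ga q false = 1 := by
  simp only [ga, if_true, Bool.false_eq_true, if_false]; field_simp; ring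
lemma gw_pos (u : Wd) : 0 < gw q u := by
  induction u using FreeMonoid.inductionOn' with
  | one => simp
  | of_mul b u ih =>
    rw [map_mul, gw, FreeMonoid.lift_eval_of]
    exact mul_pos (ga_pos h0 b) ih
lemma st_zh : St (zh q) :=
  ⟨((pos_dl _).smul (ga_pos h0 _).le).add ((pos_dl _).smul (ga_pos h0 _).le), by
    simp [zh, ee, ga_sum h0]⟩
lemma mk_io : Mk (io q).toLinearMap := mk_of_dl fun j => by
  simpa [io_dl] using (st_zh h0).pow _
lemma len_zh : len (zh q) = zz := by
  simp only [zh, map_add, map_smul, len_ee, ← add_smul, ga_sum h0, one_smul]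
lemma len_yh : len (yh q) = 0 := by simp [yh, len_ee, len_zh h0]
lemma len_io (X : Alg Nn) : len (io q X) = X := by
  have : len.toLinearMap.comp (io q).toLinearMap = LinearMap.id := lin_ext fun j => by
    simp only [LinearMap.comp_apply, AlgHom.toLinearMap_apply, io_dl, map_pow, len_zh h0,
      LinearMap.id_apply]
    simp only [zz, dl, single_pow, one_pow]
    congr 1
    rw [← ofAdd_nsmul]; simp
  exact congr($this X)

lemma ip_zh_zh (X Y : Alg Wd) : ip q (zh q * X) (zh q * Y) = ip q X Y := by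
  have a := (ga_pos h0 true).ne'
  have b := (ga_pos h0 false).ne'
  have c := ga_sum h0
  simp only [zh, add_mul, smul_mul_assoc, map_add, map_smul, LinearMap.add_apply,
    LinearMap.smul_apply, ip_ee, smul_eq_mul]
  simp only [if_true, Bool.true_eq_false, Bool.false_eq_true, if_false]
  field_simp
  linear_combination (ip q X Y) * c

lemma ip_ee_zh (X Y : Alg Wd) : ip q (ee true * X) (zh q * Y) = ip q X Y := by
  have a := (ga_pos h0 true).ne'
  simp only [zh, add_mul, smul_mul_assoc, map_add, map_smul, ip_ee, smul_eq_mul]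
  simp only [if_true, Bool.true_eq_false, if_false]
  field_simp
  ring

lemma orth_yh (X : Alg Wd) : Orth q (yh q * X) := fun Y => by
  rw [yh, sub_mul, map_sub, LinearMap.sub_apply, ip_ee_zh h0, ip_zh_zh h0, sub_self]

lemma ip_yh_yh (X Y : Alg Wd) : ip q (yh q * X) (yh q * Y) = 1 / q * ip q X Y := by
  conv_lhs => enter [2]; rw [yh]
  rw [sub_mul, map_sub, orth_yh h0 X Y, sub_zero, yh, sub_mul, map_sub, LinearMap.sub_apply, ip_ee,
    ip_comm q (zh q * X), ip_ee_zh h0, ip_comm q Y X]
  simp only [if_true, ga]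
  field_simp
  ring

lemma ip_pow {X Y : Alg Wd} (hX : Orth q X) (hY : Orth q Y) (i j : ℕ) :
    ip q (zh q ^ i * X) (zh q ^ j * Y) = if i = j then ip q X Y else 0 := by
  induction i generalizing j with
  | zero =>
    cases j with
    | zero => simp
    | succ j => rw [pow_zero, one_mul, pow_succ', mul_assoc, hX, if_neg (by omega)]
  | succ i ih =>
    cases j with
    | zero => rw [pow_zero, one_mul, pow_succ', mul_assoc, ip_comm, hY, if_neg (by omega)]
    | succ j =>
      rw [pow_succ', pow_succ', mul_assoc, mul_assoc, ip_zh_zh h0, ih]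
      simp

lemma ip_io {X Y : Alg Wd} (hX : Orth q X) (hY : Orth q Y) (α β : Alg Nn) :
    ip q (io q α * X) (io q β * Y) = pair α β * ip q X Y := by
  classical
  have := bilin_ext
    (f := (ip q).compl₁₂ ((LinearMap.mulRight ℝ X).comp (io q).toLinearMap)
      ((LinearMap.mulRight ℝ Y).comp (io q).toLinearMap))
    (g := ip q X Y • LinearMap.mk₂ ℝ (fun α β : Alg Nn => pair α β)
      (fun _ _ _ => map_add _ _ _) (fun _ _ _ => map_smul _ _ _)
      (fun X Y Z => by simp only [pair, coeff_add, Finsupp.add_apply, ev_add_fun])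
      (fun c X Y => by simp only [pair, coeff_smul, Finsupp.smul_apply, smul_eq_mul, ev_mul_fun]))
    (fun a b => by
      simp only [LinearMap.compl₁₂_apply, LinearMap.comp_apply, AlgHom.toLinearMap_apply,
        LinearMap.mulRight_apply, io_dl, ip_pow h0 hX hY, LinearMap.smul_apply,
        LinearMap.mk₂_apply, pair, lin_dl, smul_eq_mul]
      simp only [dl, coeff_single, Finsupp.single_apply]
      by_cases h : a = b
      · simp [h]
      · simp [h, Ne.symm h]) α β
  rw [mul_comm (pair α β)]
  exact this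

omit h0 in
lemma coeff_zh_pow (u : Wd) : (zh q ^ (lenH u).toAdd).coeff u = gw q u := by
  induction u using FreeMonoid.inductionOn' with
  | one => simp
  | of_mul b u ih =>
    rw [map_mul lenH, toAdd_mul, lenH, FreeMonoid.lift_eval_of, toAdd_ofAdd, add_comm, pow_succ',
      ← lenH, map_mul (gw q), gw, FreeMonoid.lift_eval_of, ← gw, ← ih]
    conv_lhs => enter [1, 1, 1]; rw [zh]
    simp only [add_mul, smul_mul_assoc, coeff_add, coeff_smul, Finsupp.add_apply,
      Finsupp.smul_apply, coeff_ee_mul, smul_eq_mul]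
    cases b <;> simp

end

end

end Vale.Agent.P321
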