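import Vale.Agent.P321.Poly2

/-! The sparse defect array is invisible on a diffusive window. -/

namespace Vale.Agent.P321

open MonoidAlgebra Finset Multiplicative

noncomputable section

/-- lifted background block -/
def Ch (q : ℝ) : Alg Wd := io q (bern (1 - q ^ 2))
/-- lifted defect -/
def dh (q : ℝ) : Alg Wd := q • 1 + (1 - q) • ee true
/-- the array -/
def TT {α : Type*} [Monoid α] (C d : α) (m W : ℕ) : α := C ^ m * (d * C ^ m) ^ W
/-- the fluctuation of the array -/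
def DD (q : ℝ) (m W : ℕ) : Alg Wd := ∑ i ∈ range W,
  (1 - q) • (io q (kk q m i) * (yh q * TT (Ch q) (dh q) m (W - 1 - i)))

lemma dh_eq (q : ℝ) : dh q = io q (bern (1 - q)) + (1 - q) • yh q := by
  simp only [dh, bern, map_add, map_smul, map_one, io_zz, yh]; module

lemma TT_eq (q : ℝ) (m W : ℕ) : TT (Ch q) (dh q) m W = io q (kk q m W) + DD q m W := by
  have := wd_tel (io q (bern (1 - q) * bern (1 - q ^ 2) ^ m)) (fun _ => dh q * Ch q ^ m) W
  simp only [wd_const] at this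
  rw [TT, this, mul_add, DD, Finset.mul_sum]
  congr 1
  · simp only [kk, Ch, map_mul, map_pow]
  · refine Finset.sum_congr rfl fun i _ => ?_
    have e : dh q * Ch q ^ m - io q (bern (1 - q) * bern (1 - q ^ 2) ^ m)
        = (1 - q) • (yh q * Ch q ^ m) := by
      rw [dh_eq, add_mul, map_mul, map_pow, Ch, add_sub_cancel_left, smul_mul_assoc]
    rw [e, TT]
    simp only [kk, Ch, map_mul, map_pow, mul_smul_comm, smul_mul_assoc, mul_assoc]

lemma sum_inv_sqrt (a : ℕ) : ∑ i ∈ range a, 1 / √((i : ℝ) + 1) ≤ 2 * √a := by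
  induction a with
  | zero => simp
  | succ a ih =>
    rw [Finset.sum_range_succ]
    push_cast
    have h1 : 0 < √((a : ℝ) + 1) := by positivity
    have h2 : √((a : ℝ) + 1) ^ 2 = a + 1 := Real.sq_sqrt (by positivity)
    have h3 : √(a : ℝ) ^ 2 = a := Real.sq_sqrt (by positivity)
    have h4 : 1 / √((a : ℝ) + 1) ≤ 2 * √((a : ℝ) + 1) - 2 * √a := by
      rw [div_le_iff₀ h1]
      nlinarith [sq_nonneg (√((a : ℝ) + 1) - √a)]
    linarith

lemma sum_beta (a : ℕ) :
    ∑ i ∈ range a, 1 / √((i : ℝ) + 1) * (1 / √(((a - 1 - i : ℕ) : ℝ) + 1)) ≤ 4 := by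
  have h1 : 0 < √((a : ℝ) + 1) := by positivity
  have key : ∀ i ∈ range a, 1 / √((i : ℝ) + 1) * (1 / √(((a - 1 - i : ℕ) : ℝ) + 1))
      ≤ (1 / √((i : ℝ) + 1) + 1 / √(((a - 1 - i : ℕ) : ℝ) + 1)) / √((a : ℝ) + 1) := fun i hi => by
    have hi := Finset.mem_range.1 hi
    have e : (a : ℝ) + 1 = ((i : ℝ) + 1) + (((a - 1 - i : ℕ) : ℝ) + 1) := by
      have : a + 1 = (i + 1) + ((a - 1 - i) + 1) := by omega
      exact_mod_cast this
    have hx : 0 < √((i : ℝ) + 1) := by positivity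
    have hy : 0 < √(((a - 1 - i : ℕ) : ℝ) + 1) := by positivity
    have hs : √((a : ℝ) + 1) ≤ √((i : ℝ) + 1) + √(((a - 1 - i : ℕ) : ℝ) + 1) := by
      rw [Real.sqrt_le_left (by positivity), e, add_sq, Real.sq_sqrt (by positivity),
        Real.sq_sqrt (by positivity)]
      nlinarith [mul_pos hx hy]
    generalize √((i : ℝ) + 1) = x at *
    generalize √(((a - 1 - i : ℕ) : ℝ) + 1) = y at *
    rw [le_div_iff₀ h1, show 1 / x + 1 / y = 1 / x * (1 / y) * (x + y) by field_simp; ring]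
    gcongr
  refine (Finset.sum_le_sum key).trans ?_
  rw [← Finset.sum_div, Finset.sum_add_distrib,
    Finset.sum_range_reflect (fun i => 1 / √((i : ℝ) + 1)) a, div_le_iff₀ h1]
  have := sum_inv_sqrt a
  have : √(a : ℝ) ≤ √((a : ℝ) + 1) := by gcongr; linarith
  linarith

section
variable {q : ℝ} (h0 : 0 < q) (h1 : q < 1)
include h0 h1

lemma st_Ch : St (Ch q) := (mk_io h0).st (st_c h0 h1)
lemma st_dh : St (dh q) :=
  ⟨(Pos.one.smul h0.le).add ((pos_dl _).smul (by linarith)), by simp [dh, ee]⟩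

omit h1 in
lemma ip_io_DD (α : Alg Nn) (m b : ℕ) : ip q (io q α) (DD q m b) = 0 := by
  rw [DD, map_sum]
  refine Finset.sum_eq_zero fun i _ => ?_
  have := ip_io h0 (orth_one q) (orth_yh h0 (TT (Ch q) (dh q) m (b - 1 - i))) α (kk q m i)
  rw [mul_one, ip_one_yh, mul_zero] at this
  rw [map_smul, this, smul_zero]

lemma ip_DD_le {m a : ℕ} (hm : C1 q ≤ m) (ha : a ≤ m)
    (ih : ∀ a' < a, ∀ b, ip q (TT (Ch q) (dh q) m a') (TT (Ch q) (dh q) m b)
      ≤ 2 * C1 q / √(m * (a' + 1))) (b : ℕ) :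
    ip q (DD q m a) (DD q m b) ≤ 32 * C1 q ^ 2 / q / m := by
  have hC := one_le_C1 h0 h1
  have hm' : (0 : ℝ) < m := by linarith
  have hq : (1 - q) * (1 - q) ≤ 1 := by nlinarith
  conv_lhs => enter [1, 2]; rw [DD]
  rw [map_sum, LinearMap.sum_apply]
  have key : ∀ i ∈ range a, ip q ((1 - q) • (io q (kk q m i)
      * (yh q * TT (Ch q) (dh q) m (a - 1 - i)))) (DD q m b) ≤ 8 * C1 q ^ 2 / q / m
        * (1 / √((i : ℝ) + 1) * (1 / √(((a - 1 - i : ℕ) : ℝ) + 1))) := fun i hi => by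
    have hi := Finset.mem_range.1 hi
    rw [DD, map_sum]
    have k1 := sum_pair_kk h0 h1 hm (i := i) (by omega) b
    obtain ⟨w, hw⟩ : ∃ w, w = 2 * C1 q / √(m * (((a - 1 - i : ℕ) : ℝ) + 1)) := ⟨_, rfl⟩
    have hw0 : 0 ≤ w := by rw [hw]; positivity
    refine le_trans (Finset.sum_le_sum (g := fun j => 1 / q * w * pair (kk q m j) (kk q m i))
      fun j _ => ?_) ?_
    · rw [map_smul, map_smul, LinearMap.smul_apply, ip_io h0 (orth_yh h0 _) (orth_yh h0 _),
        ip_yh_yh h0, pair_comm, smul_eq_mul, smul_eq_mul]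
      have a1 := ih (a - 1 - i) (by omega) (b - 1 - j)
      rw [← hw] at a1
      have a2 := pair_nonneg (st_kk h0 h1 m j).1 (st_kk h0 h1 m i).1
      generalize pair (kk q m j) (kk q m i) = x at *
      calc (1 - q) * ((1 - q) * (x * (1 / q * _))) ≤ (1 - q) * ((1 - q) * (x * (1 / q * w))) := by
            have : 0 ≤ 1 - q := by linarith
            gcongr
        _ = (1 - q) * (1 - q) * (1 / q * w * x) := by ring
        _ ≤ 1 * (1 / q * w * x) := by gcongr
        _ = _ := one_mul _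
    · rw [← Finset.mul_sum]
      refine (mul_le_mul_of_nonneg_left k1 (by positivity)).trans (le_of_eq ?_)
      rw [hw, Real.sqrt_mul hm'.le, Real.sqrt_mul hm'.le]
      have e : (m : ℝ) = √m * √m := (Real.mul_self_sqrt hm'.le).symm
      have : 0 < √(m : ℝ) := by positivity
      generalize √(m : ℝ) = r at *
      rw [e]
      field_simp
      ring
  refine (Finset.sum_le_sum key).trans ?_
  rw [← Finset.mul_sum]
  refine (mul_le_mul_of_nonneg_left (sum_beta a) (by positivity)).trans (le_of_eq ?_)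
  ring

lemma ip_TT_le {m : ℕ} (a : ℕ) (ha : (32 * C1 q / q) ^ 2 * (a + 1) ≤ m) (b : ℕ) :
    ip q (TT (Ch q) (dh q) m a) (TT (Ch q) (dh q) m b) ≤ 2 * C1 q / √(m * (a + 1)) := by
  have hC := one_le_C1 h0 h1
  have hD : C1 q ≤ 32 * C1 q / q := by rw [le_div_iff₀ h0]; nlinarith
  have hD1 : C1 q ≤ (32 * C1 q / q) ^ 2 := by nlinarith
  induction a using Nat.strong_induction_on generalizing b with
  | _ a ih =>
    have ha0 : (0 : ℝ) ≤ a := by positivity
    have hm : C1 q ≤ m := by nlinarith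
    have hm' : (0 : ℝ) < m := by linarith
    have ham : a ≤ m := by
      have : (a : ℝ) ≤ m := by nlinarith
      exact_mod_cast this
    have k := ip_DD_le h0 h1 hm ham (fun a' h' b => ih a' h' (le_trans (by
      have : (a' : ℝ) ≤ a := by exact_mod_cast h'.le
      gcongr) ha) b) b
    rw [TT_eq, TT_eq]
    simp only [map_add, LinearMap.add_apply]
    rw [ip_io_DD h0, ip_comm q (DD q m a), ip_io_DD h0]
    have e := ip_io h0 (orth_one q) (orth_one q) (kk q m a) (kk q m b)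
    rw [mul_one, mul_one, ip_one_one, mul_one] at e
    rw [e]
    have t := (pair_le_tv _ (st_kk h0 h1 m b)).trans (tv_kk h0 h1 (by exact_mod_cast hm') a)
    have hs : 0 < √((m : ℝ) * (a + 1)) := by positivity
    have u : 32 * C1 q ^ 2 / q / m ≤ C1 q / √(m * (a + 1)) := by
      rw [div_le_div_iff₀ hm' hs]
      have : 32 * C1 q / q * √(m * (a + 1)) ≤ m := by
        refine (pow_le_pow_iff_left₀ (by positivity) hm'.le two_ne_zero).1 ?_
        rw [mul_pow, Real.sq_sqrt (by positivity)]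
        nlinarith
      calc 32 * C1 q ^ 2 / q * √(m * (a + 1)) = C1 q * (32 * C1 q / q * √(m * (a + 1))) := by ring
        _ ≤ C1 q * m := by gcongr
    rw [mul_div_assoc]
    linarith

omit h1 in
lemma window {T K : Alg Wd} (hT : Pos T) (hK : Pos K) {μ L l : ℝ} (hL : 0 < L) (hl : 0 < l) :
    nrm (T - K) ≤ l / 2 * (2 * L + 1) + ip q (T - K) (T - K) / (2 * l)
      + ev (fun y => ((y.toAdd : ℝ) - μ) ^ 2) (len (T + K)) / L ^ 2 := by
  classical
  set s := T.coeff.support ∪ K.coeff.support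
  have s1 : (T - K).coeff.support ⊆ s := Finsupp.support_sub
  have s2 : (T + K).coeff.support ⊆ s := Finsupp.support_add
  set I := Finset.Icc ⌈μ - L⌉₊ ⌊μ + L⌋₊ with hI
  have hc : (I.card : ℝ) ≤ 2 * L + 1 := by
    rw [hI, Nat.card_Icc]
    rcases le_or_gt (⌊μ + L⌋₊ + 1) ⌈μ - L⌉₊ with h | h
    · rw [Nat.sub_eq_zero_of_le h]; push_cast; linarith
    · rw [Nat.cast_sub h.le]
      push_cast
      have a1 := Nat.le_ceil (μ - L)
      rcases le_or_gt 0 (μ + L) with h2 | h2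
      · have := Nat.floor_le h2; linarith
      · rw [Nat.floor_of_nonpos h2.le]
        have : (0 : ℝ) ≤ ⌈μ - L⌉₊ := by positivity
        push_cast; linarith
  have pz : Pos (∑ J ∈ I, zh q ^ J) := Pos.sum fun J _ => (st_zh h0).1.pow J
  have mz : ∑ u ∈ s, (∑ J ∈ I, zh q ^ J).coeff u ≤ 2 * L + 1 := by
    have a1 : mass (∑ J ∈ I, zh q ^ J) = I.card := by
      simp [map_sum, mass_pow, (st_zh h0).2]
    have a2 := nrm_eq_sum (∑ J ∈ I, zh q ^ J) (s := s ∪ (∑ J ∈ I, zh q ^ J).coeff.support)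
      subset_union_right
    have a3 := pz.nrm_le
    have a4 : ∑ u ∈ s, (∑ J ∈ I, zh q ^ J).coeff u
        ≤ ∑ u ∈ s ∪ (∑ J ∈ I, zh q ^ J).coeff.support, |(∑ J ∈ I, zh q ^ J).coeff u| :=
      (Finset.sum_le_sum fun u _ => le_abs_self _).trans
        (Finset.sum_le_sum_of_subset_of_nonneg subset_union_left fun _ _ _ => abs_nonneg _)
    linarith
  rw [nrm_eq_sum _ s1, ip_apply, lin_apply_of_subset _ _ s1, ev_len, lin_apply_of_subset _ _ s2,
    Finset.sum_div, Finset.sum_div]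
  refine le_trans ?_ (add_le_add_left (add_le_add_left
    (mul_le_mul_of_nonneg_left mz (by positivity : 0 ≤ l / 2)) _) _)
  rw [Finset.mul_sum, ← Finset.sum_add_distrib, ← Finset.sum_add_distrib]
  refine Finset.sum_le_sum fun u _ => ?_
  have g := gw_pos h0 u
  have t1 := hT u
  have t2 := hK u
  have t3 := pz u
  simp only [smul_eq_mul, coeff_add, Finsupp.add_apply]
  have t4 : |(T - K).coeff u| ≤ T.coeff u + K.coeff u := by
    simp only [coeff_sub, Finsupp.sub_apply]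
    exact abs_le.2 ⟨by linarith, by linarith⟩
  generalize (T - K).coeff u = x at *
  have t5 : 0 ≤ x * (x / gw q u) / (2 * l) := by
    rw [← mul_div_assoc]; exact div_nonneg (div_nonneg (mul_self_nonneg x) g.le) (by positivity)
  by_cases hu : (lenH u).toAdd ∈ I
  · have a1 : gw q u ≤ (∑ J ∈ I, zh q ^ J).coeff u := by
      rw [coeff_sum, Finsupp.finsetSum_apply, ← coeff_zh_pow]
      exact Finset.single_le_sum (f := fun J => (zh q ^ J).coeff u)
        (fun J _ => (st_zh h0).1.pow J u) hu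
    have a2 : |x| ≤ l / 2 * gw q u + x * (x / gw q u) / (2 * l) := by
      have : l / 2 * gw q u + x * (x / gw q u) / (2 * l) - |x|
          = (l * gw q u - |x|) ^ 2 / (2 * l * gw q u) := by
        have : x * x = |x| ^ 2 := by rw [sq_abs, sq]
        rw [← mul_div_assoc, this]
        field_simp
        ring
      have h3 : 0 ≤ (l * gw q u - |x|) ^ 2 / (2 * l * gw q u) := by positivity
      linarith
    have a3 : 0 ≤ (T.coeff u + K.coeff u) * (((lenH u).toAdd : ℝ) - μ) ^ 2 / L ^ 2 := by positivity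
    have a4 := mul_le_mul_of_nonneg_left a1 (by positivity : 0 ≤ l / 2)
    linarith
  · have a1 : L ^ 2 ≤ (((lenH u).toAdd : ℝ) - μ) ^ 2 := by
      rw [hI, Finset.mem_Icc, not_and_or, not_le, not_le] at hu
      rcases hu with hu | hu
      · have := Nat.lt_ceil.1 hu; nlinarith
      · have := Nat.lt_of_floor_lt hu; nlinarith
    have a2 : T.coeff u + K.coeff u
        ≤ (T.coeff u + K.coeff u) * (((lenH u).toAdd : ℝ) - μ) ^ 2 / L ^ 2 := by
      rw [le_div_iff₀ (by positivity)]; gcongr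
    have a4 : 0 ≤ l / 2 * (∑ J ∈ I, zh q ^ J).coeff u := by positivity
    linarith

/-- the constant of the window -/
def D0 (q : ℝ) : ℝ := (52500 * (32 * C1 q ^ 2 / q)) ^ 2

omit h0 h1 in
lemma st_TT {M : Type*} [Monoid M] {C d : Alg M} (hC : St C) (hd : St d) (m W : ℕ) :
    St (TT C d m W) := (hC.pow m).mul ((hd.mul (hC.pow m)).pow W)

lemma polymer {m W : ℕ} (h : D0 q * (W + 1) ≤ m) :
    nrm (TT (Ch q) (dh q) m W - io q (kk q m W)) ≤ 3 / 100 := by
  have hC := one_le_C1 h0 h1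
  obtain ⟨c, hc⟩ : ∃ c, c = 32 * C1 q ^ 2 / q := ⟨_, rfl⟩
  have hc1 : 32 * C1 q / q ≤ c := by rw [hc]; gcongr; nlinarith
  have hc2 : C1 q ≤ 32 * C1 q / q := by rw [le_div_iff₀ h0]; nlinarith
  rw [D0, ← hc] at h
  have hW : (0 : ℝ) ≤ W := by positivity
  have hD : (32 * C1 q / q) ^ 2 ≤ (52500 * c) ^ 2 := by gcongr; linarith
  have hD' : c ≤ (52500 * c) ^ 2 := by nlinarith
  have hm : C1 q ≤ m := by nlinarith
  have hm' : (0 : ℝ) < m := by linarith
  have hWm : (W : ℝ) + 1 ≤ m := by nlinarith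
  have k := ip_DD_le h0 h1 hm (a := W) (by exact_mod_cast (by linarith : (W : ℝ) ≤ m))
    (fun a' h' b => ip_TT_le h0 h1 a' (le_trans (by
      have : (a' : ℝ) ≤ W := by exact_mod_cast h'.le
      gcongr) h) b) W
  rw [← hc] at k
  obtain ⟨r, hr⟩ : ∃ r, r = √((m : ℝ) * (W + 1)) := ⟨_, rfl⟩
  have hr2 : r ^ 2 = m * (W + 1) := by rw [hr, Real.sq_sqrt (by positivity)]
  have hr0 : 0 < r := by rw [hr]; positivity
  have hr1 : 1 ≤ r := by
    refine (pow_le_pow_iff_left₀ zero_le_one hr0.le two_ne_zero).1 ?_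
    rw [hr2]; nlinarith
  have vb := ((vb_bern (1 - q ^ 2)).pow (st_c h0 h1) (m * (W + 1))).mul
    ((vb_bern (1 - q)).pow (st_d0 h0 h1) W) ((st_c h0 h1).pow _)
  rw [← kk_eq] at vb
  have w := window h0 (st_TT (st_Ch h0 h1) (st_dh h0 h1) m W).1
    ((mk_io h0).st (st_kk h0 h1 m W)).1
    (μ := ((m * (W + 1) : ℕ) : ℝ) * (1 - q ^ 2) + W * (1 - q)) (L := 10 * r) (l := 50 * c / m)
    (by positivity) (by have : 0 < c := by linarith
                        positivity)
  have e1 : len (TT (Ch q) (dh q) m W) = kk q m W := by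
    simp only [TT, Ch, dh_eq, map_mul, map_pow, map_add, map_smul, len_io h0, len_yh h0, smul_zero,
      add_zero, kk]
  have e2 : TT (Ch q) (dh q) m W - io q (kk q m W) = DD q m W := by
    rw [TT_eq, add_sub_cancel_left]
  simp only [AlgHom.toLinearMap_apply] at w
  rw [map_add, e1, len_io h0, map_add, vb, sub_self, e2] at w
  rw [e2]
  refine w.trans ?_
  have hc0 : 0 < c := by linarith
  have a1 : 50 * c / m / 2 * (2 * (10 * r) + 1) ≤ 1 / 100 := by
    have : 52500 * c * r ≤ m := by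
      refine (pow_le_pow_iff_left₀ (by positivity) hm'.le two_ne_zero).1 ?_
      rw [mul_pow, hr2]; nlinarith
    rw [div_div, div_mul_eq_mul_div, div_le_iff₀ (by positivity)]
    nlinarith
  have a2 : ip q (DD q m W) (DD q m W) / (2 * (50 * c / m)) ≤ 1 / 100 := by
    rw [div_le_iff₀ (by positivity)]
    refine k.trans (le_of_eq ?_); ring
  have a3 : ∀ x : ℝ, x * (1 - x) ≤ 1 / 4 := fun x => by nlinarith [sq_nonneg (x - 1 / 2)]
  have a4 : ((m * (W + 1) : ℕ) : ℝ) * ((1 - q ^ 2) * (1 - (1 - q ^ 2)))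
      + W * ((1 - q) * (1 - (1 - q))) ≤ r ^ 2 / 2 := by
    have b1 := mul_le_mul_of_nonneg_left (a3 (1 - q ^ 2)) (by positivity : (0 : ℝ) ≤ m * (W + 1))
    have b2 := mul_le_mul_of_nonneg_left (a3 (1 - q)) hW
    push_cast
    rw [hr2]
    nlinarith
  have a5 : ∀ v : ℝ, v ≤ r ^ 2 / 2 → (v + 0 ^ 2 + (v + 0 ^ 2)) / (10 * r) ^ 2 ≤ 1 / 100 :=
    fun v hv => by rw [div_le_iff₀ (by positivity)]; nlinarith
  linarith [a5 _ a4]

end

end

end Vale.Agent.P321
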