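import Vale.Agent.P321.Level2

/-! The recursion on strings, with explicit parameters. -/

namespace Vale.Agent.P321

open MonoidAlgebra Finset

noncomputable section

lemma mon {A v c : ℝ} (hA : 100 ≤ A) (hv : A ^ 99 ≤ v) (hc : c ≤ 10000) (i j k l : ℕ)
    (h1 : j ≤ l) (h2 : i + 2 ≤ k + 99 * (l - j)) : c * (A ^ i * v ^ j) ≤ A ^ k * v ^ l := by
  have hA1 : 1 ≤ A := by linarith
  have hv0 : 0 ≤ v := le_trans (by positivity) hv
  obtain ⟨d, rfl⟩ := Nat.exists_eq_add_of_le h1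
  rw [Nat.add_sub_cancel_left] at h2
  calc c * (A ^ i * v ^ j) ≤ A ^ 2 * (A ^ i * v ^ j) := by gcongr; nlinarith
    _ = A ^ (i + 2) * v ^ j := by ring
    _ ≤ A ^ (k + 99 * d) * v ^ j := by gcongr
    _ = A ^ k * ((A ^ 99) ^ d * v ^ j) := by rw [← pow_mul]; ring
    _ ≤ A ^ k * (v ^ d * v ^ j) := by gcongr
    _ = A ^ k * v ^ (j + d) := by ring

lemma monN {A v : ℕ} (hA : 100 ≤ A) (hv : A ^ 99 ≤ v) {c : ℕ} (hc : c ≤ 10000) (i j k l : ℕ)
    (h1 : j ≤ l) (h2 : i + 2 ≤ k + 99 * (l - j)) : c * (A ^ i * v ^ j) ≤ A ^ k * v ^ l := by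
  have := mon (A := A) (v := v) (c := c) (by exact_mod_cast hA) (by exact_mod_cast hv)
    (by exact_mod_cast hc) i j k l h1 h2
  exact_mod_cast this

lemma length_wd (B : ℕ → Wd) {n : ℕ} (h : ∀ t, (B t).length = n) (K : ℕ) :
    (wd B K).length = K * n := by
  induction K generalizing B with
  | zero => simp [wd]
  | succ K ih => rw [wd, FreeMonoid.length_mul, h, ih _ fun t => h _]; ring

lemma length_pow (g : Wd) (K : ℕ) : (g ^ K).length = K * g.length := by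
  rw [← wd_const, length_wd _ fun _ => rfl]

lemma length_tmw {g u v : Wd} (hu : u.length = g.length) (hv : v.length = g.length) (m P : ℕ) :
    (tmw g u v m P).length = (P + 1 + (2 ^ m + 1) + P) * g.length := by
  rw [tmw, FreeMonoid.length_mul, FreeMonoid.length_mul, length_pow,
    length_wd _ (n := g.length) fun t => by split_ifs <;> assumption]
  ring

lemma tmw_ne {g u v : Wd} (h : u.length = v.length) (huv : v ≠ u) (m P : ℕ) :
    tmw g v u m P ≠ tmw g u v m P := by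
  intro e
  rw [tmw, tmw] at e
  have e2 := mul_left_cancel (mul_right_cancel e)
  obtain ⟨K, hK⟩ : ∃ K, 2 ^ m = K + 1 := ⟨2 ^ m - 1, by have := Nat.one_le_two_pow (n := m); omega⟩
  rw [hK, wd, wd] at e2
  simp only [tb_zero, Bool.false_eq_true, if_false] at e2
  have e3 := congrArg FreeMonoid.toList e2
  rw [FreeMonoid.toList_mul, FreeMonoid.toList_mul] at e3
  exact huv (FreeMonoid.toList.injective (List.append_inj e3 h.symm).1)

/-- the data at one level -/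
def Lev (q : ℝ) (A v m n : ℕ) (θ : ℝ) : Prop :=
  ∃ (h g x : Wd) (γ : ℕ), x ≠ g ∧ x.length = g.length ∧ g.length ≤ (A * v) ^ 64 ∧
    A ^ 29 * v ^ 32 ≤ γ ∧ Inv (tr q h) (tr q g) (tr q x) γ (2 ^ (m + 1) + 1) (1 / (A * v) ^ 32)
      (1 / (A * v) ^ n) (1 / (A * v) ^ n / (A * v) ^ 4) θ ∧
    Mix (tr q h) (A ^ 22 * v ^ 32) ∧ Mix (tr q g) (A ^ 54 * v ^ 64)

lemma inherit' {M : Type*} [Monoid M] {G G' : Alg M} (hG : St G) (hG' : St G') {A v g : ℕ}
    (hA : 100 ≤ A) (hv : A ^ 99 ≤ v) (hm : Mix G (A ^ 22 * v ^ 32)) (hg : 0 < g)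
    (hg' : g ≤ 3 * (A ^ 29 * v ^ 32)) {θ : ℝ} (h : Dom (G' - G ^ g) (G ^ g) (1 / (A * v) ^ 32) θ)
    (hθ : θ ≤ 1 / (A * v) ^ 64) : Mix G' (A ^ 54 * v ^ 64) := by
  have hA' : (100 : ℝ) ≤ A := by exact_mod_cast hA
  have hv' : (A : ℝ) ^ 99 ≤ v := by exact_mod_cast hv
  have hA0 : (0 : ℝ) < A := by linarith
  have hv0 : (0 : ℝ) < v := lt_of_lt_of_le (by positivity) hv'
  have hθ0 := h.theta_nonneg
  have hg2 : (g : ℝ) ≤ 3 * (A ^ 29 * v ^ 32) := by exact_mod_cast hg'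
  have hW : (1 : ℝ) ≤ A ^ 53 * v ^ 64 := by
    simpa using mon hA' hv' (c := 1) (by norm_num) 0 0 53 64 (by norm_num) (by norm_num)
  have hw : (1 : ℝ) ≤ (A * v) ^ 32 := by
    have := mon hA' hv' (c := 1) (by norm_num) 0 0 32 32 (by norm_num) (by norm_num)
    rw [mul_pow]; simpa using this
  have hθ' : θ ≤ 1 / (A * v) ^ 32 := by
    refine hθ.trans (one_div_le_one_div_of_le (by positivity) ?_)
    rw [show (64 : ℕ) = 32 * 2 by norm_num, pow_mul]
    exact le_self_pow₀ hw (by norm_num)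
  refine (inherit hG hG' hm (W := A ^ 53 * v ^ 64) hg (by exact_mod_cast hW) (by positivity) h
    ?_ ?_ ?_).mono ?_
  · push_cast
    generalize (A : ℝ) = A at *
    generalize (v : ℝ) = v at *
    generalize (g : ℝ) = g at *
    calc (9 : ℝ) * g * (A ^ 22 * v ^ 32) ≤ 9 * (3 * (A ^ 29 * v ^ 32)) * (A ^ 22 * v ^ 32) := by
          gcongr
      _ = 27 * (A ^ 51 * v ^ 64) := by ring
      _ ≤ _ := mon hA' hv' (by norm_num) _ _ _ _ (by norm_num) (by norm_num)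
  · push_cast
    generalize (A : ℝ) = A at *
    generalize (v : ℝ) = v at *
    calc ((A : ℝ) ^ 53 * v ^ 64 + 1) * (1 / (A * v) ^ 32 + θ) ^ 2
        ≤ (2 * (A ^ 53 * v ^ 64)) * (2 * (1 / (A * v) ^ 32)) ^ 2 := by gcongr <;> linarith
      _ = 8 / A ^ 11 := by field_simp; ring
      _ ≤ 1 / 100 := by
        rw [div_le_div_iff₀ (by positivity) (by norm_num)]
        have := mon hA' hv' (c := 800) (by norm_num) 0 0 11 0 (by norm_num) (by norm_num)
        simp only [pow_zero, mul_one] at this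
        linarith
  · push_cast
    generalize (A : ℝ) = A at *
    generalize (v : ℝ) = v at *
    calc ((A : ℝ) ^ 53 * v ^ 64 + 1) * θ ≤ (2 * (A ^ 53 * v ^ 64)) * (1 / (A * v) ^ 64) := by
          gcongr; linarith
      _ = 2 / A ^ 11 := by field_simp
      _ ≤ 1 / 12 := by
        rw [div_le_div_iff₀ (by positivity) (by norm_num)]
        have := mon hA' hv' (c := 24) (by norm_num) 0 0 11 0 (by norm_num) (by norm_num)
        simp only [pow_zero, mul_one] at this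
        linarith
  · push_cast
    have : (96 : ℝ) * (A ^ 53 * v ^ 64) ≤ A * (A ^ 53 * v ^ 64) := by gcongr; linarith
    nlinarith

lemma num_step {A v m n γ : ℕ} {θ : ℝ} (hA : 100 ≤ A) (hv : A ^ 99 ≤ v)
    (hK : 2 ^ (m + 1) + 1 ≤ A) (hn : 62 ≤ n) (hγ : A ^ 29 * v ^ 32 ≤ γ)
    (hexp : Real.exp (-((A : ℝ) ^ 2 / 2)) ≤ θ) (hneg : (1 / (A : ℝ)) ^ (m + 1) ≤ θ)
    (hθ : θ ≤ (1 / (A * v) ^ n) ^ 2) :
    Num m γ (2 ^ (m + 1) + 1) ((A * v) ^ 8) (A ^ 44 * v ^ 48) ((A * v) ^ 16) (A ^ 61 * v ^ 64)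
      (1 / (A * v) ^ 32) (1 / (A * v) ^ n) θ ((A * v) ^ 4) A (1 / ((A * v) ^ 8 * A ^ 3))
      (3 * (A * v) ^ 16) := by
  have hA' : (100 : ℝ) ≤ A := by exact_mod_cast hA
  have hv' : (A : ℝ) ^ 99 ≤ v := by exact_mod_cast hv
  have hA0 : (0 : ℝ) < A := by linarith
  have hv0 : (0 : ℝ) < v := lt_of_lt_of_le (by positivity) hv'
  have hR : ((2 ^ (m + 1) + 1 : ℕ) : ℝ) ≤ A := by exact_mod_cast hK
  have hm : m + 1 ≤ A := by have := Nat.lt_two_pow_self (n := m + 1); omega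
  have hw : (1 : ℝ) ≤ A * v := by
    simpa using mon hA' hv' (c := 1) (by norm_num) 0 0 1 1 (by norm_num) (by norm_num)
  have hε : 1 / ((A : ℝ) * v) ^ n ≤ 1 / (A * v) ^ 32 := by gcongr; omega
  have hε1 : 1 / ((A : ℝ) * v) ^ n ≤ 1 := by
    rw [div_le_one (by positivity)]; exact one_le_pow₀ hw
  have hε0 : 0 < 1 / ((A : ℝ) * v) ^ n := by positivity
  have hθ' : θ ≤ 1 / (A * v) ^ 32 := by nlinarith
  refine ⟨rfl, hA', hR, ?_, by push_cast; exact le_of_eq (by ring), hε0, by gcongr; omega, hθ, hexp,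
    hneg, by positivity, ?_, ?_, ?_, ?_, ?_, by positivity, ?_, ?_, ?_⟩
  · have := mon hA' hv' (c := 1) (by norm_num) 2 0 4 4 (by norm_num) (by norm_num)
    rw [mul_pow]; simpa using this
  · generalize ((2 ^ (m + 1) + 1 : ℕ) : ℝ) = R at hR
    push_cast
    rw [show 2 * ((A : ℝ) * v) ^ 8 * R * (1 / ((A * v) ^ 8 * A ^ 3)) = 2 * R / A ^ 3 by field_simp,
      div_le_div_iff₀ (by positivity) hA0]
    nlinarith
  · calc (m + 1) * (A ^ 44 * v ^ 48) ≤ A * (A ^ 44 * v ^ 48) := by gcongr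
      _ = A ^ 29 * v ^ 32 * (A * v) ^ 16 := by ring
      _ ≤ γ * (A * v) ^ 16 := by gcongr
  · calc (m + 1) * (((A * v) ^ 8 - 1) * (2 ^ (m + 1) + 1)) ≤ A * ((A * v) ^ 8 * A) := by
          gcongr; omega
      _ = 1 * (A ^ 10 * v ^ 8) := by ring
      _ ≤ A ^ 29 * v ^ 32 := monN hA hv (by norm_num) _ _ _ _ (by norm_num) (by norm_num)
      _ ≤ γ := hγ
  · calc (A * v) ^ 8 * (2 ^ (m + 1) + 1) ≤ (A * v) ^ 8 * A := by gcongr
      _ = 1 * (A ^ 9 * v ^ 8) := by ring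
      _ ≤ A ^ 29 * v ^ 32 := monN hA hv (by norm_num) _ _ _ _ (by norm_num) (by norm_num)
      _ ≤ γ := hγ
  · calc (A * v) ^ 16 = 1 * (A ^ 16 * v ^ 16) := by ring
      _ ≤ _ := monN hA hv (by norm_num) _ _ _ _ (by norm_num) (by norm_num)
  · have := mon hA' hv' (c := 1) (by norm_num) 1 0 16 16 (by norm_num) (by norm_num)
    rw [← mul_pow] at this
    simp only [pow_one, pow_zero, mul_one, one_mul] at this
    generalize ((2 ^ (m + 1) + 1 : ℕ) : ℝ) = R at hR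
    push_cast
    linarith
  · generalize (A : ℝ) = A at *
    generalize (v : ℝ) = v at *
    calc 3 * ((A : ℝ) * v) ^ 16 * (1 / (A * v) ^ 32 + θ)
        ≤ 3 * ((A : ℝ) * v) ^ 16 * (2 * (1 / (A * v) ^ 32)) := by gcongr; linarith
      _ = 6 / (A * v) ^ 16 := by field_simp; ring
      _ ≤ 1 / 4 := by
        rw [div_le_div_iff₀ (by positivity) (by norm_num)]
        have := mon hA' hv' (c := 24) (by norm_num) 0 0 16 16 (by norm_num) (by norm_num)
        rw [← mul_pow] at this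
        simp only [pow_zero, mul_one] at this
        linarith
  · generalize (A : ℝ) = A at *
    generalize (v : ℝ) = v at *
    rw [show 3 * ((A : ℝ) * v) ^ 16 * (1 / (A * v) ^ 32) = 3 / (A * v) ^ 16 by field_simp,
      div_le_div_iff₀ (by positivity) (by positivity)]
    calc 3 * (((A : ℝ) * v) ^ 4) ^ 3 = 3 * (A ^ 12 * v ^ 12) := by ring
      _ ≤ A ^ 16 * v ^ 16 := mon hA' hv' (by norm_num) _ _ _ _ (by norm_num) (by norm_num)
      _ = _ := by ring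

section
variable {A v : ℝ} (hA : 100 ≤ A) (hv : A ^ 99 ≤ v)
include hA hv

lemma one_le_w : 1 ≤ A * v := by
  simpa using mon hA hv (c := 1) (by norm_num) 0 0 1 1 (by norm_num) (by norm_num)

lemma n1 {n : ℕ} (hn : 62 ≤ n) :
    A ^ 4 * (1 / (A * v) ^ n / (A * v) ^ 4) ≤ 1 / ((A * v) ^ 2) ^ 32 := by
  have hw := one_le_w hA hv
  have hA0 : 0 < A := by linarith
  have hv0 : 0 < v := lt_of_lt_of_le (by positivity) hv
  calc A ^ 4 * (1 / (A * v) ^ n / (A * v) ^ 4)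
      ≤ A ^ 4 * (1 / (A * v) ^ 62 / (A * v) ^ 4) := by gcongr
    _ = A ^ 4 / (A * v) ^ 66 := by field_simp
    _ ≤ _ := by
      rw [div_le_div_iff₀ (by positivity) (by positivity)]
      calc A ^ 4 * ((A * v) ^ 2) ^ 32 = 1 * (A ^ 68 * v ^ 64) := by ring
        _ ≤ A ^ 66 * v ^ 66 := mon hA hv (by norm_num) _ _ _ _ (by norm_num) (by norm_num)
        _ = _ := by ring

lemma n2 (n : ℕ) :
    A ^ 5 * ((1 / (A * v) ^ n) ^ 2 / (A * v) ^ 4) ≤ 1 / ((A * v) ^ 2) ^ (n + 1) := by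
  have hA0 : 0 < A := by linarith
  have hv0 : 0 < v := lt_of_lt_of_le (by positivity) hv
  have hE : 0 < (A * v) ^ n := by positivity
  rw [pow_succ _ n, ← pow_mul (A * v) 2 n, mul_comm 2 n, pow_mul]
  generalize (A * v) ^ n = E at hE
  rw [show A ^ 5 * ((1 / E) ^ 2 / (A * v) ^ 4) = A ^ 5 / (E ^ 2 * (A * v) ^ 4) by
    field_simp, div_le_div_iff₀ (by positivity) (by positivity)]
  calc A ^ 5 * (E ^ 2 * (A * v) ^ 2) = E ^ 2 * (1 * (A ^ 7 * v ^ 2)) := by ring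
    _ ≤ E ^ 2 * (A ^ 4 * v ^ 4) := mul_le_mul_of_nonneg_left
      (mon hA hv (by norm_num) _ _ _ _ (by norm_num) (by norm_num)) (by positivity)
    _ = _ := by ring

lemma n3 (n : ℕ) : A ^ 5 * ((1 / (A * v) ^ n) ^ 2 / ((A * v) ^ 4) ^ 3)
    ≤ 1 / ((A * v) ^ 2) ^ (n + 1) / ((A * v) ^ 2) ^ 4 := by
  have hA0 : 0 < A := by linarith
  have hv0 : 0 < v := lt_of_lt_of_le (by positivity) hv
  have hE : 0 < (A * v) ^ n := by positivity
  rw [pow_succ _ n, ← pow_mul (A * v) 2 n, mul_comm 2 n, pow_mul, div_div 1]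
  generalize (A * v) ^ n = E at hE
  rw [show A ^ 5 * ((1 / E) ^ 2 / ((A * v) ^ 4) ^ 3) = A ^ 5 / (E ^ 2 * (A * v) ^ 12) by
    field_simp, div_le_div_iff₀ (by positivity) (by positivity)]
  calc A ^ 5 * (E ^ 2 * (A * v) ^ 2 * ((A * v) ^ 2) ^ 4)
      = E ^ 2 * (1 * (A ^ 15 * v ^ 10)) := by ring
    _ ≤ E ^ 2 * (A ^ 12 * v ^ 12) := mul_le_mul_of_nonneg_left
      (mon hA hv (by norm_num) _ _ _ _ (by norm_num) (by norm_num)) (by positivity)
    _ = _ := by ring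

lemma n4 {θ : ℝ} (hθ : 0 ≤ θ) : A ^ 4 * (3 * (A * v) ^ 16 * θ) ≤ (A * v) ^ 20 * θ := by
  calc A ^ 4 * (3 * (A * v) ^ 16 * θ) = 3 * (A ^ 20 * v ^ 16) * θ := by ring
    _ ≤ A ^ 20 * v ^ 20 * θ := mul_le_mul_of_nonneg_right
      (mon hA hv (by norm_num) _ _ _ _ (by norm_num) (by norm_num)) hθ
    _ = _ := by ring

lemma n5 {θ : ℝ} {n : ℕ} (hn : 62 ≤ n) (hθ : θ ≤ 1 / (A * v) ^ (2 * n + 30)) :
    (A * v) ^ 20 * θ ≤ 1 / ((A * v) ^ 2) ^ 64 := by
  have hw := one_le_w hA hv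
  generalize A * v = w at *
  have h1 : 1 / w ^ (2 * n + 30) ≤ 1 / w ^ 148 :=
    one_div_le_one_div_of_le (by positivity) (pow_le_pow_right₀ hw (by omega))
  calc w ^ 20 * θ ≤ w ^ 20 * (1 / w ^ 148) := by gcongr; exact hθ.trans h1
    _ = _ := by field_simp

end

lemma lev_step {q : ℝ} {A v m n : ℕ} {θ : ℝ} (hA : 100 ≤ A) (hv : A ^ 99 ≤ v)
    (hK : 2 ^ (m + 1) + 1 ≤ A) (hn : 62 ≤ n)
    (hexp : Real.exp (-((A : ℝ) ^ 2 / 2)) ≤ θ) (hneg : (1 / (A : ℝ)) ^ (m + 1) ≤ θ)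
    (hθ : θ * (A * v) ^ (2 * n + 30) ≤ 1) (h : Lev q A v m n θ) :
    Lev q A (A * v ^ 2) m (n + 1) ((A * v) ^ 20 * θ) := by
  obtain ⟨h', g, x, γ, hne, hlen, hlen', hγ, hI, m1, m2⟩ := h
  have hA' : (100 : ℝ) ≤ A := by exact_mod_cast hA
  have hv' : (A : ℝ) ^ 99 ≤ v := by exact_mod_cast hv
  have hA0 : (0 : ℝ) < A := by linarith
  have hv0 : (0 : ℝ) < v := lt_of_lt_of_le (by positivity) hv'
  have hA1 : 0 < A := by omega
  have hv1 : 0 < v := by exact_mod_cast hv0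
  have hm : m + 1 ≤ A := by have := Nat.lt_two_pow_self (n := m + 1); omega
  have hθ0 := hI.dG.theta_nonneg
  have hw := one_le_w hA' hv'
  have hθ1 : θ ≤ 1 / (A * v) ^ (2 * n + 30) := by rwa [le_div_iff₀ (by positivity)]
  have hN := num_step (γ := γ) hA hv hK hn hγ hexp hneg (hθ1.trans (by
    rw [div_pow, one_pow, ← pow_mul]
    exact one_div_le_one_div_of_le (by positivity) (pow_le_pow_right₀ hw (by omega))))
  have k := step hN hI (m1.mixAt (by positivity) (by positivity) (le_of_eq (by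
      push_cast; field_simp)))
    (m2.mixAt (N := A ^ 60 * v ^ 64) (ζ := 1 / A ^ 3) (by positivity) (by positivity)
      (le_of_eq (by push_cast; field_simp))) (by
      have : (2 : ℝ) ^ (m + 1) ≤ A := by exact_mod_cast (by omega : 2 ^ (m + 1) ≤ A)
      rw [mul_one_div, div_le_div_iff₀ (by positivity) hA0]
      nlinarith) (by
      calc (m + 1) * (A ^ 60 * v ^ 64) ≤ A * (A ^ 60 * v ^ 64) := by gcongr
        _ = _ := by ring)
  rw [← map_tmw, ← map_tmw] at k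
  have ew : ((A : ℝ) * ((A * v ^ 2 : ℕ) : ℝ)) = (A * v) ^ 2 := by push_cast; ring
  have hv2 : A ^ 99 ≤ A * v ^ 2 := hv.trans (by nlinarith)
  have hP : A ^ 61 * v ^ 64 + 1 + (2 ^ (m + 1) + 1) + A ^ 61 * v ^ 64
      ≤ 3 * (A ^ 61 * v ^ 64) := by
    have := monN hA hv (c := 2) (by norm_num) 1 0 61 64 (by norm_num) (by norm_num)
    simp only [pow_one, pow_zero, mul_one] at this
    omega
  have k2 := k.mono (n1 hA' hv' hn) (n2 hA' hv' n) (n3 hA' hv' n) (n4 hA' hv' hθ0)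
  have k3 := n5 hA' hv' hn hθ1
  rw [← ew] at k2 k3
  have m3 : Mix (tr q g) ((A : ℝ) ^ 22 * ((A * v ^ 2 : ℕ) : ℝ) ^ 32) :=
    m2.mono (le_of_eq (by push_cast; ring))
  refine ⟨g, _, _, _, tmw_ne hlen.symm hne _ _,
    by rw [length_tmw hlen rfl, length_tmw rfl hlen], ?_, ?_, k2, m3, ?_⟩
  · rw [length_tmw rfl hlen]
    calc _ ≤ 3 * (A ^ 61 * v ^ 64) * (A * v) ^ 64 := by gcongr
      _ = 3 * (A ^ 125 * v ^ 128) := by ring
      _ ≤ A ^ 128 * v ^ 128 := monN hA hv (by norm_num) _ _ _ _ (by norm_num) (by norm_num)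
      _ = _ := by ring
  · rw [show A ^ 29 * (A * v ^ 2) ^ 32 = A ^ 61 * v ^ 64 by ring]
    exact Nat.le_add_left _ _
  · exact inherit' k2.sH k2.sG hA hv2 m3 (by positivity) (hP.trans (le_of_eq (by ring))) k2.dG k3

end

end Vale.Agent.P321
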