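import Vale.Agent.P321.Good

/-! One step of the recursion. -/

namespace Vale.Agent.P321

open MonoidAlgebra Finset

noncomputable section

variable {M : Type*} [Monoid M]

/-- numerical hypotheses of the step -/
structure Num (m g R J N l P : ℕ) (κ ε θ s A ζ L : ℝ) : Prop where
  hR : R = 2 ^ (m + 1) + 1
  hA : 100 ≤ A
  hKA : (R : ℝ) ≤ A
  hs : A ^ 2 ≤ s
  hJ : s ^ 2 ≤ J
  hε : 0 < ε
  hεs : ε ≤ 1 / s
  hθε : θ ≤ ε ^ 2
  hexp : Real.exp (-(A ^ 2 / 2)) ≤ θ
  hneg : (1 / A) ^ (m + 1) ≤ θ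
  hζ0 : 0 ≤ ζ
  hζ : 2 * J * R * ζ ≤ 1 / A
  hN : (m + 1) * N ≤ g * l
  hsp : (m + 1) * ((J - 1) * R) ≤ g
  hgap : J * R ≤ g
  hl : l ≤ P
  hκ : 0 ≤ κ
  hL : (l : ℝ) + R + l ≤ L
  hLκ : L * (κ + θ) ≤ 1 / 4
  hLs : L * κ ≤ 1 / s ^ 3

section
variable {m g R J N l P : ℕ} {κ ε θ s A ζ L : ℝ} (h : Num m g R J N l P κ ε θ s A ζ L)
include h

lemma Num.K_le : (2 : ℝ) ^ (m + 1) ≤ A := by
  have := h.hKA
  rw [h.hR] at this
  push_cast at this
  linarith
lemma Num.s_ge : 10000 ≤ s := by have := h.hA; have := h.hs; nlinarith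
lemma Num.θ_pos : 0 < θ := lt_of_lt_of_le (Real.exp_pos _) h.hexp
lemma Num.εA : ε * A ^ 2 ≤ 1 := by
  have := h.s_ge
  have h1 := h.hεs
  rw [le_div_iff₀ (by linarith)] at h1
  nlinarith [h.hs, h.hε]
lemma Num.ε_le : ε ≤ 1 / 10000 := by
  have := h.s_ge
  exact h.hεs.trans (one_div_le_one_div_of_le (by norm_num) this)
lemma Num.θ_le : θ ≤ ε / 10000 := by
  have := h.ε_le; have := h.hθε; have := h.hε; nlinarith
lemma Num.θ_le' : θ ≤ ε / s := by
  have := h.hθε
  have h1 := mul_le_mul_of_nonneg_left h.hεs h.hε.le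
  rw [mul_one_div] at h1
  nlinarith
lemma Num.εs_le : ε / s ≤ ε / 10000 :=
  div_le_div_of_nonneg_left h.hε.le (by norm_num) h.s_ge
lemma Num.R_le : (R : ℝ) ≤ L := by
  have := h.hL
  have : (0 : ℝ) ≤ l := by positivity
  linarith
lemma Num.one_le_R : (1 : ℝ) ≤ R := by
  rw [h.hR]; push_cast
  have : (0 : ℝ) < 2 ^ (m + 1) := by positivity
  linarith
lemma Num.one_le_L : 1 ≤ L := h.one_le_R.trans h.R_le
lemma Num.J_pos : 0 < J := by
  have := h.s_ge
  have : (0 : ℝ) < J := lt_of_lt_of_le (by positivity) h.hJ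
  exact_mod_cast this
lemma Num.neg : (2 * J * R * ζ) ^ (m + 1) ≤ θ :=
  (pow_le_pow_left₀ (by have := h.hζ0; positivity) h.hζ _).trans h.hneg
lemma Num.κ_le : κ ≤ 1 / 4 := by
  have := h.one_le_L; have := h.hLκ; have := h.θ_pos; have := h.hκ; nlinarith
lemma Num.Aθ : A * θ ≤ 1 / 1000000 := by
  have := h.εA; have := h.hθε; have := h.ε_le; have := h.hA; have := h.hε
  have : ε * A ≤ 1 / 100 := by nlinarith
  nlinarith
lemma Num.s3 : 1 / s ^ 3 ≤ 1 / s := by
  have := h.s_ge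
  exact one_div_le_one_div_of_le (by linarith) (le_self_pow₀ (by linarith) (by norm_num))
lemma Num.As : A * A / s ≤ 1 := by
  have := h.s_ge
  rw [div_le_one (by linarith)]; nlinarith [h.hs]

variable {H G Y F : Alg M} {Q₁ Q₂ : ℕ} (hH : St H) (hG : St G)
  (dG : Dom (G - H ^ g) (H ^ g) κ θ) (hm : MixAt H N ζ) (hQ : Q₁ + R + Q₂ = g)
  (hY : Dom Y (H ^ R) (2 * ε) θ) (hY0 : mass Y = 0) (hF : Dom F (H ^ g) (3 * (ε / s)) θ)
include hH hG dG hQ hY

omit h hG dG in
lemma core_H : Dom (H ^ Q₁ * Y * H ^ Q₂) (H ^ g) (2 * ε) θ := by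
  have := hY.sand (hH.pow Q₁) (hH.pow Q₂)
  rwa [← pow_add, ← pow_add, hQ] at this

lemma core_G : Dom (H ^ Q₁ * Y * H ^ Q₂) G (4 * ε) (2 * θ) := by
  have r := dG.ref (hH.1.pow g) hG.1 (by linarith [h.κ_le])
  have := h.ε_le; have := h.hε; have := h.θ_pos
  exact ((core_H hH hQ hY).trans r (by positivity)).mono hG.1 (by linarith) (by nlinarith)

include hF in
omit hQ hY in
lemma spread_G : Dom F G (6 * (ε / s)) (2 * θ) := by
  have r := dG.ref (hH.1.pow g) hG.1 (by linarith [h.κ_le])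
  have := h.ε_le; have := h.hε; have := h.θ_pos; have := h.εs_le; have := h.s_ge
  exact (hF.trans r (by positivity)).mono hG.1 (by linarith) (by nlinarith)

include hF in
lemma full_G : Dom (H ^ Q₁ * Y * H ^ Q₂ + F) G (5 * ε) (4 * θ) := by
  have := h.εs_le; have := h.hε
  exact ((core_G h hH hG dG hQ hY).add (spread_G h hH hG dG hF)).mono hG.1 (by linarith)
    (by linarith)

include hm hY0 hF

lemma single_good {t c : ℕ} (htc : t + c + 1 = 2 ^ (m + 1)) :
    Good G P R (G ^ t * (H ^ Q₁ * Y * H ^ Q₂ + F) * G ^ (c + 1)) (7 * A ^ 2 * (ε / s))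
      (20 * (ε / s ^ 3)) (7 * A * (L * θ)) := by
  have hε := h.hε; have hθ := h.θ_pos; have hs := h.s_ge; have hA := h.hA
  have hε1 := h.ε_le; have hθ1 := h.θ_le; have hK := h.K_le; have hAθ := h.Aθ
  have hL1 := h.one_le_L; have hκ := h.hκ; have hAs := h.As
  have eR : t + 1 + (c + 1) = R := by rw [h.hR]; omega
  have sμ := hH.pow g
  have av := hY.avg (by positivity) (hH.pow R) hY0 (by linarith) h.hJ (t := A) (by linarith)
  have av' : Dom (AV (H ^ R) J Y) (H ^ (R + (J - 1) * R)) (3 * ε * A / s) (3 * θ) := by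
    refine (av.mono ((hH.pow _).pow _).1 ?_ ?_).of_eq rfl ?_
    · gcongr; linarith
    · have := mul_le_mul_of_nonneg_left h.hexp (show 0 ≤ 2 * (2 * ε + θ) by positivity)
      nlinarith
    · rw [← pow_mul]; congr 1
      obtain ⟨j, hj⟩ : ∃ j, J = j + 1 := ⟨J - 1, by have := h.J_pos; omega⟩
      rw [hj, Nat.add_sub_cancel]; ring
  have k1 : 2 ^ (m + 1) * (3 * ε * A / s) ≤ 3 * A ^ 2 * (ε / s) := by
    calc 2 ^ (m + 1) * (3 * ε * A / s) ≤ A * (3 * ε * A / s) := by gcongr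
      _ = 3 * A ^ 2 * (ε / s) := by ring
  have k2 : 3 * A ^ 2 * (ε / s) ≤ 3 * ε := by
    rw [show 3 * A ^ 2 * (ε / s) = 3 * ε * (A * A / s) by ring]; nlinarith
  have b := block (P := P) (a := g * t + Q₁) (b := Q₂ + g * (c + 1)) (Θ := 3 * A * θ) hH hG hκ dG
    h.hLκ h.hL hL1 hm h.J_pos h.neg h.hN h.hl (hY.mono (hH.1.pow _) le_rfl (by nlinarith))
    (by positivity) (by positivity) av' (by nlinarith) (by linarith) (by linarith)
    (by calc _ = g * t + (Q₁ + R + Q₂) + g * (c + 1) := by ring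
          _ = g * (t + 1 + (c + 1)) := by rw [hQ]; ring
          _ = g * R := by rw [eR]) (h.hsp.trans (by rw [mul_add, mul_one]; omega))
  have w := swap sμ hG hκ dG h.hLκ (a := t) (b := c + 1) (R := 1)
    (by have := h.R_le; rw [← eR] at this; exact_mod_cast this)
    (V := H ^ Q₁ * Y * H ^ Q₂) (by rw [pow_one]; exact core_H hH hQ hY) (by positivity)
    (by linarith) (by linarith)
  have f := (spread_G h hH hG dG hF).sand (hG.pow t) (hG.pow (c + 1))
  rw [← pow_succ, ← pow_add, eR] at f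
  rw [eR] at w
  have hLs := h.hLs
  have hs3 := h.s3
  refine (((b.add (Good.of_dom hG w)).add (Good.of_dom hG f)).mono hG ?_ ?_ ?_).of_eq ?_
  · have e1 : L * κ * ε ≤ ε / s := by
      rw [div_eq_mul_one_div ε s, mul_comm ε]; gcongr; linarith
    have e2 : 0 ≤ ε / s := by positivity
    have e3 : 14 * (ε / s) ≤ A ^ 2 * (ε / s) := by gcongr; nlinarith
    nlinarith
  · have e1 : L * κ * (5 * ε) ≤ 1 / s ^ 3 * (5 * ε) := by gcongr
    have e2 : L * κ * (2 * ε + 2 ^ (m + 1) * (3 * ε * A / s)) ≤ L * κ * (5 * ε) := by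
      gcongr; linarith
    rw [div_eq_mul_one_div ε]
    nlinarith
  · have e1 : θ ≤ L * θ := by nlinarith
    have e2 : A * θ ≤ A * (L * θ) := by gcongr
    have e3 : 100 * (L * θ) ≤ A * (L * θ) := by gcongr
    nlinarith
  · simp only [← pow_mul, pow_add, mul_add, add_mul, mul_assoc]
    abel

set_option maxHeartbeats 1000000 in
lemma pair_good {t b c : ℕ} (htc : t + b + c + 2 = 2 ^ (m + 1)) :
    Good G P R (G ^ t * ((H ^ Q₁ * Y * H ^ Q₂ + F) * G ^ b * (H ^ Q₁ * Y * H ^ Q₂ + F))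
      * G ^ (c + 1)) (15 * A ^ 2 * (ε ^ 2 / s)) (44 * (ε ^ 2 / s ^ 3)) (15 * A * (L * θ)) := by
  have hε := h.hε; have hθ := h.θ_pos; have hs := h.s_ge; have hA := h.hA
  have hε1 := h.ε_le; have hθ1 := h.θ_le; have hK := h.K_le; have hAθ := h.Aθ
  have hL1 := h.one_le_L; have hκ := h.hκ; have hAs := h.As; have hθ2 := h.hθε
  have hεs := h.εs_le; have hLs := h.hLs; have hs3 := h.s3; have hLκ := h.hLκ
  have eR : t + (b + 2) + (c + 1) = R := by rw [h.hR]; omega
  have hb : (b : ℝ) ≤ L := le_trans (by exact_mod_cast (by omega : b ≤ R)) h.R_le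
  have sμ := hH.pow g
  obtain ⟨j, hj⟩ : ∃ j, J = j + 1 := ⟨J - 1, by have := h.J_pos; omega⟩
  have hj' : J - 1 = j := by omega
  have hgap : (J - 1) * R ≤ Q₂ + g * b + Q₁ := by
    have := h.hgap
    rw [hj', hj, ← hQ] at *
    nlinarith [Nat.zero_le (g * b)]
  obtain ⟨b', hb'⟩ := Nat.exists_eq_add_of_le hgap
  have av := avg_pair hH hY hY (by positivity) (by linarith) (by linarith) hY0 (by linarith) h.hJ
    (t := A) (by linarith) b'
  rw [← hb'] at av
  have av' : Dom (AV (H ^ R) J (Y * H ^ (Q₂ + g * b + Q₁) * Y))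
      (H ^ (R + (Q₂ + g * b + Q₁) + R + (J - 1) * R)) (7 * ε ^ 2 * A / s) (7 * θ) := by
    refine (av.mono (hH.pow _).1 ?_ ?_).of_eq rfl ?_
    · gcongr; nlinarith
    · have := mul_le_mul_of_nonneg_left h.hexp (show 0 ≤ 2 * ((2 * ε) ^ 2 + 3 * θ) by positivity)
      have : (2 * ε) ^ 2 + 3 * θ ≤ 1 / 2 := by nlinarith
      nlinarith
    · rw [hb', hj', hj]; congr 1; ring
  have z : Dom (Y * H ^ (Q₂ + g * b + Q₁) * Y) (H ^ (R + (Q₂ + g * b + Q₁) + R)) (4 * ε ^ 2)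
      (7 * A * θ) := by
    have := (hY.mul_right (hH.pow (Q₂ + g * b + Q₁))).mul' hY ((hH.pow _).mul (hH.pow _))
      (hH.pow _) (by positivity) (by positivity) (by linarith) (by linarith) (Or.inl (by linarith))
    rw [← pow_add, ← pow_add] at this
    exact this.mono (hH.1.pow _) (by nlinarith) (by nlinarith)
  have k1 : 2 ^ (m + 1) * (7 * ε ^ 2 * A / s) ≤ 7 * A ^ 2 * (ε ^ 2 / s) := by
    calc 2 ^ (m + 1) * (7 * ε ^ 2 * A / s) ≤ A * (7 * ε ^ 2 * A / s) := by gcongr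
      _ = 7 * A ^ 2 * (ε ^ 2 / s) := by ring
  have k2 : 7 * A ^ 2 * (ε ^ 2 / s) ≤ 7 * ε ^ 2 := by
    rw [show 7 * A ^ 2 * (ε ^ 2 / s) = 7 * ε ^ 2 * (A * A / s) by ring]
    nlinarith [sq_nonneg ε]
  have hε2 : ε ^ 2 ≤ 1 / 10000 := by nlinarith
  have bl := block (P := P) (a := g * t + Q₁) (b := Q₂ + g * (c + 1)) (Θ := 7 * A * θ) hH hG hκ dG
    hLκ h.hL hL1 hm h.J_pos h.neg h.hN h.hl z
    (by positivity) (by positivity) av' (by nlinarith) (by linarith) (by linarith)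
    (by calc _ = g * t + (Q₁ + R + Q₂) + g * b + (Q₁ + R + Q₂) + g * (c + 1) := by ring
          _ = g * (t + (b + 2) + (c + 1)) := by rw [hQ]; ring
          _ = g * R := by rw [eR]) (h.hsp.trans (by rw [mul_add, mul_one]; omega))
  have cH := core_H hH hQ hY
  have cG := core_G h hH hG dG hQ hY
  have fG := spread_G h hH hG dG hF
  have eG := full_G h hH hG dG hQ hY hF
  generalize hE : H ^ Q₁ * Y * H ^ Q₂ = E at cH cG eG
  have v : Dom (E * (H ^ g) ^ b * E) ((H ^ g) ^ (b + 2)) (4 * ε ^ 2) (4 * θ) := by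
    have := (cH.mul_right (sμ.pow b)).mul' cH (sμ.mul (sμ.pow _)) sμ (by positivity)
      (by positivity) (by linarith) (by linarith) (Or.inl (by linarith))
    rw [← pow_succ', ← pow_succ] at this
    exact this.mono (sμ.1.pow _) (by nlinarith) (by linarith)
  have w := swap sμ hG hκ dG hLκ (a := t) (b := c + 1) (R := b + 2)
    (by have := h.R_le; rw [← eR] at this; exact_mod_cast this) v (by positivity)
    (by linarith) (by linarith)
  rw [eR] at w
  have hLθ : 0 ≤ L * θ := by positivity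
  have hLk : 0 ≤ L * κ := by positivity
  have hLk1 : L * κ ≤ 1 / 4 := by nlinarith
  have d : Dom (G ^ b - (H ^ g) ^ b) (G ^ b) (4 * (L * κ)) (8 * (L * θ)) := by
    have hb0 : (0 : ℝ) ≤ b := by positivity
    have e1 : b * κ ≤ L * κ := by gcongr
    have e2 : b * θ ≤ L * θ := by gcongr
    have e3 : b * κ * (L * θ) ≤ 1 / 4 * (L * θ) := by gcongr; linarith
    refine ((dom_pow_sub sμ hκ dG hLκ hb).trans (dom_pow_ref sμ hG hκ dG hLκ hb)
      (by positivity)).mono (hG.1.pow _) (by linarith) (by linarith)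
  have mid : Dom (G ^ t * (E * (G ^ b - (H ^ g) ^ b) * E) * G ^ (c + 1)) (G ^ R)
      (64 * (L * κ * ε ^ 2)) (44 * (L * θ)) := by
    have e1 : θ ≤ L * θ := by nlinarith
    have := (((cG.mul' d hG (hG.pow _) (by positivity) (by positivity) (by linarith) (by linarith)
      (Or.inl (by linarith))).mul' cG (hG.mul (hG.pow _)) hG (by positivity) (by positivity)
      (by nlinarith) (by linarith) (Or.inr (by linarith))).sand (hG.pow t) (hG.pow (c + 1)))
    rw [← pow_succ', ← pow_succ, ← pow_add, ← pow_add, eR] at this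
    exact this.mono (hG.1.pow _) (le_of_eq (by ring)) (by linarith)
  have cr : Dom (G ^ t * ((E + F) * G ^ b * F + F * G ^ b * E) * G ^ (c + 1)) (G ^ R)
      (54 * (ε ^ 2 / s)) (20 * θ) := by
    have a1 := (eG.mul_right (hG.pow b)).mul' fG (hG.mul (hG.pow _)) hG (by positivity)
      (by positivity) (by linarith) (by linarith) (Or.inl (by linarith))
    have a2 := (fG.mul_right (hG.pow b)).mul' cG (hG.mul (hG.pow _)) hG (by positivity)
      (by positivity) (by linarith) (by linarith) (Or.inl (by linarith))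
    have := (a1.add a2).sand (hG.pow t) (hG.pow (c + 1))
    rw [← pow_succ', ← pow_succ, ← pow_add, ← pow_add, eR] at this
    exact this.mono (hG.1.pow _) (le_of_eq (by ring)) (by linarith)
  refine ((((bl.add (Good.of_dom hG w)).add (Good.of_dom hG mid)).add (Good.of_dom hG cr)).mono
    hG ?_ ?_ ?_).of_eq ?_
  · have e1 : L * κ * ε ^ 2 ≤ ε ^ 2 / s := by
      rw [div_eq_mul_one_div (ε ^ 2) s, mul_comm (ε ^ 2)]; gcongr; linarith
    have e2 : 0 ≤ ε ^ 2 / s := by positivity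
    have e3 : 134 * (ε ^ 2 / s) ≤ A ^ 2 * (ε ^ 2 / s) := by gcongr; nlinarith
    nlinarith
  · have e1 : L * κ * (11 * ε ^ 2) ≤ 1 / s ^ 3 * (11 * ε ^ 2) := by gcongr
    have e2 : L * κ * (4 * ε ^ 2 + 2 ^ (m + 1) * (7 * ε ^ 2 * A / s)) ≤ L * κ * (11 * ε ^ 2) := by
      gcongr; linarith
    rw [div_eq_mul_one_div (ε ^ 2)]
    nlinarith
  · have e1 : θ ≤ L * θ := by nlinarith
    have e2 : A * θ ≤ A * (L * θ) := by gcongr
    have e3 : 100 * (L * θ) ≤ A * (L * θ) := by gcongr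
    nlinarith
  · have e : H ^ (g * t + Q₁) * (Y * H ^ (Q₂ + g * b + Q₁) * Y) * H ^ (Q₂ + g * (c + 1))
        = (H ^ g) ^ t * (E * (H ^ g) ^ b * E) * (H ^ g) ^ (c + 1) := by
      rw [← hE, ← pow_mul, ← pow_mul, ← pow_mul]
      generalize g * (c + 1) = x
      simp only [pow_add, mul_assoc]
    rw [e]
    noncomm_ring

end

end

end Vale.Agent.P321
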