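import Vale.Agent.P321.Step

/-! One step of the recursion: assembly. -/

namespace Vale.Agent.P321

open MonoidAlgebra Finset

noncomputable section

variable {M : Type*} [Monoid M]

/-- the invariant of the recursion -/
structure Inv (H G X : Alg M) (g R : ℕ) (κ ε φ θ : ℝ) : Prop where
  sH : St H
  sG : St G
  sX : St X
  dG : Dom (G - H ^ g) (H ^ g) κ θ
  loc : ∃ Q₁ Q₂ Y, Q₁ + R + Q₂ = g ∧ Dom Y (H ^ R) ε θ ∧
    Dom (X - G - H ^ Q₁ * Y * H ^ Q₂) (H ^ g) φ θ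

lemma Inv.mono {H G X : Alg M} {g R : ℕ} {κ ε φ θ κ' ε' φ' θ' : ℝ} (h : Inv H G X g R κ ε φ θ)
    (h1 : κ ≤ κ') (h2 : ε ≤ ε') (h3 : φ ≤ φ') (h4 : θ ≤ θ') : Inv H G X g R κ' ε' φ' θ' := by
  obtain ⟨Q₁, Q₂, Y, a, b, c⟩ := h.loc
  exact ⟨h.sH, h.sG, h.sX, h.dG.mono (h.sH.1.pow _) h1 h4, Q₁, Q₂, Y, a,
    b.mono (h.sH.1.pow _) h2 h4, c.mono (h.sH.1.pow _) h3 h4⟩

lemma Inv.nrm_le {H G X : Alg M} {g R : ℕ} {κ ε φ θ : ℝ} (h : Inv H G X g R κ ε φ θ) :
    nrm (X - G) ≤ ε + φ + 2 * θ := by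
  obtain ⟨Q₁, Q₂, Y, a, b, c⟩ := h.loc
  have h1 := (nrm_sand (h.sH.pow Q₁) (h.sH.pow Q₂) Y).trans (b.nrm_le (h.sH.pow _))
  have h2 := c.nrm_le (h.sH.pow _)
  have h3 := nrm_add_le (X - G - H ^ Q₁ * Y * H ^ Q₂) (H ^ Q₁ * Y * H ^ Q₂)
  rw [sub_add_cancel] at h3
  linarith

/-- padded Thue-Morse word -/
def tmw {α : Type*} [Monoid α] (G U V : α) (m P : ℕ) : α :=
  G ^ (P + 1) * wd (fun t => if tb m t then V else U) (2 ^ m) * G ^ (P + 1)

lemma map_tmw {α β : Type*} [Monoid α] [Monoid β] (f : α →* β) (G U V : α) (m P : ℕ) :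
    f (tmw G U V m P) = tmw (f G) (f U) (f V) m P := by
  simp only [tmw, map_mul, map_pow, map_wd, apply_ite f]

lemma st_tmw {G U V : Alg M} (hG : St G) (hU : St U) (hV : St V) (m P : ℕ) :
    St (tmw G U V m P) :=
  ((hG.pow _).mul (st_wd (fun t => by split_ifs <;> assumption) _)).mul (hG.pow _)

lemma s1_diff (G U V : Alg M) (m : ℕ) :
    s1 G (fun t => if tb m t then U else V) (2 ^ m) - s1 G (fun t => if tb m t then V else U) (2 ^ m)
      = TS G m (V - U) := by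
  rw [s1, s1, TS, ← Finset.sum_sub_distrib]
  refine Finset.sum_congr rfl fun t _ => ?_
  unfold sg
  split_ifs
  · rw [neg_one_smul]; noncomm_ring
  · rw [one_smul]; noncomm_ring

lemma TS_good {G : Alg M} (hG : St G) {N : ℕ} {ζ A θ : ℝ} (hm : MixAt G N ζ) {m P : ℕ}
    (R : ℕ) (hζ : 2 * 2 ^ m * ζ ≤ 1 / A) (hN : m * N ≤ P) (hθ : (1 / A) ^ m ≤ θ) {E : Alg M}
    (hE : nrm E ≤ 1) : Good G P R (TS G m E * G) 0 0 θ := by
  refine Good.of_nrm hG ?_
  obtain ⟨x, rfl⟩ := Nat.exists_eq_add_of_le hN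
  have e : G ^ (m * N + x + 1) * (TS G m E * G) * G ^ (m * N + x)
      = G ^ (x + 1) * (G ^ (m * N) * TS G m E * G ^ (m * N)) * G ^ (x + 1) := by
    rw [mul_assoc _ (_ * G), mul_assoc _ G, ← pow_succ']
    simp only [← mul_assoc, ← pow_add]
    simp only [mul_assoc, ← pow_add]
    congr 2; ring
  rw [e]
  refine (nrm_sand (hG.pow _) (hG.pow _) _).trans ((TS_bound hG hm E m le_rfl).trans ?_)
  have h0 : 0 ≤ 2 * 2 ^ m * ζ := by have := hm.nonneg; positivity
  have h1 := (pow_le_pow_left₀ h0 hζ m).trans hθ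
  have h2 := pow_nonneg h0 m
  have := nrm_nonneg E
  nlinarith

lemma s2_good {G : Alg M} (hG : St G) {P R K : ℕ} {B B' : ℕ → Alg M} {ε φ θ : ℝ} (h1 : 0 ≤ ε)
    (h2 : 0 ≤ φ) (h3 : 0 ≤ θ)
    (h : ∀ t b c, t + b + c + 2 = K → Good G P R
      (G ^ t * ((B' t - G) * G ^ b * (B' (b + (t + 1)) - G)
        - (B t - G) * G ^ b * (B (b + (t + 1)) - G)) * G ^ (c + 1)) ε φ θ) :
    Good G P R ((s2 G B' K - s2 G B K) * G) (K ^ 2 * ε) (K ^ 2 * φ) (K ^ 2 * θ) := by
  have := Good.sum (s := range K) (P := P) (R := R) hG (ε := K * ε) (φ := K * φ) (θ := K * θ)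
    (Z := fun t => (G ^ t * (B' t - G) * s1 G (fun i => B' (i + (t + 1))) (K - 1 - t)
      - G ^ t * (B t - G) * s1 G (fun i => B (i + (t + 1))) (K - 1 - t)) * G) fun t ht => by
    have ht := Finset.mem_range.1 ht
    have k := Good.sum (s := range (K - 1 - t)) hG fun b hb =>
      h t b (K - 1 - t - 1 - b) (by have := Finset.mem_range.1 hb; omega)
    have hn : ((K - 1 - t : ℕ) : ℝ) ≤ K := by exact_mod_cast (by omega : K - 1 - t ≤ K)
    rw [card_range] at k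
    refine (k.mono hG (by gcongr) (by gcongr) (by gcongr)).of_eq ?_
    rw [s1, s1, Finset.mul_sum, Finset.mul_sum, ← Finset.sum_sub_distrib, Finset.sum_mul]
    refine Finset.sum_congr rfl fun b _ => ?_
    rw [pow_succ]
    noncomm_ring
  rw [card_range] at this
  refine (this.mono hG (le_of_eq (by ring)) (le_of_eq (by ring)) (le_of_eq (by ring))).of_eq ?_
  rw [s2, s2, ← Finset.sum_sub_distrib, Finset.sum_mul]

lemma inv_of_good {G G' X' Z : Alg M} {P R : ℕ} {κ ε φ θ : ℝ} (hG : St G) (hG' : St G')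
    (hX' : St X') (d : Dom (G' - G ^ (P + 1 + R + P)) (G ^ (P + 1 + R + P)) κ θ)
    (e : X' - G' = G ^ (P + 1) * Z * G ^ P) (h : Good G P R Z ε φ θ) :
    Inv G G' X' (P + 1 + R + P) R κ ε φ θ := by
  obtain ⟨Y, a, b⟩ := h
  exact ⟨hG, hG', hX', d, P + 1, P, Y, rfl, a, b.of_eq (by rw [e]; noncomm_ring) rfl⟩

lemma pad_pow (G : Alg M) (P K : ℕ) :
    G ^ (P + 1 + (K + 1) + P) = G ^ (P + 1) * G ^ K * G ^ (P + 1) := by
  rw [← pow_add, ← pow_add]; congr 1; ring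

lemma pad_sub (G W W' : Alg M) (P : ℕ) :
    G ^ (P + 1) * W * G ^ (P + 1) - G ^ (P + 1) * W' * G ^ (P + 1)
      = G ^ (P + 1) * ((W - W') * G) * G ^ P := by
  rw [mul_assoc _ (_ * G), mul_assoc _ G, ← pow_succ']
  noncomm_ring

set_option maxHeartbeats 1000000 in
theorem step {m g R J N l P : ℕ} {κ ε θ s A ζ L : ℝ} (h : Num m g R J N l P κ ε θ s A ζ L)
    {H G X : Alg M} (hI : Inv H G X g R κ ε (ε / s) θ) (hm : MixAt H N ζ) {NG : ℕ} {ζG : ℝ}
    (hmG : MixAt G NG ζG) (hζG : 2 * 2 ^ (m + 1) * ζG ≤ 1 / A) (hNG : (m + 1) * NG ≤ P) :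
    Inv G (tmw G G X (m + 1) P) (tmw G X G (m + 1) P) (P + 1 + R + P) R (A ^ 4 * (ε / s))
      (A ^ 5 * (ε ^ 2 / s)) (A ^ 5 * (ε ^ 2 / s ^ 3)) (A ^ 4 * (L * θ)) := by
  obtain ⟨Q₁, Q₂, Y', hQ, y1, y2⟩ := hI.loc
  have hH := hI.sH; have hG := hI.sG; have hX := hI.sX; have dG := hI.dG
  have hε := h.hε; have hθ := h.θ_pos; have hs := h.s_ge; have hA := h.hA
  have hε1 := h.ε_le; have hθ1 := h.θ_le; have hK := h.K_le; have hθ2 := h.θ_le'
  have hL1 := h.one_le_L; have hεs := h.εs_le; have hεA := h.εA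
  have hm1 : |mass Y'| ≤ 2 * (ε / s) := by
    have k1 := abs_mass_le_nrm (X - G - H ^ Q₁ * Y' * H ^ Q₂)
    have k2 := y2.nrm_le (hH.pow g)
    simp only [map_sub, mass_mul, mass_pow, hH.2, hG.2, hX.2, one_pow, one_mul, mul_one, sub_self,
      zero_sub, abs_neg] at k1
    linarith
  obtain ⟨Y, hYd⟩ : ∃ Y, Y = Y' - mass Y' • H ^ R := ⟨_, rfl⟩
  obtain ⟨F, hFd⟩ : ∃ F, F = X - G - H ^ Q₁ * Y' * H ^ Q₂ + mass Y' • H ^ g := ⟨_, rfl⟩
  have hY : Dom Y (H ^ R) (2 * ε) θ := by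
    rw [hYd]
    exact (y1.sub ((Dom.self (hH.1.pow R)).smul (mass Y'))).mono (hH.1.pow _) (by linarith)
      (by linarith)
  have hY0 : mass Y = 0 := by simp [hYd, (hH.pow R).2]
  have hF : Dom F (H ^ g) (3 * (ε / s)) θ := by
    rw [hFd]
    exact (y2.add ((Dom.self (hH.1.pow g)).smul (mass Y'))).mono (hH.1.pow _) (by linarith)
      (by linarith)
  have hE : X - G = H ^ Q₁ * Y * H ^ Q₂ + F := by
    rw [hYd, hFd, mul_sub, sub_mul, mul_smul_comm, smul_mul_assoc, ← pow_add, ← pow_add, hQ]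
    abel
  have eG := full_G h hH hG dG hQ hY hF
  have sing := fun t c => single_good (P := P) (t := t) (c := c) h hH hG dG hm hQ hY hY0 hF
  have pair := fun t b c => pair_good (P := P) (t := t) (b := b) (c := c) h hH hG dG hm hQ hY hY0 hF
  rw [← hE] at eG sing pair
  clear hYd hFd hE hm1 y1 y2 hY hY0 hF
  obtain ⟨K, hKd⟩ : ∃ K, K = 2 ^ (m + 1) := ⟨_, rfl⟩
  have hKA : (K : ℝ) ≤ A := by rw [hKd]; push_cast; exact hK
  have hK0 : (0 : ℝ) ≤ K := by positivity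
  have hR : R = K + 1 := by rw [hKd, h.hR]
  set B : ℕ → Alg M := fun t => if tb (m + 1) t then X else G with hB
  set B' : ℕ → Alg M := fun t => if tb (m + 1) t then G else X with hB'
  have z0 : Dom (G - G) G (5 * ε) (4 * θ) :=
    ((Dom.zero G).mono hG.1 (by positivity) (by positivity)).of_eq (by simp) rfl
  have dB : ∀ t, Dom (B t - G) G (5 * ε) (4 * θ) := fun t => by
    simp only [hB]; split_ifs <;> assumption
  have dB' : ∀ t, Dom (B' t - G) G (5 * ε) (4 * θ) := fun t => by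
    simp only [hB']; split_ifs <;> assumption
  have hεA' : ε * A ≤ 1 / 100 := by nlinarith
  have hKε : K * (5 * ε + 4 * θ) ≤ 1 / 2 := by
    have : K * (5 * ε + 4 * θ) ≤ A * (6 * ε) := by gcongr; linarith
    linarith
  have hes : 0 < ε / s := by positivity
  have hes3 : ε / s ^ 3 ≤ ε / s := by
    rw [div_eq_mul_one_div ε, div_eq_mul_one_div ε s]
    exact mul_le_mul_of_nonneg_left h.s3 hε.le
  have hee : ε ^ 2 ≤ ε / s := by
    have := mul_le_mul_of_nonneg_left h.hεs hε.le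
    rw [mul_one_div] at this
    nlinarith
  have hLθ : θ ≤ L * θ := by nlinarith
  have hA2 : 100 * A ≤ A ^ 2 := by nlinarith
  have hA3 : 100 * A ^ 2 ≤ A ^ 3 := by nlinarith
  have hA4 : 100 * A ^ 3 ≤ A ^ 4 := by nlinarith
  have hA5 : 100 * A ^ 4 ≤ A ^ 5 := by nlinarith
  refine inv_of_good (Z := (wd B' K - wd B K) * G) hG (st_tmw hG hG hX _ _) (st_tmw hG hX hG _ _)
    ?_ ?_ ?_
  · have g1 : Good G P R (s1 G B K * G) (K * (7 * A ^ 2 * (ε / s))) (K * (20 * (ε / s ^ 3)))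
        (K * (7 * A * (L * θ))) := by
      have := Good.sum (s := range K) (P := P) (R := R) hG
        (Z := fun t => G ^ t * (B t - G) * G ^ (K - 1 - t + 1)) fun t ht => by
          have ht := Finset.mem_range.1 ht
          simp only [hB]
          split_ifs
          · exact sing t (K - 1 - t) (by omega)
          · exact (Good.zero hG (by positivity) (by positivity) (by positivity)).of_eq (by simp)
      rw [card_range] at this
      refine this.of_eq ?_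
      rw [s1, Finset.sum_mul]
      exact Finset.sum_congr rfl fun t _ => by rw [pow_succ]; simp only [mul_assoc]
    have g2 := (dom_r2 hG (by positivity) dB K hKε).mul_right hG
    rw [← pow_succ, ← hR] at g2
    refine (((g1.add (Good.of_dom hG g2)).dom hG).mono (hG.1.pow _) ?_ ?_).of_eq ?_ rfl
    · have e1 : K * (7 * A ^ 2 * (ε / s)) ≤ A * (7 * A ^ 2 * (ε / s)) := by gcongr
      have e2 : K * (20 * (ε / s ^ 3)) ≤ A * (20 * (ε / s)) := by gcongr
      have e3 : (K : ℝ) ^ 2 * ε ^ 2 ≤ A ^ 2 * (ε / s) := by gcongr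
      have e4 : (7 * A ^ 3 + 20 * A + 50 * A ^ 2) * (ε / s) ≤ A ^ 4 * (ε / s) := by
        gcongr; linarith
      nlinarith
    · have e1 : K * (7 * A * (L * θ)) ≤ A * (7 * A * (L * θ)) := by gcongr
      have e2 : K * θ ≤ A * (L * θ) := by gcongr
      have e4 : (14 * A ^ 2 + 24 * A) * (L * θ) ≤ A ^ 4 * (L * θ) := by
        gcongr; linarith
      nlinarith
    · rw [tmw, ← hKd, ← hB, hR, pad_pow, pad_sub]
      congr 2
      noncomm_ring
  · rw [tmw, tmw, ← hKd, ← hB, ← hB', pad_sub]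
  · have g1 := TS_good hG hmG R hζG hNG h.hneg (E := X - G) (by
      have := eG.nrm_le hG; linarith)
    rw [← s1_diff, ← hKd, ← hB, ← hB'] at g1
    have pz : ∀ (D : ℕ → Alg M), (∀ t, D t = X ∨ D t = G) → ∀ t b c, t + b + c + 2 = K →
        Good G P R (G ^ t * ((D t - G) * G ^ b * (D (b + (t + 1)) - G)) * G ^ (c + 1))
          (15 * A ^ 2 * (ε ^ 2 / s)) (44 * (ε ^ 2 / s ^ 3)) (15 * A * (L * θ)) := by
      intro D hD t b c htc
      rcases hD t with k1 | k1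
      · rcases hD (b + (t + 1)) with k2 | k2
        · rw [k1, k2]; exact pair t b c (hKd ▸ htc)
        · exact (Good.zero hG (by positivity) (by positivity) (by positivity)).of_eq (by simp [k2])
      · exact (Good.zero hG (by positivity) (by positivity) (by positivity)).of_eq (by simp [k1])
    have g2 := s2_good (P := P) (R := R) (K := K) (B := B) (B' := B') hG (by positivity)
      (by positivity) (by positivity) fun t b c htc =>
        ((pz B' (fun t => by simp only [hB']; split_ifs <;> simp) t b c htc).add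
          (pz B (fun t => by simp only [hB]; split_ifs <;> simp) t b c htc).neg).of_eq
          (by noncomm_ring)
    have g3 := ((dom_r3 hG (by positivity) dB' K hKε).sub
      (dom_r3 hG (by positivity) dB K hKε)).mul_right hG
    rw [← pow_succ, ← hR] at g3
    have he2 : 0 < ε ^ 2 / s := by positivity
    have he3 : 0 < ε ^ 2 / s ^ 3 := by positivity
    refine (((g1.add g2).add (Good.of_dom hG g3)).mono hG ?_ ?_ ?_).of_eq (by noncomm_ring)
    · have e1 : (K : ℝ) ^ 2 * (A ^ 2 * (ε ^ 2 / s)) ≤ A ^ 2 * (A ^ 2 * (ε ^ 2 / s)) := by gcongr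
      have e2 : ε ^ 3 ≤ ε ^ 2 / s := by
        rw [div_eq_mul_one_div, pow_succ]; gcongr; exact h.hεs
      have e3 : (K : ℝ) ^ 3 * ε ^ 3 ≤ A ^ 3 * (ε ^ 2 / s) := by gcongr
      have e4 : (30 * A ^ 4 + 500 * A ^ 3) * (ε ^ 2 / s) ≤ A ^ 5 * (ε ^ 2 / s) := by
        gcongr; linarith
      nlinarith
    · have e1 : (K : ℝ) ^ 2 * (ε ^ 2 / s ^ 3) ≤ A ^ 2 * (ε ^ 2 / s ^ 3) := by gcongr
      have e4 : (88 * A ^ 2) * (ε ^ 2 / s ^ 3) ≤ A ^ 5 * (ε ^ 2 / s ^ 3) := by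
        gcongr; linarith
      nlinarith
    · have e1 : (K : ℝ) ^ 2 * (A * (L * θ)) ≤ A ^ 2 * (A * (L * θ)) := by gcongr
      have e2 : K * θ ≤ A * (L * θ) := by gcongr
      have e4 : (30 * A ^ 3 + 16 * A + 1) * (L * θ) ≤ A ^ 4 * (L * θ) := by
        gcongr; linarith
      nlinarith

end

end Vale.Agent.P321
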