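import Vale.Agent.P321.Loc

/-! Expansions of words, change of reference, inheritance of mixing. -/

namespace Vale.Agent.P321

open MonoidAlgebra Finset

noncomputable section

/-- ordered product of the first `K` blocks -/
def wd {α : Type*} [Monoid α] : (ℕ → α) → ℕ → α
  | _, 0 => 1
  | B, K + 1 => B 0 * wd (fun t => B (t + 1)) K

lemma map_wd {α β : Type*} [Monoid α] [Monoid β] (f : α →* β) (B : ℕ → α) (K : ℕ) :
    f (wd B K) = wd (fun t => f (B t)) K := by
  induction K generalizing B with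
  | zero => simp [wd]
  | succ K ih => simp [wd, ih]

lemma wd_const {α : Type*} [Monoid α] (G : α) (K : ℕ) : wd (fun _ => G) K = G ^ K := by
  induction K with
  | zero => simp [wd]
  | succ K ih => simp [wd, ih, pow_succ']

variable {M : Type*} [Monoid M]

lemma st_wd {B : ℕ → Alg M} (h : ∀ t, St (B t)) (K : ℕ) : St (wd B K) := by
  induction K generalizing B with
  | zero => exact St.one
  | succ K ih => exact (h 0).mul (ih fun t => h (t + 1))

lemma wd_tel (G : Alg M) (B : ℕ → Alg M) (K : ℕ) :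
    wd B K = G ^ K + ∑ t ∈ range K,
      G ^ t * (B t - G) * wd (fun i => B (i + (t + 1))) (K - 1 - t) := by
  induction K generalizing B with
  | zero => simp [wd]
  | succ K ih =>
    rw [Finset.sum_range_succ']
    have e : ∑ t ∈ range K, G ^ (t + 1) * (B (t + 1) - G)
        * wd (fun i => B (i + (t + 1 + 1))) (K + 1 - 1 - (t + 1))
        = G * (wd (fun t => B (t + 1)) K - G ^ K) := by
      rw [ih (fun t => B (t + 1)), add_sub_cancel_left, Finset.mul_sum]
      refine Finset.sum_congr rfl fun t _ => ?_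
      rw [show K + 1 - 1 - (t + 1) = K - 1 - t by omega, pow_succ']
      simp only [mul_assoc]
      rfl
    rw [e]
    simp only [wd, pow_zero, one_mul, zero_add, Nat.add_sub_cancel, Nat.sub_zero, pow_succ']
    noncomm_ring

/-- first order terms -/
def s1 (G : Alg M) (B : ℕ → Alg M) (K : ℕ) : Alg M :=
  ∑ t ∈ range K, G ^ t * (B t - G) * G ^ (K - 1 - t)

/-- second order terms -/
def s2 (G : Alg M) (B : ℕ → Alg M) (K : ℕ) : Alg M :=
  ∑ t ∈ range K, G ^ t * (B t - G) * s1 G (fun i => B (i + (t + 1))) (K - 1 - t)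

section
variable {G : Alg M} {B : ℕ → Alg M} {ε θ : ℝ}

lemma dom_r1 (hG : St G) (hε : 0 ≤ ε) (h : ∀ t, Dom (B t - G) G ε θ) (K : ℕ)
    (hK : K * (ε + θ) ≤ 1 / 2) : Dom (wd B K - G ^ K) (G ^ K) (2 * K * ε) (4 * K * θ) := by
  have hθ := (h 0).theta_nonneg
  induction K generalizing B with
  | zero => simpa [wd] using Dom.zero (1 : Alg M)
  | succ K ih =>
    push_cast at hK
    have hK' : K * (ε + θ) ≤ 1 / 2 := by nlinarith
    have i := ih (B := fun t => B (t + 1)) (fun t => h (t + 1)) hK'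
    have k := (((h 0).mul i hG (hG.pow K) hε (by positivity)).add
      ((h 0).mul_right (hG.pow K))).add (i.mul_left hG)
    rw [← pow_succ'] at k
    refine (k.mono (hG.1.pow _) ?_ ?_).of_eq ?_ rfl
    · push_cast
      have : K * ε ≤ 1 / 2 := by nlinarith
      nlinarith
    · push_cast
      nlinarith [mul_le_mul_of_nonneg_left hK' hθ,
        mul_nonneg (mul_nonneg (Nat.cast_nonneg (α := ℝ) K) hθ) hθ]
    · rw [wd, pow_succ']; noncomm_ring

lemma dom_r2 (hG : St G) (hε : 0 ≤ ε) (h : ∀ t, Dom (B t - G) G ε θ) (K : ℕ)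
    (hK : K * (ε + θ) ≤ 1 / 2) :
    Dom (wd B K - G ^ K - s1 G B K) (G ^ K) (2 * K ^ 2 * ε ^ 2) (3 * K * θ) := by
  have hθ := (h 0).theta_nonneg
  have e : wd B K - G ^ K - s1 G B K = ∑ t ∈ range K, G ^ t * ((B t - G)
      * (wd (fun i => B (i + (t + 1))) (K - 1 - t) - G ^ (K - 1 - t))) := by
    rw [wd_tel G B K, s1, add_sub_cancel_left, ← Finset.sum_sub_distrib]
    exact Finset.sum_congr rfl fun t _ => by noncomm_ring
  rw [e]
  have := Dom.sum (s := range K) (μ := G ^ K) (ε := 2 * K * ε ^ 2) (θ := 3 * θ)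
    (Y := fun t => G ^ t * ((B t - G)
      * (wd (fun i => B (i + (t + 1))) (K - 1 - t) - G ^ (K - 1 - t)))) fun t ht => by
    have ht := Finset.mem_range.1 ht
    have hn : ((K - 1 - t : ℕ) : ℝ) ≤ K := by exact_mod_cast (by omega : K - 1 - t ≤ K)
    have hn0 : (0 : ℝ) ≤ ((K - 1 - t : ℕ) : ℝ) := by positivity
    have hn' : ((K - 1 - t : ℕ) : ℝ) * (ε + θ) ≤ 1 / 2 := le_trans (by gcongr) hK
    have i := dom_r1 (B := fun i => B (i + (t + 1))) hG hε (fun i => h _) (K - 1 - t) hn'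
    have k := ((h t).mul i hG (hG.pow _) hε (by positivity)).mul_left (hG.pow t)
    rw [← pow_succ', ← pow_add, show t + (K - 1 - t + 1) = K by omega] at k
    generalize ((K - 1 - t : ℕ) : ℝ) = n at *
    refine k.mono (hG.1.pow _) ?_ ?_
    · nlinarith [mul_le_mul_of_nonneg_right hn (sq_nonneg ε)]
    · nlinarith [mul_le_mul_of_nonneg_left hn' hθ, mul_nonneg (mul_nonneg hn0 hθ) hθ]
  rw [card_range] at this
  convert this using 1 <;> ring

lemma dom_r3 (hG : St G) (hε : 0 ≤ ε) (h : ∀ t, Dom (B t - G) G ε θ) (K : ℕ)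
    (hK : K * (ε + θ) ≤ 1 / 2) :
    Dom (wd B K - G ^ K - s1 G B K - s2 G B K) (G ^ K) (2 * K ^ 3 * ε ^ 3) (2 * K * θ) := by
  have hθ := (h 0).theta_nonneg
  have e : wd B K - G ^ K - s1 G B K - s2 G B K = ∑ t ∈ range K, G ^ t * ((B t - G)
      * (wd (fun i => B (i + (t + 1))) (K - 1 - t) - G ^ (K - 1 - t)
        - s1 G (fun i => B (i + (t + 1))) (K - 1 - t))) := by
    rw [wd_tel G B K, s2]
    conv_lhs => enter [1, 2]; rw [s1]
    rw [add_sub_cancel_left, ← Finset.sum_sub_distrib, ← Finset.sum_sub_distrib]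
    exact Finset.sum_congr rfl fun t _ => by noncomm_ring
  rw [e]
  have := Dom.sum (s := range K) (μ := G ^ K) (ε := 2 * K ^ 2 * ε ^ 3) (θ := 2 * θ)
    (Y := fun t => G ^ t * ((B t - G)
      * (wd (fun i => B (i + (t + 1))) (K - 1 - t) - G ^ (K - 1 - t)
        - s1 G (fun i => B (i + (t + 1))) (K - 1 - t)))) fun t ht => by
    have ht := Finset.mem_range.1 ht
    have hn : ((K - 1 - t : ℕ) : ℝ) ≤ K := by exact_mod_cast (by omega : K - 1 - t ≤ K)
    have hn0 : (0 : ℝ) ≤ ((K - 1 - t : ℕ) : ℝ) := by positivity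
    have hn' : ((K - 1 - t : ℕ) : ℝ) * (ε + θ) ≤ 1 / 2 := le_trans (by gcongr) hK
    have i := dom_r2 (B := fun i => B (i + (t + 1))) hG hε (fun i => h _) (K - 1 - t) hn'
    have k := ((h t).mul i hG (hG.pow _) hε (by positivity)).mul_left (hG.pow t)
    rw [← pow_succ', ← pow_add, show t + (K - 1 - t + 1) = K by omega] at k
    generalize ((K - 1 - t : ℕ) : ℝ) = n at *
    refine k.mono (hG.1.pow _) ?_ ?_
    · have : n ^ 2 ≤ (K : ℝ) ^ 2 := by gcongr
      nlinarith [mul_le_mul_of_nonneg_right this (pow_nonneg hε 3)]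
    · have h1 : n * ε ≤ 1 / 2 := by nlinarith
      have h2 : (n * ε) ^ 2 ≤ (1 / 2) ^ 2 := by gcongr
      nlinarith [mul_le_mul_of_nonneg_left hn' hθ, mul_le_mul_of_nonneg_left h2 hθ]
  rw [card_range] at this
  convert this using 1 <;> ring

end

lemma Dom.ref {G μ : Alg M} {κ θ : ℝ} (h : Dom (G - μ) μ κ θ) (hμ : Pos μ) (hG : Pos G)
    (hκ : κ ≤ 1 / 2) : Dom μ G 2 (2 * θ) := by
  obtain ⟨η, a, b, c⟩ := h
  refine ⟨(2 : ℝ) • η, a.smul (by norm_num), by rw [map_smul, smul_eq_mul]; linarith, ?_, ?_⟩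
  · exact ((c.2.smul (c := 2) (by norm_num)).add (hμ.smul (c := 1 - 2 * κ) (by linarith))).of_eq
      (by module)
  · exact ((hG.smul (by norm_num)).add (a.smul (by norm_num))).add hμ

section
variable {G μ : Alg M} {κ θ L : ℝ}

lemma dom_pow_sub (hμ : St μ) (hκ : 0 ≤ κ) (h : Dom (G - μ) μ κ θ) (hL : L * (κ + θ) ≤ 1 / 4)
    {n : ℕ} (hn : n ≤ L) : Dom (G ^ n - μ ^ n) (μ ^ n) (2 * n * κ) (4 * n * θ) := by
  have hθ := h.theta_nonneg
  have := dom_r1 (B := fun _ => G) hμ hκ (fun _ => h) n (by nlinarith)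
  rwa [wd_const] at this

lemma dom_pow_ref (hμ : St μ) (hG : St G) (hκ : 0 ≤ κ) (h : Dom (G - μ) μ κ θ)
    (hL : L * (κ + θ) ≤ 1 / 4) {n : ℕ} (hn : n ≤ L) : Dom (μ ^ n) (G ^ n) 2 (8 * L * θ) := by
  have hθ := h.theta_nonneg
  refine ((dom_pow_sub hμ hκ h hL hn).ref (hμ.1.pow n) (hG.1.pow n) (by nlinarith)).mono
    (hG.1.pow n) le_rfl (by nlinarith)

lemma swap (hμ : St μ) (hG : St G) (hκ : 0 ≤ κ) (h : Dom (G - μ) μ κ θ)
    (hL : L * (κ + θ) ≤ 1 / 4) {a b R : ℕ} (hn : a + R + b ≤ L) {V : Alg M} {ε θ' : ℝ}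
    (hV : Dom V (μ ^ R) ε θ') (hε : 0 ≤ ε) (hε1 : ε ≤ 1) (hθ' : θ' ≤ 1) :
    Dom (G ^ a * V * G ^ b - μ ^ a * V * μ ^ b) (G ^ (a + R + b)) (4 * L * κ * ε)
      (12 * L * θ + θ') := by
  have hθ := h.theta_nonneg
  have hθ0 := hV.theta_nonneg
  have ha : (0 : ℝ) ≤ a := by positivity
  have hb : (0 : ℝ) ≤ b := by positivity
  have hR : (0 : ℝ) ≤ R := by positivity
  have d1 := dom_pow_sub hμ hκ h hL (n := a) (by linarith)
  have d2 := dom_pow_sub hμ hκ h hL (n := b) (by linarith)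
  have r1 := dom_pow_ref hμ hG hκ h hL (n := a + R) (by push_cast; linarith)
  have r2 := dom_pow_ref hμ hG hκ h hL (n := a + R + b) (by push_cast; linarith)
  have k1 := d1.mul hV (hμ.pow a) (hμ.pow R) (by positivity) hε
  rw [← pow_add] at k1
  have k2 := (k1.trans r1 (by positivity)).mul_right (hG.pow b)
  rw [← pow_add] at k2
  have k3 := (hV.mul_left (hμ.pow a)).mul d2 ((hμ.pow a).mul (hμ.pow R)) (hμ.pow b) hε
    (by positivity)
  rw [← pow_add, ← pow_add] at k3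
  have k4 := k3.trans r2 (by positivity)
  refine ((k2.add k4).mono (hG.1.pow _) ?_ ?_).of_eq (by noncomm_ring) rfl
  · have : (a + b) * (κ * ε) ≤ L * (κ * ε) := by gcongr; linarith
    nlinarith
  · have hL0 : 0 ≤ L := by linarith
    have e1 : (a + b) * κ ≤ 1 / 4 := by nlinarith
    have e2 : (a + b) * θ ≤ L * θ := by gcongr; linarith
    have e3 : b * θ ≤ 1 / 4 := by nlinarith
    have e4 : (a + b) * κ * ε ≤ 1 / 4 := by nlinarith [mul_nonneg (add_nonneg ha hb) hκ]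
    have e5 : (a + b) * κ * ε * (L * θ) ≤ 1 / 4 * (L * θ) := by gcongr
    have e6 : a * θ * (ε + θ') ≤ a * θ * 2 := by gcongr; linarith
    have e7 : b * θ * ε ≤ b * θ * 1 := by gcongr
    have e8 : (a + b) * κ * θ' ≤ 1 / 4 * θ' := by gcongr
    have e9 : b * θ * θ' ≤ b * θ * 1 := by gcongr
    nlinarith

end

lemma inherit {G G' : Alg M} (hG : St G) (hG' : St G') {y κ θ : ℝ} (hm : Mix G y) {g W : ℕ}
    (hg : 0 < g) (hW : 0 < W) (hκ : 0 < κ) (h : Dom (G' - G ^ g) (G ^ g) κ θ) (h1 : 9 * g * y ≤ W)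
    (h2 : (W + 1) * (κ + θ) ^ 2 ≤ 1 / 100) (h3 : (W + 1) * θ ≤ 1 / 12) :
    Mix G' (48 * (W + 1)) := by
  have hθ := h.theta_nonneg
  have sμ := hG.pow g
  obtain ⟨Y, k1, k2, k3⟩ := h.exact sμ hκ.le (by simp [hG'.2, sμ.2])
  have hW1 : (1 : ℝ) ≤ W := by exact_mod_cast hW
  have hk1 : κ + θ ≤ 1 := by nlinarith
  have sν : St (G ^ g + Y) := ⟨(k1.2.add (sμ.1.smul (sub_nonneg.2 hk1))).of_eq (by module),
    by simp [sμ.2, k2]⟩
  obtain ⟨η, c1, c2⟩ := chi_add (by linarith) sμ k1 k2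
  have key : ∀ n : ℕ, n ≤ W + 1 → nrm (G' ^ n - (G ^ g) ^ n) ≤ 1 / 3 := fun n hn => by
    have hn' : (n : ℝ) ≤ W + 1 := by exact_mod_cast hn
    have a1 := nrm_pow_sub_pow hG' sν n
    rw [show G' - (G ^ g + Y) = G' - G ^ g - Y by abel] at a1
    have a2 : nrm ((G ^ g + Y) ^ n - (G ^ g) ^ n) ≤ 1 / 6 := by
      refine (c1.pow n).nrm_sub (sν.pow n).2 (sμ.pow n).2 (by norm_num) ?_
      rw [mass_pow, c2]
      have b1 : (1 + (κ + θ) ^ 2) ^ n ≤ Real.exp (n * (κ + θ) ^ 2) := by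
        rw [Real.exp_nat_mul]
        exact pow_le_pow_left₀ (by positivity) (by linarith [Real.add_one_le_exp ((κ + θ) ^ 2)]) n
      have b2 : n * (κ + θ) ^ 2 ≤ 1 / 100 := le_trans (by gcongr) h2
      have b3 := Real.exp_bound_div_one_sub_of_interval (x := 1 / 100) (by norm_num) (by norm_num)
      have b4 := Real.exp_le_exp.2 b2
      norm_num at b3 ⊢
      norm_num only at b4
      linarith
    have a3 := nrm_triangle (G' ^ n) ((G ^ g + Y) ^ n) ((G ^ g) ^ n)
    have a4 : n * nrm (G' - G ^ g - Y) ≤ (W + 1) * (2 * θ) := by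
      have := nrm_nonneg (G' - G ^ g - Y)
      gcongr
    linarith
  have hg' : (0 : ℝ) < g := by exact_mod_cast hg
  have mid : nrm ((G ^ g) ^ (W + 1) - (G ^ g) ^ W) ≤ 1 / 3 := by
    have m1 := hm.mixAt (N := g * W) (ζ := 1 / (3 * g)) (Nat.mul_pos hg hW) (by positivity) (by
      push_cast
      rw [show (g : ℝ) * W * (1 / (3 * g)) ^ 2 = W / (9 * g) by field_simp; ring,
        le_div_iff₀ (by positivity)]
      linarith)
    have := m1.jump (n := g * W) le_rfl g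
    rw [← pow_mul, ← pow_mul, mul_add, mul_one]
    refine this.trans (le_of_eq ?_)
    field_simp
  have t1 := nrm_triangle (G' ^ (W + 1)) ((G ^ g) ^ (W + 1)) (G' ^ W)
  have t2 := nrm_triangle ((G ^ g) ^ (W + 1)) ((G ^ g) ^ W) (G' ^ W)
  have t3 := key (W + 1) le_rfl
  have t4 := key W (by omega)
  rw [nrm_sub_comm] at t4
  have := boost hG' (W := W) (c := 1 / 2) (by norm_num) (by linarith)
  convert this using 1
  ring

end

end Vale.Agent.P321
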